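import Vale.Agent.P221.H460.C1

/-!
# P221 (helper128): operations with coordinates in `ℤ_p[v_1, …, v_n]`

* `Dec` : homogeneous elements of degree `< |x_l|` are polynomials in `v_1, …, v_n` modulo `x_i`,
  `i < l`;
* `DB` : the action of `x_l` on the coordinates of `[BP, B]`;
* `key` : `f ∘ y ∘ x_l = f ∘ (D_l y) + (f ∘ x_l) ∘ y` for `f` killed by `x_i`, `i < l`.
-/

open MvPolynomial

set_option linter.unusedSectionVars false

namespace Vale.Agent.P221.H128

open Vale.Agent.P221.T Vale.Agent.P221.T.H746 Vale.Agent.P221.H460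

variable {p : ℕ} [hp : Fact p.Prime] {n : ℕ}

/-- `x_l` -/
noncomputable def xx {ld : Lead p n} {S : Src p n} (O : OpAlg ld S) (l : ℕ) : KK p :=
  coeff 0 (O.η l)

section dec

variable (p n) in
/-- `f` is a polynomial in `v_1, …, v_n` modulo `x_i`, `i < l` -/
def Dec (x : ℕ → KK p) (l : ℕ) (d : ℤ) (f : KK p) : Prop :=
  ∃ (a : MvPolynomial (Fin n) ℤ_[p]) (h : ℕ → KK p), HK p d (RN p n a) ∧
    (∀ i, HK p (d - dd p n i) (h i)) ∧ f = RN p n a + ∑ i ∈ Finset.range l, x i * h i

theorem HK_add {d : ℤ} {f g : KK p} (h : HK p d f) (h' : HK p d g) : HK p d (f + g) :=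
  (weightedHomogeneousSubmodule ℤ_[p] (fun i : ℕ => sV p (i + 1)) d).add_mem h h'

theorem HK_sub {d : ℤ} {f g : KK p} (h : HK p d f) (h' : HK p d g) : HK p d (f - g) :=
  (weightedHomogeneousSubmodule ℤ_[p] (fun i : ℕ => sV p (i + 1)) d).sub_mem h h'

theorem HK_sum {d : ℤ} {ι : Type*} (A : Finset ι) {f : ι → KK p} (h : ∀ i ∈ A, HK p d (f i)) :
    HK p d (∑ i ∈ A, f i) :=
  (weightedHomogeneousSubmodule ℤ_[p] (fun i : ℕ => sV p (i + 1)) d).sum_mem h

theorem HK_mul {d d' e : ℤ} {f g : KK p} (h : HK p d f) (h' : HK p d' g) (he : d + d' = e) :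
    HK p e (f * g) := HK_cast he (IsWeightedHomogeneous.mul h h')

theorem HK_C (c : ℤ_[p]) : HK p 0 (C c) := isWeightedHomogeneous_C _ _

theorem HK_monomial (α : ℕ →₀ ℕ) (c : ℤ_[p]) : HK p (dT p α) (monomial α c) :=
  isWeightedHomogeneous_monomial _ _ _ rfl

theorem dT_single (i m : ℕ) : dT p (Finsupp.single i m) = m * sV p (i + 1) := by
  rw [dT, Finsupp.weight_single, nsmul_eq_mul]

theorem sV_injective {i j : ℕ} (h : sV p i = sV p j) : i = j := by
  rcases lt_trichotomy i j with h1 | h1 | h1
  · have := sV_lt p h1; omega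
  · exact h1
  · have := sV_lt p h1; omega

theorem dT_pos {E : ℕ →₀ ℕ} (h : E ≠ 0) : 0 < dT p E := by
  obtain ⟨i, hi⟩ := Finsupp.ne_iff.1 h
  rw [Finsupp.zero_apply] at hi
  have h1 : E = Finsupp.single i 1 + (E - Finsupp.single i 1) := by
    rw [add_tsub_cancel_of_le]
    rw [Finsupp.single_le_iff]
    omega
  rw [h1, dT_add, dT_single]
  have h2 := dT_nonneg (p := p) (E - Finsupp.single i 1)
  have h3 := sV_pos p i
  push_cast
  omega

variable {x : ℕ → KK p} {l : ℕ}

theorem Dec.add {d : ℤ} {f g : KK p} (h : Dec p n x l d f) (h' : Dec p n x l d g) :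
    Dec p n x l d (f + g) := by
  obtain ⟨a, u, h1, h2, rfl⟩ := h
  obtain ⟨a', u', h1', h2', rfl⟩ := h'
  refine ⟨a + a', fun i => u i + u' i, ?_, fun i => HK_add (h2 i) (h2' i), ?_⟩
  · rw [map_add]
    exact HK_add h1 h1'
  · rw [map_add]
    simp only [mul_add, Finset.sum_add_distrib]
    ring

theorem Dec.zero (d : ℤ) : Dec p n x l d 0 :=
  ⟨0, fun _ => 0, by rw [map_zero]; exact HK_zero d, fun _ => HK_zero _, by simp⟩

theorem Dec.sum {d : ℤ} {ι : Type*} (A : Finset ι) {f : ι → KK p}
    (h : ∀ i ∈ A, Dec p n x l d (f i)) : Dec p n x l d (∑ i ∈ A, f i) := by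
  classical
  induction A using Finset.induction_on with
  | empty => rw [Finset.sum_empty]; exact Dec.zero d
  | insert i A hi ih =>
    rw [Finset.sum_insert hi]
    exact (h i (Finset.mem_insert_self _ _)).add (ih fun j hj => h j (Finset.mem_insert_of_mem hj))

theorem Dec.mul {d d' e : ℤ} {f g : KK p} (h : Dec p n x l d f) (h' : Dec p n x l d' g)
    (hg : HK p d' g) (he : d + d' = e) : Dec p n x l e (f * g) := by
  obtain ⟨a, u, h1, h2, rfl⟩ := h
  obtain ⟨a', u', h1', h2', hg'⟩ := h'
  refine ⟨a * a', fun i => u i * g + RN p n a * u' i, ?_, fun i => ?_, ?_⟩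
  · rw [map_mul]
    exact HK_mul h1 h1' he
  · exact HK_add (HK_mul (h2 i) hg (by omega)) (HK_mul h1 (h2' i) (by omega))
  · have e1 : ∑ i ∈ Finset.range l, x i * (u i * g + RN p n a * u' i) =
        (∑ i ∈ Finset.range l, x i * u i) * g + RN p n a * ∑ i ∈ Finset.range l, x i * u' i := by
      rw [Finset.sum_mul, Finset.mul_sum, ← Finset.sum_add_distrib]
      exact Finset.sum_congr rfl fun i _ => by ring
    rw [e1, map_mul]
    have e2 : RN p n a * g = RN p n a * RN p n a' +
        RN p n a * ∑ i ∈ Finset.range l, x i * u' i := by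
      rw [← mul_add, ← hg']
    linear_combination e2

theorem Dec.C_mul {d : ℤ} {f : KK p} (h : Dec p n x l d f) (c : ℤ_[p]) :
    Dec p n x l d (C c * f) := by
  obtain ⟨a, u, h1, h2, rfl⟩ := h
  refine ⟨C c * a, fun i => C c * u i, ?_, fun i => HK_mul (HK_C c) (h2 i) (zero_add _), ?_⟩
  · rw [map_mul, rename_C]
    exact HK_mul (HK_C c) h1 (zero_add _)
  · rw [map_mul, rename_C, mul_add, Finset.mul_sum]
    congr 1
    exact Finset.sum_congr rfl fun i _ => by ring

variable (hx : ∀ i, HK p (dd p n i) (x i)) (hx' : ∀ i, x i - X (n + i) ∈ Ip p 2)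

include hx hx' in
theorem dec_monomial (N : ℕ) : ∀ α : ℕ →₀ ℕ, dT p α < N → dT p α < dd p n l →
    Dec p n x l (dT p α) (monomial α 1) := by
  classical
  induction N with
  | zero =>
    intro α h
    have := dT_nonneg (p := p) α
    exact absurd h (by push_cast; omega)
  | succ N ih =>
    -- decomposable monomials
    have hdec : ∀ α : ℕ →₀ ℕ, dT p α < (N + 1 : ℕ) → dT p α < dd p n l → 2 ≤ α.degree →
        Dec p n x l (dT p α) (monomial α 1) := by
      intro α h1 h2 h3
      have hne : α ≠ 0 := by
        rintro rfl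
        rw [map_zero] at h3
        omega
      obtain ⟨i, hi⟩ := Finsupp.ne_iff.1 hne
      rw [Finsupp.zero_apply] at hi
      set β := α - Finsupp.single i 1 with hβ
      have h4 : α = Finsupp.single i 1 + β := by
        rw [hβ, add_tsub_cancel_of_le]
        rw [Finsupp.single_le_iff]
        omega
      have h5 : β ≠ 0 := by
        intro h0
        rw [h4, h0, add_zero, Finsupp.degree_single] at h3
        omega
      have h6 := dT_pos (p := p) h5
      have h7 : (Finsupp.single i 1 : ℕ →₀ ℕ) ≠ 0 := by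
        rw [Ne, Finsupp.single_eq_zero]
        omega
      have h8 := dT_pos (p := p) h7
      have h9 : dT p α = dT p (Finsupp.single i 1) + dT p β := by rw [h4, dT_add]
      have h10 : (monomial α 1 : KK p) = monomial (Finsupp.single i 1) 1 * monomial β 1 := by
        rw [monomial_mul, _root_.one_mul, ← h4]
      rw [h10]
      push_cast at h1
      exact (ih _ (by omega) (by omega)).mul (ih _ (by omega) (by omega)) (HK_monomial β 1) h9.symm
    intro α h1 h2
    by_cases h3 : 2 ≤ α.degree
    · exact hdec α h1 h2 h3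
    by_cases h0 : α = 0
    · subst h0
      refine ⟨1, fun _ => 0, ?_, fun _ => HK_zero _, ?_⟩
      · rw [map_one, dT_zero]
        exact isWeightedHomogeneous_one _ _
      · rw [show (monomial 0 1 : KK p) = 1 from rfl, map_one]
        simp
    obtain ⟨i, hi⟩ := Finsupp.ne_iff.1 h0
    rw [Finsupp.zero_apply] at hi
    have h4 : α = Finsupp.single i 1 := by
      have h5 : α = Finsupp.single i 1 + (α - Finsupp.single i 1) := by
        rw [add_tsub_cancel_of_le]
        rw [Finsupp.single_le_iff]
        omega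
      have h6 : α.degree = 1 + (α - Finsupp.single i 1).degree := by
        conv_lhs => rw [h5]
        rw [map_add, Finsupp.degree_single]
      have h7 : (α - Finsupp.single i 1).degree = 0 := by omega
      have h8 : α - Finsupp.single i 1 = 0 := (Finsupp.degree_eq_zero_iff _).1 h7
      rw [h5, h8, add_zero]
    subst h4
    have hdT : dT p (Finsupp.single i 1) = sV p (i + 1) := by rw [dT_single]; push_cast; ring
    rcases lt_or_ge i n with hin | hin
    · refine ⟨X ⟨i, hin⟩, fun _ => 0, ?_, fun _ => HK_zero _, ?_⟩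
      · rw [rename_X]
        exact HK_cast hdT.symm (HK_X i)
      · rw [rename_X]
        simp [X]
    · obtain ⟨j, rfl⟩ : ∃ j, i = n + j := ⟨i - n, by omega⟩
      have hj : dT p (Finsupp.single (n + j) 1) = dd p n j := by
        rw [hdT, dd]; congr 1; omega
      have hjl : j < l := by
        by_contra hcon
        push Not at hcon
        rw [hj] at h2
        have h5 : dd p n l ≤ dd p n j := by
          rcases hcon.lt_or_eq with h | h
          · exact (sV_lt p (by omega)).le
          · rw [h]
        omega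
      -- the coefficient of `X (n + j)` in `x j`
      set c : ℤ_[p] := coeff (Finsupp.single (n + j) 1) (x j) with hc
      have hc1 : (p : ℤ_[p]) ∣ c - 1 := by
        have h5 := (mem_Ip_iff p).1 (hx' j) (Finsupp.single (n + j) 1)
        rw [Finsupp.degree_single, coeff_sub, coeff_X, if_pos rfl] at h5
        have h6 : (2 : ℤ).toNat - 1 = 1 := rfl
        rwa [h6, pow_one] at h5
      have hcu : IsUnit c := by
        by_contra hcon
        have h5 : (p : ℤ_[p]) ∣ c := by
          have h6 : c ∈ IsLocalRing.maximalIdeal ℤ_[p] := (IsLocalRing.mem_maximalIdeal _).2 hcon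
          rwa [PadicInt.maximalIdeal_eq_span_p, Ideal.mem_span_singleton] at h6
        have h6 : (p : ℤ_[p]) ∣ 1 := by
          have := dvd_sub h5 hc1
          rwa [sub_sub_cancel] at this
        exact PadicInt.p_nonunit (isUnit_of_dvd_one h6)
      obtain ⟨c', hc'⟩ := hcu.exists_left_inv
      have hsum : x j = C c * monomial (Finsupp.single (n + j) 1) 1 +
          ∑ β ∈ (x j).support.erase (Finsupp.single (n + j) 1), C (coeff β (x j)) * monomial β 1 := by
        conv_lhs => rw [(x j).as_sum]
        have h5 : ∀ β, (monomial β (coeff β (x j)) : KK p) = C (coeff β (x j)) * monomial β 1 := by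
          intro β
          rw [C_mul_monomial, _root_.mul_one]
        simp only [h5]
        by_cases h6 : Finsupp.single (n + j) 1 ∈ (x j).support
        · rw [← Finset.add_sum_erase _ _ h6]
        · rw [Finset.erase_eq_of_notMem h6]
          rw [mem_support_iff, not_not] at h6
          rw [hc, h6, C_0, zero_mul, zero_add]
      have hX : (monomial (Finsupp.single (n + j) 1) 1 : KK p) = C c' * (x j +
          C (-1) * ∑ β ∈ (x j).support.erase (Finsupp.single (n + j) 1),
            C (coeff β (x j)) * monomial β 1) := by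
        have h5 : (C c' * C c : KK p) = 1 := by rw [← C_mul, hc', C_1]
        rw [map_neg, C_1]
        linear_combination (-(C c') : KK p) * hsum -
          (monomial (Finsupp.single (n + j) 1) 1 : KK p) * h5
      rw [hX]
      refine Dec.C_mul (Dec.add ?_ (Dec.C_mul (Dec.sum _ fun β hβ => Dec.C_mul ?_ _) _)) _
      · refine ⟨0, fun i => if i = j then 1 else 0, ?_, fun i => ?_, ?_⟩
        · rw [map_zero]
          exact HK_zero _
        · dsimp only
          split_ifs with h
          · rw [h, hj, sub_self]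
            exact isWeightedHomogeneous_one _ _
          · exact HK_zero _
        · rw [map_zero, zero_add]
          simp only [mul_ite, _root_.mul_one, mul_zero]
          rw [Finset.sum_ite_eq' (Finset.range l) j, if_pos (Finset.mem_range.2 hjl)]
      · rw [Finset.mem_erase, mem_support_iff] at hβ
        have h5 : dT p β = dd p n j := hx j hβ.2
        have h6 : 2 ≤ β.degree := by
          by_contra hcon
          push Not at hcon
          have h7 : β ≠ 0 := by
            rintro rfl
            rw [dT_zero, dd] at h5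
            have := sV_pos p (n + j)
            rw [show n + 1 + j = n + j + 1 by omega] at h5
            omega
          obtain ⟨i, hi⟩ := Finsupp.ne_iff.1 h7
          rw [Finsupp.zero_apply] at hi
          have h8 : β = Finsupp.single i 1 := by
            have h9 : β = Finsupp.single i 1 + (β - Finsupp.single i 1) := by
              rw [add_tsub_cancel_of_le]
              rw [Finsupp.single_le_iff]
              omega
            have h10 : β.degree = 1 + (β - Finsupp.single i 1).degree := by
              conv_lhs => rw [h9]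
              rw [map_add, Finsupp.degree_single]
            have h11 : (β - Finsupp.single i 1).degree = 0 := by omega
            have h12 : β - Finsupp.single i 1 = 0 := (Finsupp.degree_eq_zero_iff _).1 h11
            rw [h9, h12, add_zero]
          rw [h8, dT_single] at h5
          have h13 : i + 1 = n + 1 + j := sV_injective (p := p) (by rw [← dd]; push_cast at h5; omega)
          apply hβ.1
          rw [h8, show i = n + j by omega]
        have h7 := hdec β (by rw [h5, ← hj]; exact h1) (by rw [h5, ← hj]; exact h2) h6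
        rw [hj, ← h5]
        exact h7

include hx hx' in
/-- homogeneous elements of degree `< |x_l|` -/
theorem dec_all {d : ℤ} {f : KK p} (hf : HK p d f) (hd : d < dd p n l) : Dec p n x l d f := by
  classical
  rw [f.as_sum]
  refine Dec.sum _ fun α hα => ?_
  have h1 : dT p α = d := hf (mem_support_iff.1 hα)
  have h2 : (monomial α (coeff α f) : KK p) = C (coeff α f) * monomial α 1 := by
    rw [C_mul_monomial, _root_.mul_one]
  rw [h2, ← h1]
  exact Dec.C_mul (dec_monomial hx hx' ((dT p α).toNat + 1) α (by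
    have := dT_nonneg (p := p) α
    push_cast
    omega) (by omega)) _

end dec

/-! ### the action of `x_l` on coordinates -/

section act

variable {ld : Lead p n} {S : Src p n} {O : OpAlg ld S}

theorem coeff_zero_mul (a b : GG p) : coeff 0 (a * b) = coeff 0 a * coeff 0 b := by
  have h1 := map_mul (constantCoeff : GG p →+* KK p) a b
  rwa [constantCoeff_eq] at h1

theorem eta_homog (l : ℕ) (E : ℕ →₀ ℕ) : HK p (dd p n l - dT p E) (coeff E (O.η l)) := by
  have h1 := O.homog (dd p n l) (S.x l) 0 E
  rw [O.T_x, dT_zero, add_zero] at h1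
  have h2 : (monomial 0 1 : GG p) = 1 := rfl
  rwa [h2, _root_.mul_one] at h1

theorem xx_homog (l : ℕ) : HK p (dd p n l) (xx O l) := by
  have h1 := eta_homog (O := O) l 0
  rwa [dT_zero, sub_zero] at h1

theorem xx_sub_mem (l : ℕ) : xx O l - X (n + l) ∈ Ip p 2 := by
  classical
  obtain ⟨r, hr, h⟩ := coeff_eta O l 0 0
  have h2 : (monomial 0 1 : GG p) = 1 := rfl
  rw [h2, _root_.mul_one] at h
  have h3 : ∑ a ∈ Finset.range (n + 2 + l),
      (if muE (p := p) n l a + 0 = 0 then vK p a else 0 : KK p) = X (n + l) := by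
    rw [Finset.sum_eq_single (n + 1 + l)]
    · have h4 : muE (p := p) n l (n + 1 + l) = 0 := by
        unfold muE
        rw [if_neg (by omega)]
      rw [h4, if_pos (add_zero 0), show n + 1 + l = n + l + 1 by omega]
      rfl
    · intro a ha hne
      rw [Finset.mem_range] at ha
      have h4 : muE (p := p) n l a = Finsupp.single (n + l - a) (p ^ a) := by
        unfold muE
        rw [if_pos (by omega)]
      rw [h4, add_zero, if_neg]
      rw [Finsupp.single_eq_zero]
      exact pow_ne_zero _ hp.out.ne_zero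
    · intro h4
      exact absurd (Finset.mem_range.2 (by omega)) h4
  rw [xx, h, h3, add_sub_cancel_left]
  exact hr

/-- the action of `x_l` on the coordinates of `[BP, B]`; `ρ` is the map `BP_* ⟶ B_*` -/
noncomputable def DB (O : OpAlg ld S) (ρ : KK p →ₐ[ℤ_[p]] MvPolynomial (Fin n) ℤ_[p]) (l : ℕ)
    (u : (ℕ →₀ ℕ) → MvPolynomial (Fin n) ℤ_[p]) (E : ℕ →₀ ℕ) : MvPolynomial (Fin n) ℤ_[p] :=
  ∑ E' ∈ (O.η l).support, ρ (coeff E' (O.η l)) * u (E + E')

/-- `γ` has the coordinates `u` -/
def HasC (O : OpAlg ld S) {m : ℤ} (γ : S.E m) (u : (ℕ →₀ ℕ) → KK p) : Prop :=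
  ∀ E, coeff 0 (O.T m γ (monomial E 1)) = u E

theorem T_eta_mul {M : Type} [AddCommGroup M] [Module (KK p) M] (f : GG p →ₗ[KK p] M) (z : GG p)
    (E : ℕ →₀ ℕ) : f (z * monomial E 1) = ∑ E' ∈ z.support, coeff E' z • f (monomial (E + E') 1) := by
  conv_lhs => rw [z.as_sum, Finset.sum_mul, map_sum]
  refine Finset.sum_congr rfl fun E' _ => ?_
  have h1 : (monomial E' (coeff E' z) * monomial E 1 : GG p) =
      coeff E' z • monomial (E + E') 1 := by
    rw [monomial_mul, _root_.mul_one, smul_monomial, smul_eq_mul, _root_.mul_one, add_comm]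
  rw [h1, map_smul]

variable (X : OpX O) (ρ : KK p →ₐ[ℤ_[p]] MvPolynomial (Fin n) ℤ_[p])

include X in
/-- **the key identity** -/
theorem key (hρ : ∀ a, ρ (RN p n a) = a) (hρx : ∀ l, ρ (xx O l) = 0) {M : Type} [AddCommGroup M]
    [Module (KK p) M] (f : GG p →ₗ[KK p] M) (l : ℕ) (hf : ∀ i < l, ∀ z, f (O.η i * z) = 0)
    {m m' : ℤ} (hm : m + dd p n l = m') {u : (ℕ →₀ ℕ) → MvPolynomial (Fin n) ℤ_[p]}
    (hu : ∀ E, HK p (m + dT p E) (RN p n (u E))) {γ : S.E m} (hγ : HasC O γ fun E => RN p n (u E))
    {δ : S.E m'} (hδ : HasC O δ fun E => RN p n (DB O ρ l u E)) (z : GG p) :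
    f (O.T m γ (O.η l * z)) = f (O.T m' δ z) + f (O.η l * O.T m γ z) := by
  classical
  -- the decomposition of the coefficients of `η l`
  have hdec : ∀ E', E' ≠ 0 → Dec p n (xx O) l (dd p n l - dT p E') (coeff E' (O.η l)) := by
    intro E' hE'
    have h1 := dT_pos (p := p) hE'
    exact dec_all (fun i => xx_homog i) (fun i => xx_sub_mem i) (eta_homog l E') (by omega)
  choose! a h ha hh hdec using hdec
  have hρa : ∀ E', E' ≠ 0 → a E' = ρ (coeff E' (O.η l)) := by
    intro E' hE'
    conv_rhs => rw [hdec E' hE']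
    rw [map_add, hρ, map_sum, Finset.sum_eq_zero, add_zero]
    intro i _
    rw [map_mul, hρx, zero_mul]
  -- the operations `γ_i`
  have hκ : ∀ i, ∃ γ' : S.E (m' - dd p n i), γ' ∈ S.F 0 _ ∧
      ∀ E, coeff 0 (O.T _ γ' (monomial E 1)) =
        ∑ E' ∈ (O.η l).support.erase 0, h E' i * RN p n (u (E + E')) := by
    intro i
    refine X.ex (m' - dd p n i) 0 _ (fun E => HK_sum _ fun E' hE' => ?_)
      (fun E => Ip_of_nonpos p le_rfl _)
    have h1 := hh E' (Finset.ne_of_mem_erase hE') i
    exact HK_mul h1 (hu (E + E')) (by rw [dT_add]; omega)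
  choose γ' _ hγ' using hκ
  choose ε hε using fun i => X.comp (show dd p n i + (m' - dd p n i) = m' by omega) (S.x i) (γ' i)
  obtain ⟨ε₀, hε₀⟩ := X.comp (show dd p n l + m = m' by omega) (S.x l) γ
  obtain ⟨ε₁, hε₁⟩ := X.comp hm γ (S.x l)
  have hT : O.T m' ε₁ = O.T m' (δ + ∑ i ∈ Finset.range l, ε i + ε₀) := by
    refine T_eq X fun E => ?_
    rw [hε₁, LinearMap.comp_apply, O.T_x, map_add, map_add, map_sum, LinearMap.add_apply,
      LinearMap.add_apply, LinearMap.sum_apply, coeff_add, coeff_add, coeff_sum, hδ, hε₀,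
      LinearMap.comp_apply, O.T_x]
    have h1 : ∀ i, coeff 0 (O.T m' (ε i) (monomial E 1)) =
        xx O i * ∑ E' ∈ (O.η l).support.erase 0, h E' i * RN p n (u (E + E')) := by
      intro i
      rw [hε, LinearMap.comp_apply, O.T_x, coeff_zero_mul, hγ' i]
      rfl
    rw [Finset.sum_congr rfl fun i _ => h1 i, coeff_zero_mul, hγ E, T_eta_mul, coeff_sum]
    have h2 : ∀ E', coeff 0 (coeff E' (O.η l) • O.T m γ (monomial (E + E') 1)) =
        coeff E' (O.η l) * RN p n (u (E + E')) := by
      intro E'
      rw [coeff_smul, hγ, smul_eq_mul]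
    rw [Finset.sum_congr rfl fun E' _ => h2 E']
    simp only [DB, map_sum]
    have h3 : ∀ g : (ℕ →₀ ℕ) → KK p, (∀ E', coeff E' (O.η l) = 0 → g E' = 0) →
        ∑ E' ∈ (O.η l).support, g E' = g 0 + ∑ E' ∈ (O.η l).support.erase 0, g E' := by
      intro g hg
      by_cases h4 : (0 : ℕ →₀ ℕ) ∈ (O.η l).support
      · rw [Finset.add_sum_erase _ _ h4]
      · rw [Finset.erase_eq_of_notMem h4]
        rw [mem_support_iff, not_not] at h4
        rw [hg 0 h4, zero_add]
    rw [h3 _ fun E' hE' => by rw [hE', zero_mul], h3 _ fun E' hE' => by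
      rw [hE', map_zero, zero_mul, map_zero], add_zero]
    have h5 : RN p n (ρ (coeff 0 (O.η l)) * u E) = 0 := by
      have := hρx l
      rw [xx] at this
      rw [this, zero_mul, map_zero]
    rw [h5, zero_add]
    have h6 : ∀ E' ∈ (O.η l).support.erase 0, coeff E' (O.η l) * RN p n (u (E + E')) =
        RN p n (ρ (coeff E' (O.η l)) * u (E + E')) +
          ∑ i ∈ Finset.range l, xx O i * (h E' i * RN p n (u (E + E'))) := by
      intro E' hE'
      have hne := Finset.ne_of_mem_erase hE'
      rw [map_mul, ← hρa E' hne]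
      conv_lhs => rw [hdec E' hne]
      rw [add_mul, Finset.sum_mul]
      congr 1
      exact Finset.sum_congr rfl fun i _ => by ring
    rw [Finset.sum_congr rfl h6, Finset.sum_add_distrib, Finset.sum_comm]
    simp only [Finset.mul_sum]
    ring
  have h1 : f (O.T m' ε₁ z) = f (O.T m γ (O.η l * z)) := by
    rw [hε₁, LinearMap.comp_apply, O.T_x]
  rw [← h1, hT, map_add, map_add, map_sum, LinearMap.add_apply, LinearMap.add_apply,
    LinearMap.sum_apply, map_add, map_add, map_sum, hε₀, LinearMap.comp_apply, O.T_x,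
    Finset.sum_eq_zero, add_zero]
  intro i hi
  rw [hε, LinearMap.comp_apply, O.T_x, hf i (Finset.mem_range.1 hi)]

end act

end Vale.Agent.P221.H128
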