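import Vale.Agent.P221.H128.A1
import Vale.Agent.P221.H598.V
import Vale.Agent.P221.T.H769.F1

/-!
# P221 (helper128): solving `D_J y = u` in the coordinates of `[BP, B]`
-/

open MvPolynomial

set_option linter.unusedSectionVars false

namespace Vale.Agent.P221.H128

open Vale.Agent.P221.T Vale.Agent.P221.T.H746 Vale.Agent.P221.H460

variable {p : ℕ} [hp : Fact p.Prime] {n : ℕ} {ld : Lead p n} {S : Src p n} {O : OpAlg ld S}

/-- `D_l y = u` can be solved -/
def SolveB (O : OpAlg ld S) (ρ : KK p →ₐ[ℤ_[p]] MvPolynomial (Fin n) ℤ_[p]) : Prop :=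
  ∀ (J : ℕ) (d s : ℤ), 4 - 2 * (p : ℤ) ^ (n + 1) ≤ d →
    ∀ u : (ℕ →₀ ℕ) → MvPolynomial (Fin n) ℤ_[p],
    (∀ E, HK p (d + dd p n J + dT p E) (RN p n (u E))) → (∀ E, RN p n (u E) ∈ Ip p (s + 1)) →
    (∀ l < J, ∀ E, DB O ρ l u E = 0) →
    ∃ y : (ℕ →₀ ℕ) → MvPolynomial (Fin n) ℤ_[p], (∀ E, HK p (d + dT p E) (RN p n (y E))) ∧
      (∀ E, RN p n (y E) ∈ Ip p s) ∧ (∀ l < J, ∀ E, DB O ρ l y E = 0) ∧
      (∀ E, DB O ρ J y E = u E) ∧ y 0 = 0

theorem DB_add (ρ : KK p →ₐ[ℤ_[p]] MvPolynomial (Fin n) ℤ_[p]) (l : ℕ)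
    (u v : (ℕ →₀ ℕ) → MvPolynomial (Fin n) ℤ_[p]) (E : ℕ →₀ ℕ) :
    DB O ρ l (fun E => u E + v E) E = DB O ρ l u E + DB O ρ l v E := by
  simp only [DB, mul_add, Finset.sum_add_distrib]

theorem DB_sub (ρ : KK p →ₐ[ℤ_[p]] MvPolynomial (Fin n) ℤ_[p]) (l : ℕ)
    (u v : (ℕ →₀ ℕ) → MvPolynomial (Fin n) ℤ_[p]) (E : ℕ →₀ ℕ) :
    DB O ρ l (fun E => u E - v E) E = DB O ρ l u E - DB O ρ l v E := by
  simp only [DB, mul_sub, Finset.sum_sub_distrib]

theorem DB_mul (ρ : KK p →ₐ[ℤ_[p]] MvPolynomial (Fin n) ℤ_[p]) (l : ℕ)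
    (a : MvPolynomial (Fin n) ℤ_[p])
    (u : (ℕ →₀ ℕ) → MvPolynomial (Fin n) ℤ_[p]) (E : ℕ →₀ ℕ) :
    DB O ρ l (fun E => a * u E) E = a * DB O ρ l u E := by
  simp only [DB, Finset.mul_sum]
  exact Finset.sum_congr rfl fun i _ => by ring

/-- multiples of the unit -/
theorem DB_unit (ρ : KK p →ₐ[ℤ_[p]] MvPolynomial (Fin n) ℤ_[p]) (hρx : ∀ l, ρ (xx O l) = 0) (l : ℕ)
    (a : MvPolynomial (Fin n) ℤ_[p]) (E : ℕ →₀ ℕ) :
    DB O ρ l (fun E => if E = 0 then a else 0) E = 0 := by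
  classical
  simp only [DB]
  refine Finset.sum_eq_zero fun E' _ => ?_
  split_ifs with h
  · have h1 : E' = 0 := by
      ext i
      have := DFunLike.congr_fun h i
      rw [Finsupp.add_apply, Finsupp.zero_apply] at this
      rw [Finsupp.zero_apply]
      omega
    rw [h1]
    have := hρx l
    rw [xx] at this
    rw [this, zero_mul]
  · rw [mul_zero]

section

variable {Y : Sys S} {M : Type} [AddCommGroup M] [Module (KK p) M] {Mg : ℤ → AddSubgroup M}
  (co : Coor O Y M Mg) {y : M} (hy : y ∈ Mg 0)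
  (hf : ∀ k, ∀ z ∈ Mg k, ∃! f : MvPolynomial (Fin n) ℤ_[p],
      HK p k (RN p n f) ∧ z = RN p n f • y)

include co hy in
theorem rho_RN (a : MvPolynomial (Fin n) ℤ_[p]) : rho hf (RN p n a) = a := by
  induction a using MvPolynomial.induction_on with
  | C c => rw [rename_C, rho_C]
  | add f g h1 h2 => rw [map_add, map_add, h1, h2]
  | mul_X f i h1 =>
    rw [map_mul, map_mul, h1, rename_X, rho_X_lt co hy hf i.2]

include co hy in
theorem rho_eq_zero {k : ℤ} {u : KK p} (hu : HK p k u) (h : u • y = 0) : rho hf u = 0 := by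
  have h1 := rho_smul co hy hf u 1
  rw [one_smul, h] at h1
  have h2 := hf k 0 (AddSubgroup.zero_mem _)
  refine h2.unique ⟨rho_HK hf hu, h1⟩ ⟨?_, ?_⟩
  · rw [map_zero]
    exact HK_zero _
  · rw [map_zero, zero_smul]

include hy in
theorem vE_actx (l : ℕ) {k k' : ℤ} (h : k + dd p n l = k') (a : Y.A k) (E : ℕ →₀ ℕ) :
    vE co hf k' (Y.act h a (S.x l)) E = DB O (rho hf) l (vE co hf k a) E := by
  have h1 : co.c k' (Y.act h a (S.x l)) (monomial E 1) =
      ∑ E' ∈ (O.η l).support, coeff E' (O.η l) • co.c k a (monomial (E + E') 1) := by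
    rw [co.act, LinearMap.comp_apply, O.T_x, T_eta_mul]
  have h3 := fun E' => cf_smul co hy hf
    (show k + dT p (E + E') + (dd p n l - dT p E') = k' + dT p E by
      rw [H746.dT_add]; omega)
    (eta_homog (O := O) l E') (mem_c co k a (E + E'))
  rw [vE, h1, cf_sum co hy hf _ _ fun E' _ => (h3 E').1, DB]
  exact Finset.sum_congr rfl fun E' _ => (h3 E').2

include co hy in
/-- **solving equations in `[BP, B]`** -/
theorem solveB (hx : ∀ l, xx O l • y = 0) : SolveB O (rho hf) := by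
  classical
  intro J d s hd u hu hus hu0
  have hρx : ∀ l, rho hf (xx O l) = 0 := fun l => rho_eq_zero co hy hf (xx_homog l) (hx l)
  obtain ⟨a, ha⟩ := exists_of_vE co hy hf (d + dd p n J) u hu
  have hV : Van p n {l | l < J + 1} (grR p n) d := van_R hp.out.two_le (J + 1) hd
  let ψ : ∀ l, Y.A (d + dd p n l) := fun l => if h : l = J then h ▸ a else 0
  have hψJ : ψ J = a := by simp [ψ]
  have hψ0 : ∀ l, l ≠ J → ψ l = 0 := fun l hl => dif_neg hl
  have hax : ∀ l < J, ∀ {k' : ℤ} (h : d + dd p n J + dd p n l = k'), Y.act h a (S.x l) = 0 := by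
    intro l hl k' h
    apply eq_of_vE co hf
    intro E
    rw [vE_actx co hy hf, vE_zero co hy hf, funext ha, hu0 l hl]
  obtain ⟨φ, hφ, hφx⟩ := H769.specF1 hp.out.pos S Y (RR p n) (grR p n) d (fsB co hy hf d) _ hV d s le_rfl ψ
    (by
      intro l hl
      by_cases h : l = J
      · subst h
        rw [hψJ]
        intro E
        rw [ha]
        exact hus E
      · rw [hψ0 l h]
        exact AddSubgroup.zero_mem _)
    (by
      intro i hi l hl k' h h'
      rw [Set.mem_ofPred_eq] at hi hl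
      by_cases h1 : l = J
      · by_cases h2 : i = J
        · subst h1 h2
          rfl
        · subst h1
          rw [hψ0 i h2, hψJ, map_zero, hax i (by omega)]
          rfl
      · by_cases h2 : i = J
        · subst h2
          rw [hψ0 l h1, hψJ, map_zero, hax l (by omega)]
          rfl
        · rw [hψ0 l h1, hψ0 i h2, map_zero, map_zero]
          rfl)
  set b := vE co hf d φ with hb
  have hb0 : ∀ l < J, ∀ E, DB O (rho hf) l b E = 0 := by
    intro l hl E
    rw [hb, ← vE_actx co hy hf l rfl, hφx l (by rw [Set.mem_ofPred_eq]; omega), hψ0 l (by omega),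
      vE_zero co hy hf]
  have hbJ : ∀ E, DB O (rho hf) J b E = u E := by
    intro E
    rw [hb, ← vE_actx co hy hf J rfl, hφx J (by rw [Set.mem_ofPred_eq]; omega), hψJ, ha]
  have hbs : ∀ E, RN p n (b E) ∈ Ip p s := hφ
  refine ⟨fun E => b E - if E = 0 then b 0 else 0, fun E => ?_, fun E => ?_, fun l hl E => ?_,
    fun E => ?_, by simp⟩
  · rw [map_sub]
    refine HK_sub (vE_HK co hf d φ E) ?_
    split_ifs with h
    · rw [h]
      exact vE_HK co hf d φ 0
    · rw [map_zero]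
      exact HK_zero _
  · rw [map_sub]
    refine Ideal.sub_mem _ (hbs E) ?_
    split_ifs with h
    · exact hbs 0
    · rw [map_zero]
      exact Ideal.zero_mem _
  · rw [DB_sub, hb0 l hl, DB_unit _ hρx, sub_zero]
  · rw [DB_sub, hbJ, DB_unit _ hρx, sub_zero]

end

end Vale.Agent.P221.H128
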