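import Vale.Agent.P221.H128.A2

/-!
# P221 (helper128): the internal system of an even spectrum

* `XS` : the groups `A k = [Σ^k BP, X]` as subgroups of `Hom (BP_* BP, M)`;
* `GenX` : finitely many `g_j ∈ A (e_j)` whose values generate `π_k X`, `k ≥ c`;
* `UU` : the filtration `∑ g_j F_t` of `A k`; it is exhaustive, separated and complete.
-/

open MvPolynomial

set_option linter.unusedSectionVars false

namespace Vale.Agent.P221.H128

open Vale.Agent.P221.T Vale.Agent.P221.T.H746 Vale.Agent.P221.H460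

variable {p : ℕ} [hp : Fact p.Prime] {n : ℕ} {ld : Lead p n} {S : Src p n} {O : OpAlg ld S}

/-! ### completeness of `BP_*` -/

theorem exists_RN_of_HK {k : ℤ} {N : ℕ} (hN : k < N) {f : KK p} (hf : HK p k f) :
    ∃ g : MvPolynomial (Fin N) ℤ_[p], RN p N g = f := by
  refine exists_rename_eq_of_vars_subset_range f _ Fin.val_injective fun i hi => ?_
  rw [Set.mem_range]
  rw [Finset.mem_coe, mem_vars_iff_mem_support] at hi
  obtain ⟨α, hα, hi⟩ := hi
  have h1 : dT p α = k := hf (mem_support_iff.1 hα)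
  rw [Finsupp.mem_support_iff] at hi
  have h2 : α = Finsupp.single i 1 + (α - Finsupp.single i 1) := by
    rw [add_tsub_cancel_of_le]
    rw [Finsupp.single_le_iff]
    omega
  have h3 : dT p α = sV p (i + 1) + dT p (α - Finsupp.single i 1) := by
    conv_lhs => rw [h2]
    rw [H746.dT_add, dT_single]
    push_cast
    ring
  have h4 := dT_nonneg (p := p) (α - Finsupp.single i 1)
  have h5 : (i : ℤ) + 1 ≤ sV p (i + 1) := by
    unfold sV
    have h6 : i + 1 < p ^ (i + 1) := Nat.lt_pow_self hp.out.one_lt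
    have h7 : ((i : ℤ) + 1) < (p : ℤ) ^ (i + 1) := by exact_mod_cast h6
    omega
  exact ⟨⟨i, by omega⟩, rfl⟩

theorem exists_KK_sum (k s : ℤ) (f : ℕ → KK p) (hk : ∀ i, HK p k (f i))
    (hf : ∀ i : ℕ, f i ∈ Ip p (s + i)) :
    ∃ g : KK p, HK p k g ∧ ∀ m : ℕ, g - ∑ i ∈ Finset.range m, f i ∈ Ip p (s + m) := by
  obtain ⟨N, hN⟩ : ∃ N : ℕ, k < N := ⟨k.toNat + 1, by push_cast; omega⟩
  choose f' hf' using fun i => exists_RN_of_HK hN (hk i)
  obtain ⟨g, hg, hg'⟩ := exists_RN_sum p k s f' (fun i => by rw [hf']; exact hk i)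
    (fun i => by rw [hf']; exact hf i)
  refine ⟨RN p N g, hg, fun m => ?_⟩
  have := hg' m
  simp only [hf'] at this
  exact this

theorem degree_le (α : ℕ →₀ ℕ) : (α.degree : ℤ) ≤ dT p α := by
  rw [dT, Finsupp.weight_apply, Finsupp.degree_apply, Finsupp.sum]
  push_cast
  refine Finset.sum_le_sum fun i _ => ?_
  rw [nsmul_eq_mul]
  have h5 := sV_pos p i
  have h6 := Int.natCast_nonneg (α i)
  nlinarith

theorem sum_comp' {R M₁ M₂ M₃ ι : Type*} [CommRing R] [AddCommGroup M₁] [AddCommGroup M₂]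
    [AddCommGroup M₃] [Module R M₁] [Module R M₂] [Module R M₃] (A : Finset ι)
    (f : ι → (M₂ →ₗ[R] M₃)) (g : M₁ →ₗ[R] M₂) : (∑ i ∈ A, f i) ∘ₗ g = ∑ i ∈ A, f i ∘ₗ g := by
  ext x
  simp [LinearMap.sum_apply]

theorem comp_sum' {R M₁ M₂ M₃ ι : Type*} [CommRing R] [AddCommGroup M₁] [AddCommGroup M₂]
    [AddCommGroup M₃] [Module R M₁] [Module R M₂] [Module R M₃] (A : Finset ι)
    (g : M₂ →ₗ[R] M₃) (f : ι → (M₁ →ₗ[R] M₂)) : g ∘ₗ (∑ i ∈ A, f i) = ∑ i ∈ A, g ∘ₗ f i := by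
  ext x
  simp [LinearMap.sum_apply]

/-- homogeneous elements of `Ip t` are divisible by powers of `p` -/
theorem exists_pow_smul {d t : ℤ} {f : KK p} (hf : HK p d f) (ht : f ∈ Ip p t) (N : ℕ)
    (hN : N + d ≤ t) : ∃ g : KK p, f = (p : KK p) ^ N * g := by
  classical
  have h1 : ∀ α, (p : ℤ_[p]) ^ N ∣ coeff α f := by
    intro α
    by_cases h : coeff α f = 0
    · rw [h]
      exact dvd_zero _
    · refine (pow_dvd_pow _ ?_).trans ((mem_Ip_iff p).1 ht α)
      have h2 : dT p α = d := hf h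
      have h3 := degree_le (p := p) α
      omega
  have h2 : C ((p : ℤ_[p]) ^ N) ∣ f := (C_dvd_iff_dvd_coeff _ _).2 h1
  obtain ⟨g, hg⟩ := h2
  exact ⟨g, by rw [hg, map_pow, map_natCast]⟩

/-! ### operations -/

theorem F_mono (O : OpAlg ld S) {m s t : ℤ} (h : s ≤ t) {γ : S.E m} (hγ : γ ∈ S.F t m) : γ ∈ S.F s m := by
  rw [O.F_iff] at hγ ⊢
  exact fun E E' => Ip_mono p h (hγ E E')

theorem mem_F_nonpos (O : OpAlg ld S) {m t : ℤ} (ht : t ≤ 0) (γ : S.E m) : γ ∈ S.F t m := by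
  rw [O.F_iff]
  exact fun E E' => Ip_of_nonpos p ht _

theorem coeff_T {m : ℤ} (γ : S.E m) (z : GG p) (E' : ℕ →₀ ℕ) : coeff E' (O.T m γ z) =
    ∑ E ∈ z.support, coeff E z * coeff E' (O.T m γ (monomial E 1)) := by
  conv_lhs => rw [z.as_sum, map_sum, coeff_sum]
  refine Finset.sum_congr rfl fun E _ => ?_
  have h1 : (monomial E (coeff E z) : GG p) = coeff E z • monomial E 1 := by
    rw [smul_monomial, smul_eq_mul, _root_.mul_one]
  rw [h1, map_smul, coeff_smul, smul_eq_mul]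

/-- composition and the filtration -/
theorem comp_F {m m' l s t : ℤ} {γ : S.E m} {δ : S.E m'} {ε : S.E l} (hγ : γ ∈ S.F s m)
    (hδ : δ ∈ S.F t m') (hε : O.T l ε = O.T m γ ∘ₗ O.T m' δ) : ε ∈ S.F (s + t) l := by
  rw [O.F_iff] at hγ hδ ⊢
  intro E E'
  rw [hε, LinearMap.comp_apply, coeff_T]
  refine Ideal.sum_mem _ fun E'' _ => ?_
  rw [add_comm s t]
  exact Ip_mul p (hδ E E'') (hγ E'' E')

/-- the internal system of an even spectrum -/
structure XS {ld : Lead p n} {S : Src p n} (O : OpAlg ld S) (M : Type) [AddCommGroup M]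
    [Module (KK p) M] where
  /-- `[Σ^k BP, X]` -/
  A : ℤ → AddSubgroup (GG p →ₗ[KK p] M)
  act : ∀ {k m k' : ℤ} (_ : k + m = k') {f : GG p →ₗ[KK p] M} (_ : f ∈ A k) (γ : S.E m),
    f ∘ₗ O.T m γ ∈ A k'
  low : ∀ {k c₀ : ℤ} {f : GG p →ₗ[KK p] M}, f ∈ A k →
    (∀ E, dT p E < c₀ → f (monomial E 1) = 0) → ∀ E, dT p E = c₀ →
    ∃ f' ∈ A (k + c₀), f' 1 = f (monomial E 1)
  sep : ∀ z : M, (∀ N : ℕ, ∃ z', z = (p : KK p) ^ N • z') → z = 0

variable {M : Type} [AddCommGroup M] [Module (KK p) M]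

/-- generators of `π_k X`, `k ≥ c` -/
structure GenX (Z : XS O M) (X : OpX O) (c : ℤ) (r : ℕ) (e : Fin r → ℤ) where
  /-- the generators -/
  g : Fin r → (GG p →ₗ[KK p] M)
  mem : ∀ j, g j ∈ Z.A (e j)
  gen : ∀ k, c ≤ k → ∀ f ∈ Z.A k, ∃ v : Fin r → KK p, (∀ j, HK p (k - e j) (v j)) ∧
    f 1 = ∑ j, g j (X.eta (v j))

section

variable {Z : XS O M} {X : OpX O} {c : ℤ} {r : ℕ} {e : Fin r → ℤ} (G : GenX Z X c r e)

/-- the filtration `∑ g_j F_t` -/
def UU (t k : ℤ) : AddSubgroup (GG p →ₗ[KK p] M) where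
  carrier := {f | ∃ γ : ∀ j, S.E (k - e j), (∀ j, γ j ∈ S.F t _) ∧
    f = ∑ j, G.g j ∘ₗ O.T _ (γ j)}
  add_mem' := by
    rintro f f' ⟨γ, hγ, rfl⟩ ⟨γ', hγ', rfl⟩
    refine ⟨fun j => γ j + γ' j, fun j => (S.F t _).add_mem (hγ j) (hγ' j), ?_⟩
    rw [← Finset.sum_add_distrib]
    refine Finset.sum_congr rfl fun j _ => ?_
    rw [map_add, LinearMap.comp_add]
  zero_mem' := ⟨fun _ => 0, fun j => (S.F t _).zero_mem, by
    refine (Finset.sum_eq_zero fun j _ => ?_).symm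
    rw [map_zero, LinearMap.comp_zero]⟩
  neg_mem' := by
    rintro f ⟨γ, hγ, rfl⟩
    refine ⟨fun j => -γ j, fun j => (S.F t _).neg_mem (hγ j), ?_⟩
    rw [← Finset.sum_neg_distrib]
    refine Finset.sum_congr rfl fun j _ => ?_
    rw [map_neg, LinearMap.comp_neg]

theorem mem_UU {t k : ℤ} {f : GG p →ₗ[KK p] M} : f ∈ UU G t k ↔
    ∃ γ : ∀ j, S.E (k - e j), (∀ j, γ j ∈ S.F t _) ∧ f = ∑ j, G.g j ∘ₗ O.T _ (γ j) := Iff.rfl

theorem UU_mono {s t k : ℤ} (h : s ≤ t) : UU G t k ≤ UU G s k := by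
  rintro f ⟨γ, hγ, hf⟩
  exact ⟨γ, fun j => F_mono O h (hγ j), hf⟩

theorem UU_le (t k : ℤ) : UU G t k ≤ Z.A k := by
  rintro f ⟨γ, hγ, rfl⟩
  exact AddSubgroup.sum_mem _ fun j _ => Z.act (by omega) (G.mem j) (γ j)

include X in
theorem UU_act {s t k m k' : ℤ} (h : k + m = k') {f : GG p →ₗ[KK p] M} (hf : f ∈ UU G s k)
    {δ : S.E m} (hδ : δ ∈ S.F t m) : f ∘ₗ O.T m δ ∈ UU G (s + t) k' := by
  obtain ⟨γ, hγ, rfl⟩ := hf
  choose ε hε using fun j => X.comp (show (k - e j) + m = k' - e j by omega) (γ j) δ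
  refine ⟨ε, fun j => comp_F (hγ j) hδ (hε j), ?_⟩
  rw [sum_comp']
  refine Finset.sum_congr rfl fun j _ => ?_
  rw [hε, LinearMap.comp_assoc]

/-- elements of high filtration are divisible -/
theorem UU_dvd {t k : ℤ} {f : GG p →ₗ[KK p] M} (hf : f ∈ UU G t k) (E : ℕ →₀ ℕ) (N : ℕ)
    (hN : ∀ j, N + (k - e j) + dT p E ≤ t) : ∃ z', f (monomial E 1) = (p : KK p) ^ N • z' := by
  obtain ⟨γ, hγ, rfl⟩ := hf
  have h1 : ∀ j, ∃ z', (G.g j ∘ₗ O.T _ (γ j)) (monomial E 1) = (p : KK p) ^ N • z' := by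
    intro j
    have h2 := (O.F_iff t _ (γ j)).1 (hγ j) E
    have h3 := O.homog _ (γ j) E
    have h4 : ∀ E', ∃ g, coeff E' (O.T _ (γ j) (monomial E 1)) = (p : KK p) ^ N * g := fun E' =>
      exists_pow_smul (h3 E') (h2 E') N (by
        have := hN j
        have := dT_nonneg (p := p) E'
        omega)
    choose g hg using h4
    refine ⟨∑ E' ∈ (O.T _ (γ j) (monomial E 1)).support, g E' • G.g j (monomial E' 1), ?_⟩
    rw [LinearMap.comp_apply]
    conv_lhs => rw [(O.T _ (γ j) (monomial E 1)).as_sum, map_sum]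
    rw [Finset.smul_sum]
    refine Finset.sum_congr rfl fun E' _ => ?_
    have h5 : (monomial E' (coeff E' (O.T _ (γ j) (monomial E 1))) : GG p) =
        ((p : KK p) ^ N * g E') • monomial E' 1 := by
      rw [← hg, smul_monomial, smul_eq_mul, _root_.mul_one]
    rw [h5, map_smul, mul_smul]
  choose z hz using h1
  refine ⟨∑ j, z j, ?_⟩
  rw [LinearMap.sum_apply, Finset.sum_congr rfl fun j _ => hz j, Finset.smul_sum]

/-- separation, at one monomial -/
theorem UU_sep' {k : ℤ} {f : GG p →ₗ[KK p] M} (E : ℕ →₀ ℕ)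
    (hf : ∀ t, ∃ f' ∈ UU G t k, f (monomial E 1) = f' (monomial E 1)) : f (monomial E 1) = 0 := by
  refine Z.sep _ fun N => ?_
  obtain ⟨f', hf', h⟩ := hf (∑ j, |(k - e j)| + N + dT p E)
  rw [h]
  refine UU_dvd G hf' E N fun j => ?_
  have h1 : |k - e j| ≤ ∑ j, |(k - e j)| :=
    Finset.single_le_sum (f := fun j => |k - e j|) (fun j _ => abs_nonneg _) (Finset.mem_univ j)
  have h2 := le_abs_self (k - e j)
  omega

theorem UU_sep {k : ℤ} {f : GG p →ₗ[KK p] M} (hf : ∀ t, f ∈ UU G t k) : f = 0 := by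
  refine monoExt fun E => ?_
  rw [LinearMap.zero_apply]
  exact UU_sep' G E fun t => ⟨f, hf t, rfl⟩

theorem UU_sep_nat {k : ℤ} {f : GG p →ₗ[KK p] M} (s : ℤ) (hf : ∀ m : ℕ, f ∈ UU G (s + m) k) :
    f = 0 := by
  refine UU_sep G fun t => UU_mono G ?_ (hf (t - s).toNat)
  omega

include X in
/-- **completeness** -/
theorem UU_cpl {k : ℤ} (s : ℤ) (a : ℕ → (GG p →ₗ[KK p] M)) (ha : ∀ i : ℕ, a i ∈ UU G (s + i) k) :
    ∃ b ∈ UU G s k, ∀ m : ℕ, b - ∑ i ∈ Finset.range m, a i ∈ UU G (s + m) k := by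
  choose γ hγ ha using ha
  have h1 : ∀ j E, ∃ g : KK p, HK p (k - e j + dT p E) g ∧ ∀ m : ℕ,
      g - ∑ i ∈ Finset.range m, coeff 0 (O.T _ (γ i j) (monomial E 1)) ∈ Ip p (s + m) :=
    fun j E => exists_KK_sum _ s _ (fun i => HK_coord (γ i j) E)
      fun i => (O.F_iff _ _ _).1 (hγ i j) E 0
  choose u hu hu' using h1
  choose δ _ hδ using fun j => X.ex (k - e j) 0 (u j) (hu j) (fun E => Ip_of_nonpos p le_rfl _)
  have h2 : ∀ m : ℕ, ∑ j, G.g j ∘ₗ O.T _ (δ j) - ∑ i ∈ Finset.range m, a i ∈ UU G (s + m) k := by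
    intro m
    refine ⟨fun j => δ j - ∑ i ∈ Finset.range m, γ i j, fun j => mem_F_of_coord X fun E => ?_, ?_⟩
    · have h3 := hu' j E m
      rw [map_sub, LinearMap.sub_apply, coeff_sub, map_sum, LinearMap.sum_apply, coeff_sum, hδ]
      exact h3
    · rw [Finset.sum_congr rfl fun i _ => ha i, Finset.sum_comm, ← Finset.sum_sub_distrib]
      refine Finset.sum_congr rfl fun j _ => ?_
      rw [map_sub, map_sum, LinearMap.comp_sub, comp_sum']
  refine ⟨_, ?_, h2⟩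
  have h3 := h2 0
  rwa [Finset.sum_range_zero, sub_zero, Nat.cast_zero, add_zero] at h3

include X in
/-- one step of the construction of coordinates -/
theorem gen_step {k : ℤ} (hk : c ≤ k) {f : GG p →ₗ[KK p] M} (hf : f ∈ Z.A k) (N : ℕ)
    (u : Fin r → (ℕ →₀ ℕ) → KK p) (hu : ∀ j E, HK p (k - e j + dT p E) (u j E))
    (h : ∀ γ : ∀ j, S.E (k - e j), (∀ j, HasC O (γ j) (u j)) → ∀ E, dT p E < N →
      f (monomial E 1) = ∑ j, G.g j (O.T _ (γ j) (monomial E 1))) :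
    ∃ u' : Fin r → (ℕ →₀ ℕ) → KK p, (∀ j E, HK p (k - e j + dT p E) (u' j E)) ∧
      (∀ γ : ∀ j, S.E (k - e j), (∀ j, HasC O (γ j) (u' j)) → ∀ E, dT p E < (N + 1 : ℕ) →
        f (monomial E 1) = ∑ j, G.g j (O.T _ (γ j) (monomial E 1))) ∧
      ∀ j E, dT p E < N → u' j E = u j E := by
  classical
  choose γ _ hγ using fun j => X.ex (k - e j) 0 (u j) (hu j) (fun E => Ip_of_nonpos p le_rfl _)
  set f₁ : GG p →ₗ[KK p] M := f - ∑ j, G.g j ∘ₗ O.T _ (γ j) with hf₁
  have hf₁m : f₁ ∈ Z.A k := (Z.A k).sub_mem hf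
    (AddSubgroup.sum_mem _ fun j _ => Z.act (by omega) (G.mem j) (γ j))
  have h1 : ∀ E, dT p E < N → f₁ (monomial E 1) = 0 := by
    intro E hE
    rw [hf₁, LinearMap.sub_apply, h γ hγ E hE, LinearMap.sum_apply]
    exact sub_self _
  have h2 : ∀ E, dT p E = N → ∃ v : Fin r → KK p, (∀ j, HK p (k + N - e j) (v j)) ∧
      f₁ (monomial E 1) = ∑ j, G.g j (X.eta (v j)) := by
    intro E hE
    obtain ⟨f', hf', h3⟩ := Z.low hf₁m h1 E hE
    obtain ⟨v, hv, hv'⟩ := G.gen (k + N) (by omega) f' hf'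
    exact ⟨v, hv, h3.symm.trans hv'⟩
  choose v hv hv' using h2
  let w : Fin r → (ℕ →₀ ℕ) → KK p := fun j E => if h : dT p E = N then v E h j else 0
  have hw : ∀ j E, HK p (k - e j + dT p E) (w j E) := by
    intro j E
    by_cases h3 : dT p E = N
    · have h4 : w j E = v E h3 j := dif_pos h3
      rw [h4]
      exact HK_cast (by omega) (hv E h3 j)
    · have h4 : w j E = 0 := dif_neg h3
      rw [h4]
      exact HK_zero _
  refine ⟨fun j E => u j E + w j E, fun j E => HK_add (hu j E) (hw j E), fun γ' hγ' E hE => ?_,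
    fun j E hE => ?_⟩
  · -- the differences
    have h3 : ∀ j E, coeff 0 (O.T _ (γ' j - γ j) (monomial E 1)) = w j E := by
      intro j E
      have h4 := hγ' j E
      have h5 := hγ j E
      rw [map_sub, LinearMap.sub_apply, coeff_sub, h4, h5, add_sub_cancel_left]
    have h4 : ∀ j E, dT p E < N → coeff 0 (O.T _ (γ' j - γ j) (monomial E 1)) = 0 := by
      intro j E hE
      rw [h3]
      exact dif_neg (by omega)
    have h5 := fun j => X.low _ N (γ' j - γ j) (h4 j)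
    have h6 : f (monomial E 1) = f₁ (monomial E 1) + ∑ j, G.g j (O.T _ (γ j) (monomial E 1)) := by
      rw [hf₁, LinearMap.sub_apply, LinearMap.sum_apply]
      simp only [LinearMap.comp_apply]
      rw [sub_add_cancel]
    rw [h6]
    by_cases hE' : dT p E = N
    · rw [hv' E hE', ← Finset.sum_add_distrib]
      refine Finset.sum_congr rfl fun j _ => ?_
      have h7 := (h5 j).2 E hE'
      have h8 : w j E = v E hE' j := dif_pos hE'
      rw [h3, h8, map_sub, LinearMap.sub_apply] at h7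
      rw [← h7, map_sub, sub_add_cancel]
    · have h9 : dT p E < N := by push_cast at hE; omega
      rw [h1 E h9, zero_add]
      refine Finset.sum_congr rfl fun j _ => ?_
      have h7 := (h5 j).1 E h9
      rw [map_sub, LinearMap.sub_apply, sub_eq_zero] at h7
      rw [h7]
  · have h4 : w j E = 0 := dif_neg (by omega)
    dsimp only
    rw [h4, add_zero]

include X in
/-- **generation of `[Σ^k BP, X]`**, `k ≥ c` -/
theorem gen_zero {k : ℤ} (hk : c ≤ k) {f : GG p →ₗ[KK p] M} (hf : f ∈ Z.A k) : f ∈ UU G 0 k := by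
  classical
  let P : ℕ → (Fin r → (ℕ →₀ ℕ) → KK p) → Prop := fun N u =>
    (∀ j E, HK p (k - e j + dT p E) (u j E)) ∧
    (∀ γ : ∀ j, S.E (k - e j), (∀ j, HasC O (γ j) (u j)) → ∀ E, dT p E < N →
      f (monomial E 1) = ∑ j, G.g j (O.T _ (γ j) (monomial E 1)))
  have h0 : P 0 (fun _ _ => 0) := ⟨fun j E => HK_zero _, fun γ _ E hE => by
    have := dT_nonneg (p := p) E
    exact absurd hE (by push_cast; omega)⟩
  have hs : ∀ N (u : {u // P N u}), ∃ u' : {u // P (N + 1) u},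
      ∀ j E, dT p E < N → u'.1 j E = u.1 j E := by
    rintro N ⟨u, hu, hu'⟩
    obtain ⟨u', h1, h2, h3⟩ := gen_step G hk hf N u hu hu'
    exact ⟨⟨u', h1, h2⟩, h3⟩
  choose nx hnx using hs
  let sq : ∀ N, {u // P N u} := fun N => Nat.rec ⟨_, h0⟩ (fun N u => nx N u) N
  have hsq : ∀ N : ℕ, ∀ j E, dT p E < N → (sq (N + 1)).1 j E = (sq N).1 j E := fun N => hnx N (sq N)
  have hsq' : ∀ N N' : ℕ, N ≤ N' → ∀ j E, dT p E < N → (sq N').1 j E = (sq N).1 j E := by
    intro N N' h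
    induction N', h using Nat.le_induction with
    | base => exact fun _ _ _ => rfl
    | succ N' hN' ih =>
      intro j E hE
      rw [hsq N' j E (by omega), ih j E hE]
  let u : Fin r → (ℕ →₀ ℕ) → KK p := fun j E => (sq ((dT p E).toNat + 1)).1 j E
  have hu : ∀ j E, HK p (k - e j + dT p E) (u j E) := fun j E =>
    (sq ((dT p E).toNat + 1)).2.1 j E
  choose γ hγF hγ using fun j => X.ex (k - e j) 0 (u j) (hu j) (fun E => Ip_of_nonpos p le_rfl _)
  refine ⟨γ, hγF, monoExt fun E => ?_⟩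
  set N := (dT p E).toNat + 1 with hN
  have hE : dT p E < N := by
    have := dT_nonneg (p := p) E
    omega
  choose γ' _ hγ' using fun j => X.ex (k - e j) 0 ((sq N).1 j) ((sq N).2.1 j)
    (fun E => Ip_of_nonpos p le_rfl _)
  rw [(sq N).2.2 γ' hγ' E hE, LinearMap.sum_apply]
  refine Finset.sum_congr rfl fun j _ => ?_
  rw [LinearMap.comp_apply]
  congr 1
  refine T_eq_of_low X (c := N) (fun E' hE' => ?_) E hE
  rw [hγ', hγ]
  have h1 := dT_nonneg (p := p) E'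
  exact hsq' ((dT p E').toNat + 1) N (by omega) j E' (by push_cast; omega)

end

end Vale.Agent.P221.H128
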