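import Vale.Agent.P221.H128.A3

/-!
# P221 (helper128): the iteration

`x_J : N_J(t) ⟶ N_J(t + |x_J|)` is surjective, `t ≥ c`, already on the elements `h` with `h 1 = 0`,
if `N_J(k) = ∑ N_J(k - |v_a|) v_a` for `k ≥ c + W`.
-/

open MvPolynomial

set_option linter.unusedSectionVars false

namespace Vale.Agent.P221.H128

open Vale.Agent.P221.T Vale.Agent.P221.T.H746 Vale.Agent.P221.H460

variable {p : ℕ} [hp : Fact p.Prime] {n : ℕ} {ld : Lead p n} {S : Src p n} {O : OpAlg ld S}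
  {M : Type} [AddCommGroup M] [Module (KK p) M]

/-- the multiplication by `z` -/
noncomputable abbrev mL (z : GG p) : GG p →ₗ[KK p] GG p := LinearMap.mulLeft (KK p) z

theorem T_x' (l : ℕ) : O.T _ (S.x l) = mL (O.η l) := LinearMap.ext fun z => by
  rw [O.T_x]
  rfl

/-- the elements killed by `x_l`, `l < J` -/
def NJ (Z : XS O M) (J : ℕ) (k : ℤ) : AddSubgroup (GG p →ₗ[KK p] M) where
  carrier := {f | f ∈ Z.A k ∧ ∀ l < J, f ∘ₗ mL (O.η l) = 0}
  add_mem' := fun {f g} hf hg => ⟨(Z.A k).add_mem hf.1 hg.1, fun l hl => by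
    rw [LinearMap.add_comp, hf.2 l hl, hg.2 l hl, add_zero]⟩
  zero_mem' := ⟨(Z.A k).zero_mem, fun l _ => LinearMap.zero_comp _⟩
  neg_mem' := fun {f} hf => ⟨(Z.A k).neg_mem hf.1, fun l hl => by
    rw [LinearMap.neg_comp, hf.2 l hl, neg_zero]⟩

theorem mem_NJ {Z : XS O M} {J : ℕ} {k : ℤ} {f : GG p →ₗ[KK p] M} :
    f ∈ NJ Z J k ↔ f ∈ Z.A k ∧ ∀ l < J, f ∘ₗ mL (O.η l) = 0 := Iff.rfl

/-- `N_J(k) = ∑ N_J(k - |v_a|) v_a` for `k ≥ b` -/
def GenJ (Z : XS O M) (X : OpX O) (J : ℕ) (b : ℤ) : Prop :=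
  ∀ k, b ≤ k → ∀ f ∈ NJ Z J k, ∃ f' : Fin (n + 1) → (GG p →ₗ[KK p] M),
    (∀ a : Fin (n + 1), f' a ∈ NJ Z J (k - sV p a)) ∧
      f = ∑ a : Fin (n + 1), f' a ∘ₗ mL (X.eta (vK p a))

theorem mL_comm (z w : GG p) : (mL z : GG p →ₗ[KK p] GG p) ∘ₗ mL w = mL w ∘ₗ mL z := by
  ext1
  ext
  simp [mul_left_comm]

section

variable {Z : XS O M} {X : OpX O} {ρ : KK p →ₐ[ℤ_[p]] MvPolynomial (Fin n) ℤ_[p]}

/-- states -/
def IsSt (Z : XS O M) (ρ : KK p →ₐ[ℤ_[p]] MvPolynomial (Fin n) ℤ_[p]) (J : ℕ) (c T κ smax φ : ℤ)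
    (g : GG p →ₗ[KK p] M) : Prop :=
  ∃ (s L : ℤ) (f : GG p →ₗ[KK p] M) (γ : S.E (T - s)) (u : (ℕ →₀ ℕ) → MvPolynomial (Fin n) ℤ_[p]),
    c ≤ s ∧ s ≤ smax ∧ f ∈ NJ Z J s ∧ (HasC O γ fun E => RN p n (u E)) ∧
    (∀ E, RN p n (u E) ∈ Ip p L) ∧ (∀ l < J, ∀ E, DB O ρ l u E = 0) ∧ φ ≤ κ * L + s ∧
    g = f ∘ₗ O.T _ γ

/-- the group generated by the states -/
noncomputable def GS (Z : XS O M) (ρ : KK p →ₐ[ℤ_[p]] MvPolynomial (Fin n) ℤ_[p]) (J : ℕ) (c T κ smax φ : ℤ) :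
    AddSubgroup (GG p →ₗ[KK p] M) := AddSubgroup.closure {g | IsSt Z ρ J c T κ smax φ g}

theorem GS_mono {J : ℕ} {c T κ smax φ φ' : ℤ} (h : φ ≤ φ') :
    GS Z ρ J c T κ smax φ' ≤ GS Z ρ J c T κ smax φ := by
  refine AddSubgroup.closure_mono ?_
  rintro g ⟨s, L, f, γ, u, h1, h2, h3, h4, h5, h6, h7, h8⟩
  exact ⟨s, L, f, γ, u, h1, h2, h3, h4, h5, h6, h.trans h7, h8⟩

/-- the improvement of an element -/
def Imp (G : AddSubgroup (GG p →ₗ[KK p] M)) (U : AddSubgroup (GG p →ₗ[KK p] M)) (Z : XS O M)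
    (J : ℕ) (t : ℤ) (g : GG p →ₗ[KK p] M) : Prop :=
  ∃ h ∈ NJ Z J t, h 1 = 0 ∧ h ∈ U ∧ g - h ∘ₗ mL (O.η J) ∈ G

theorem Imp.add {G U : AddSubgroup (GG p →ₗ[KK p] M)} {J : ℕ} {t : ℤ}
    {g g' : GG p →ₗ[KK p] M} (h : Imp G U Z J t g) (h' : Imp G U Z J t g') :
    Imp G U Z J t (g + g') := by
  obtain ⟨a, h1, h2, h3, h4⟩ := h
  obtain ⟨a', h1', h2', h3', h4'⟩ := h'
  refine ⟨a + a', AddSubgroup.add_mem _ h1 h1', ?_, AddSubgroup.add_mem _ h3 h3', ?_⟩
  · rw [LinearMap.add_apply, h2, h2', add_zero]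
  · rw [LinearMap.add_comp, add_sub_add_comm]
    exact AddSubgroup.add_mem _ h4 h4'

theorem Imp.of_mem {G U : AddSubgroup (GG p →ₗ[KK p] M)} {J : ℕ} {t : ℤ}
    {g : GG p →ₗ[KK p] M} (h : g ∈ G) : Imp G U Z J t g :=
  ⟨0, AddSubgroup.zero_mem _, LinearMap.zero_apply _, AddSubgroup.zero_mem _, by
    rwa [LinearMap.zero_comp, sub_zero]⟩

theorem Imp.neg {G U : AddSubgroup (GG p →ₗ[KK p] M)} {J : ℕ} {t : ℤ}
    {g : GG p →ₗ[KK p] M} (h : Imp G U Z J t g) : Imp G U Z J t (-g) := by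
  obtain ⟨a, h1, h2, h3, h4⟩ := h
  refine ⟨-a, AddSubgroup.neg_mem _ h1, ?_, AddSubgroup.neg_mem _ h3, ?_⟩
  · rw [LinearMap.neg_apply, h2, neg_zero]
  · have h5 : -g - (-a) ∘ₗ mL (O.η J) = -(g - a ∘ₗ mL (O.η J)) := by
      rw [LinearMap.neg_comp]
      abel
    rw [h5]
    exact AddSubgroup.neg_mem _ h4

theorem Imp.sum {G U : AddSubgroup (GG p →ₗ[KK p] M)} {J : ℕ} {t : ℤ} {ι : Type*} (A : Finset ι)
    {g : ι → (GG p →ₗ[KK p] M)} (h : ∀ i ∈ A, Imp G U Z J t (g i)) :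
    Imp G U Z J t (∑ i ∈ A, g i) := by
  classical
  induction A using Finset.induction_on with
  | empty =>
    rw [Finset.sum_empty]
    exact Imp.of_mem (AddSubgroup.zero_mem _)
  | insert i A hi ih =>
    rw [Finset.sum_insert hi]
    exact (h i (Finset.mem_insert_self _ _)).add (ih fun j hj => h j (Finset.mem_insert_of_mem hj))

variable {c : ℤ} {r : ℕ} {e : Fin r → ℤ} (G : GenX Z X c r e)

/-- `v_a` as a polynomial in `v_1, …, v_n` -/
noncomputable def vF (a : Fin (n + 1)) : MvPolynomial (Fin n) ℤ_[p] :=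
  if h : (a : ℕ) = 0 then (p : MvPolynomial (Fin n) ℤ_[p])
  else MvPolynomial.X ⟨(a : ℕ) - 1, by have := a.2; omega⟩

theorem RN_vF (a : Fin (n + 1)) : RN p n (vF a) = vK p (a : ℕ) := by
  unfold vF
  split_ifs with h
  · rw [h, map_natCast]
    rfl
  · rw [rename_X]
    obtain ⟨b, hb⟩ : ∃ b, (a : ℕ) = b + 1 := ⟨a - 1, by omega⟩
    have h1 : vK p (a : ℕ) = MvPolynomial.X b := by rw [hb]; rfl
    rw [h1]
    congr 1
    change (a : ℕ) - 1 = b
    omega

theorem vK_homog (a : ℕ) : HK p (sV p a) (vK p a) := by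
  rcases a with _ | a
  · have h1 : sV p 0 = 0 := by simp [sV]
    rw [h1]
    have h2 : vK p 0 = C (p : ℤ_[p]) := by rw [map_natCast]; rfl
    rw [h2]
    exact HK_C _
  · exact HK_X a

include G in
/-- the elements of a state group have high filtration -/
theorem GS_le {J : ℕ} {T κ smax φ t : ℤ} (hκ : 0 < κ) (ht : κ * t + smax ≤ φ) :
    GS Z ρ J c T κ smax φ ≤ UU G t T := by
  rw [GS, AddSubgroup.closure_le]
  rintro g ⟨s, L, f, γ, u, h1, h2, h3, h4, h5, h6, h7, rfl⟩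
  have h8 : t ≤ L := by
    by_contra hcon
    push Not at hcon
    have : κ * L < κ * t := by nlinarith
    omega
  have h9 := UU_act G (show s + (T - s) = T by omega) (gen_zero G h1 h3.1)
    (mem_F_of_coord X (t := L) fun E => by rw [h4 E]; exact h5 E)
  rw [zero_add] at h9
  exact UU_mono G h8 h9

variable (hρ : ∀ a, ρ (RN p n a) = a) (hρx : ∀ l, ρ (xx O l) = 0) (hS : SolveB O ρ)

include G hρ hρx hS in
/-- **one step** -/
theorem imp_state {J : ℕ} {T κ W smax t φ t' : ℤ} (hκ : 1 ≤ κ) (hκv : ∀ a ≤ n, sV p a ≤ κ)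
    (hκJ : κ + 1 ≤ dd p n J) (hW : ∀ a ≤ n, sV p a ≤ W) (hW' : W ≤ 2 * (p : ℤ) ^ (n + 1) - 4)
    (hsm : c + W + dd p n J ≤ smax) (ht : c ≤ t) (hT : t + dd p n J = T)
    (hgen : GenJ Z X J (c + W)) (ht' : κ * (t' + 1) + (c + W) ≤ φ) (N : ℕ) :
    ∀ (s L : ℤ) (f : GG p →ₗ[KK p] M) (γ : S.E (T - s))
      (u : (ℕ →₀ ℕ) → MvPolynomial (Fin n) ℤ_[p]), s - c < N →
    c ≤ s → s ≤ smax → f ∈ NJ Z J s → (HasC O γ fun E => RN p n (u E)) →
    (∀ E, RN p n (u E) ∈ Ip p L) → (∀ l < J, ∀ E, DB O ρ l u E = 0) → φ ≤ κ * L + s →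
    Imp (GS Z ρ J c T κ smax (φ + 1)) (UU G t' t) Z J t (f ∘ₗ O.T _ γ) := by
  classical
  induction N with
  | zero =>
    intro s L f γ u hN h1
    exact absurd hN (by push_cast; omega)
  | succ N ih =>
    intro s L f γ u hN h1 h2 h3 h4 h5 h6 h7
    push_cast at hN
    rcases lt_or_ge s (c + W) with hs | hs
    · -- solve
      obtain ⟨y, hyH, hyF, hy0, hyJ, hyz⟩ := hS J (T - (s + dd p n J)) (L - 1) (by omega) u
        (fun E => by
          have h8 := HK_coord (O := O) γ E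
          rw [h4 E] at h8
          exact HK_cast (by omega) h8)
        (by rw [sub_add_cancel]; exact h5) h6
      obtain ⟨γy, -, hγy⟩ := X.ex (T - (s + dd p n J)) 0 (fun E => RN p n (y E)) hyH
        (fun E => Ip_of_nonpos p le_rfl _)
      have hγyF : γy ∈ S.F (L - 1) _ := mem_F_of_coord X fun E => by rw [hγy]; exact hyF E
      have hhA : f ∘ₗ O.T _ γy ∈ Z.A t := Z.act (by omega) h3.1 γy
      have hker : ∀ i < J, ∀ z, f (O.η i * z) = 0 := fun i hi z =>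
        LinearMap.congr_fun (h3.2 i hi) z
      refine ⟨f ∘ₗ O.T _ γy, ⟨hhA, fun l hl => ?_⟩, ?_, ?_, ?_⟩
      · refine LinearMap.ext fun z => ?_
        have h8 := key X ρ hρ hρx f l (fun i hi => hker i (by omega)) rfl hyH (γ := γy) hγy
          (δ := (0 : S.E (T - (s + dd p n J) + dd p n l))) (fun E => by
            rw [map_zero, LinearMap.zero_apply, coeff_zero]
            change 0 = RN p n (DB O ρ l y E)
            rw [hy0 l hl, map_zero]) z
        rw [map_zero, LinearMap.zero_apply, map_zero, zero_add, hker l hl] at h8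
        exact h8
      · have h8 := (X.low _ 1 γy (fun E hE => by
          have h9 : E = 0 := by
            by_contra hne
            have := dT_pos (p := p) hne
            omega
          rw [hγy, h9, hyz, map_zero])).1 0 (by rw [H746.dT_zero]; norm_num)
        have h9 : (1 : GG p) = monomial 0 1 := rfl
        rw [LinearMap.comp_apply, h9, h8, map_zero]
      · have h8 := UU_act G (show s + (T - (s + dd p n J)) = t by omega) (gen_zero G h1 h3.1) hγyF
        rw [zero_add] at h8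
        refine UU_mono G ?_ h8
        by_contra hcon
        push Not at hcon
        have h9 : κ * L ≤ κ * (t' + 1) := by nlinarith
        omega
      · have h8 : f ∘ₗ O.T _ γ - (f ∘ₗ O.T _ γy) ∘ₗ mL (O.η J) =
            -((f ∘ₗ mL (O.η J)) ∘ₗ O.T _ γy) := by
          refine LinearMap.ext fun z => ?_
          have h9 := key X ρ hρ hρx f J hker (show T - (s + dd p n J) + dd p n J = T - s by omega)
            hyH (γ := γy) hγy (δ := γ) (fun E => (h4 E).trans (congrArg (RN p n) (hyJ E).symm)) z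
          change f (O.T _ γ z) - f (O.T _ γy (O.η J * z)) = -f (O.η J * O.T _ γy z)
          rw [h9]
          abel
        rw [h8]
        refine AddSubgroup.neg_mem _ (AddSubgroup.subset_closure ?_)
        refine ⟨s + dd p n J, L - 1, f ∘ₗ mL (O.η J), γy, y, by omega, by omega,
          ⟨?_, fun l hl => ?_⟩, hγy, hyF, hy0, ?_, rfl⟩
        · have h9 := Z.act (show s + dd p n J = s + dd p n J from rfl) h3.1 (S.x J)
          rwa [T_x'] at h9
        · rw [LinearMap.comp_assoc, mL_comm, ← LinearMap.comp_assoc, h3.2 l hl,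
            LinearMap.zero_comp]
        · have : κ * (L - 1) = κ * L - κ := by ring
          omega
    · -- expand
      obtain ⟨f', hf', hff⟩ := hgen s hs f h3
      choose μ hμ using fun a : Fin (n + 1) => X.mult (sV p a) (vK p a) (vK_homog (a : ℕ))
      choose γ' hγ' using fun a : Fin (n + 1) =>
        X.comp (show sV p a + (T - s) = T - (s - sV p a) by omega) (μ a) γ
      have h8 : f ∘ₗ O.T _ γ = ∑ a : Fin (n + 1), f' a ∘ₗ O.T _ (γ' a) := by
        conv_lhs => rw [hff]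
        rw [sum_comp']
        refine Finset.sum_congr rfl fun a _ => ?_
        rw [hγ', ← LinearMap.comp_assoc]
        congr 2
        exact LinearMap.ext fun z => (hμ a z).symm
      rw [h8]
      refine Imp.sum _ fun a _ => ?_
      have ha : (a : ℕ) ≤ n := Nat.lt_succ_iff.1 a.2
      have h9 : HasC O (γ' a) fun E => RN p n (vF a * u E) := by
        intro E
        rw [hγ', LinearMap.comp_apply, hμ, coeff_zero_mul, X.eta_zero, h4 E]
        change vK p (a : ℕ) * RN p n (u E) = RN p n (vF a * u E)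
        rw [map_mul, RN_vF]
      have h10 : ∀ E, RN p n (vF a * u E) ∈ Ip p (L + 1) := by
        intro E
        rw [map_mul, RN_vF, add_comm L 1]
        exact Ip_mul p (vK_mem (a : ℕ)) (h5 E)
      have h11 : ∀ l < J, ∀ E, DB O ρ l (fun E => vF a * u E) E = 0 := by
        intro l hl E
        rw [DB_mul, h6 l hl, mul_zero]
      have h12 := hW a ha
      have h13 := sV_nonneg p (a : ℕ)
      have h14 : κ * (L + 1) = κ * L + κ := by ring
      have h15 := hκv a ha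
      by_cases ha0 : (a : ℕ) = 0
      · have h16 : sV p (a : ℕ) = 0 := by rw [ha0]; simp [sV]
        refine Imp.of_mem (AddSubgroup.subset_closure ?_)
        exact ⟨s - sV p a, L + 1, f' a, γ' a, _, by omega, by omega, hf' a, h9, h10, h11,
          by omega, rfl⟩
      · obtain ⟨b, hb⟩ : ∃ b, (a : ℕ) = b + 1 := ⟨a - 1, by omega⟩
        have h16 : 0 < sV p (a : ℕ) := by rw [hb]; exact sV_pos p b
        exact ih (s - sV p a) (L + 1) (f' a) (γ' a) _ (by omega) (by omega) (by omega) (hf' a) h9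
          h10 h11 (by omega)

include G hρ hρx hS in
/-- one step, for all elements of the state group -/
theorem imp_GS {J : ℕ} {T κ W smax t φ t' : ℤ} (hκ : 1 ≤ κ) (hκv : ∀ a ≤ n, sV p a ≤ κ)
    (hκJ : κ + 1 ≤ dd p n J) (hW : ∀ a ≤ n, sV p a ≤ W) (hW' : W ≤ 2 * (p : ℤ) ^ (n + 1) - 4)
    (hsm : c + W + dd p n J ≤ smax) (ht : c ≤ t) (hT : t + dd p n J = T)
    (hgen : GenJ Z X J (c + W)) (ht' : κ * (t' + 1) + (c + W) ≤ φ) {g : GG p →ₗ[KK p] M}
    (hg : g ∈ GS Z ρ J c T κ smax φ) :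
    Imp (GS Z ρ J c T κ smax (φ + 1)) (UU G t' t) Z J t g := by
  refine AddSubgroup.closure_induction (p := fun g _ =>
    Imp (GS Z ρ J c T κ smax (φ + 1)) (UU G t' t) Z J t g) ?_ ?_ ?_ ?_ hg
  · rintro g ⟨s, L, f, γ, u, h1, h2, h3, h4, h5, h6, h7, rfl⟩
    exact imp_state G hρ hρx hS hκ hκv hκJ hW hW' hsm ht hT hgen ht' ((s - c).toNat + 1) s L f γ u
      (by push_cast; omega) h1 h2 h3 h4 h5 h6 h7
  · exact Imp.of_mem (AddSubgroup.zero_mem _)
  · exact fun _ _ _ _ h h' => h.add h'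
  · exact fun _ _ h => h.neg

include G hρ hρx hS in
/-- `m` steps -/
theorem imp_multi {J : ℕ} {T κ W smax t φ t' : ℤ} (hκ : 1 ≤ κ) (hκv : ∀ a ≤ n, sV p a ≤ κ)
    (hκJ : κ + 1 ≤ dd p n J) (hW : ∀ a ≤ n, sV p a ≤ W) (hW' : W ≤ 2 * (p : ℤ) ^ (n + 1) - 4)
    (hsm : c + W + dd p n J ≤ smax) (ht : c ≤ t) (hT : t + dd p n J = T)
    (hgen : GenJ Z X J (c + W)) (ht' : κ * (t' + 1) + (c + W) ≤ φ) {g : GG p →ₗ[KK p] M}
    (hg : g ∈ GS Z ρ J c T κ smax φ) (m : ℕ) :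
    Imp (GS Z ρ J c T κ smax (φ + m)) (UU G t' t) Z J t g := by
  induction m with
  | zero =>
    refine Imp.of_mem ?_
    rwa [Nat.cast_zero, add_zero]
  | succ m ih =>
    obtain ⟨h, h1, h2, h3, h4⟩ := ih
    obtain ⟨h', h1', h2', h3', h4'⟩ := imp_GS G hρ hρx hS hκ hκv hκJ hW hW' hsm ht hT hgen
      (show κ * (t' + 1) + (c + W) ≤ φ + m by omega) h4
    refine ⟨h + h', AddSubgroup.add_mem _ h1 h1', ?_, AddSubgroup.add_mem _ h3 h3', ?_⟩
    · rw [LinearMap.add_apply, h2, h2', add_zero]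
    · have h5 : g - (h + h') ∘ₗ mL (O.η J) = g - h ∘ₗ mL (O.η J) - h' ∘ₗ mL (O.η J) := by
        rw [LinearMap.add_comp]
        abel
      have h6 : φ + ((m + 1 : ℕ) : ℤ) = φ + m + 1 := by push_cast; ring
      rw [h5, h6]
      exact h4'

/-- the factor in the potential -/
def kap (p n : ℕ) : ℤ := 2 * (p : ℤ) ^ n - 1

theorem kap_pos : 1 ≤ kap p n := by
  unfold kap
  have h1 : 0 < p ^ n := pow_pos hp.out.pos _
  have h2 : (1 : ℤ) ≤ (p : ℤ) ^ n := by exact_mod_cast h1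
  omega

theorem sV_le_kap {a : ℕ} (ha : a ≤ n) : sV p a ≤ kap p n := by
  unfold kap sV
  have h1 : p ^ a ≤ p ^ n := Nat.pow_le_pow_right hp.out.pos ha
  have h2 : (p : ℤ) ^ a ≤ (p : ℤ) ^ n := by exact_mod_cast h1
  omega

theorem kap_lt (J : ℕ) : kap p n + 1 ≤ dd p n J := by
  unfold kap dd sV
  have h1 : 2 * p ^ n ≤ p ^ (n + 1 + J) := by
    calc 2 * p ^ n ≤ p * p ^ n := Nat.mul_le_mul_right _ hp.out.two_le
      _ = p ^ (n + 1) := by ring
      _ ≤ p ^ (n + 1 + J) := Nat.pow_le_pow_right hp.out.pos (by omega)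
  have h2 : 2 * (p : ℤ) ^ n ≤ (p : ℤ) ^ (n + 1 + J) := by exact_mod_cast h1
  have h3 : 0 < p ^ n := pow_pos hp.out.pos _
  have h4 : (1 : ℤ) ≤ (p : ℤ) ^ n := by exact_mod_cast h3
  omega

theorem dd_step (J : ℕ) : dd p n J + kap p n ≤ dd p n (J + 1) := by
  unfold kap dd sV
  have h1 : p ^ n + p ^ (n + 1 + J) ≤ p ^ (n + 1 + (J + 1)) := by
    have h3 : p ^ n ≤ p ^ (n + 1 + J) := Nat.pow_le_pow_right hp.out.pos (by omega)
    calc p ^ n + p ^ (n + 1 + J) ≤ 2 * p ^ (n + 1 + J) := by omega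
      _ ≤ p * p ^ (n + 1 + J) := Nat.mul_le_mul_right _ hp.out.two_le
      _ = p ^ (n + 1 + (J + 1)) := by ring
  have h2 : (p : ℤ) ^ n + (p : ℤ) ^ (n + 1 + J) ≤ (p : ℤ) ^ (n + 1 + (J + 1)) := by
    exact_mod_cast h1
  omega

/-- the filtration of the solutions -/
def Lh (p n : ℕ) (c W φ : ℤ) : ℤ := (φ - c - W) / kap p n - 1

theorem Lh_spec (c W φ : ℤ) : kap p n * (Lh p n c W φ + 1) + (c + W) ≤ φ := by
  unfold Lh
  have h1 := Int.mul_ediv_self_le (x := φ - c - W) (k := kap p n)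
    (by have := kap_pos (p := p) (n := n); omega)
  rw [sub_add_cancel]
  omega

theorem Lh_add (c W φ : ℤ) (i : ℕ) : Lh p n c W (φ + kap p n * i) = Lh p n c W φ + i := by
  unfold Lh
  have h1 : φ + kap p n * i - c - W = (φ - c - W) + kap p n * i := by ring
  rw [h1, Int.add_mul_ediv_left _ _ (by have := kap_pos (p := p) (n := n); omega)]
  ring

theorem Lh_mono {c W φ φ' : ℤ} (h : φ ≤ φ') : Lh p n c W φ ≤ Lh p n c W φ' := by
  unfold Lh
  have h1 := Int.ediv_le_ediv (c := kap p n) (by have := kap_pos (p := p) (n := n); omega)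
    (show φ - c - W ≤ φ' - c - W by omega)
  omega

include G hρ hρx hS in
/-- **the operator `x_J` is surjective on `N_J`** -/
theorem surj_x {J : ℕ} {W : ℤ} (hW : ∀ a ≤ n, sV p a ≤ W)
    (hW' : W ≤ 2 * (p : ℤ) ^ (n + 1) - 4) {t T : ℤ} (ht : c ≤ t) (hT : t + dd p n J = T)
    (hgen : GenJ Z X J (c + W)) {g : GG p →ₗ[KK p] M} (hg : g ∈ NJ Z J T) :
    ∃ b ∈ NJ Z J t, b 1 = 0 ∧ b ∈ UU G (Lh p n c W T) t ∧ b ∘ₗ mL (O.η J) = g := by
  classical
  set κ := kap p n with hκ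
  have hκ1 : 1 ≤ κ := kap_pos
  set smax := max T (c + W + dd p n J) with hsmax
  -- the start
  have hstart : g ∈ GS Z ρ J c T κ smax T := by
    refine AddSubgroup.subset_closure ?_
    obtain ⟨γ, hγ⟩ := X.mult (T - T) 1 (by rw [sub_self]; exact isWeightedHomogeneous_one _ _)
    have hγ1 : O.T _ γ = LinearMap.id := LinearMap.ext fun z => by
      rw [hγ, map_one, _root_.one_mul]
      rfl
    have hdJ : 0 ≤ dd p n J := sV_nonneg p _
    refine ⟨T, 0, g, γ, fun E => if E = 0 then 1 else 0, by omega, le_max_left _ _, hg,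
      fun E => ?_, fun E => Ip_of_nonpos p le_rfl _, fun l _ E => DB_unit ρ hρx l 1 E, by omega, ?_⟩
    · rw [hγ1, LinearMap.id_apply, coeff_monomial]
      change _ = RN p n (if E = 0 then 1 else 0)
      split_ifs with h
      · rw [map_one]
      · rw [map_zero]
    · rw [hγ1, LinearMap.comp_id]
  -- the sequence
  have hstep : ∀ (i : ℕ) (g' : {g' // g' ∈ GS Z ρ J c T κ smax (T + κ * i)}),
      ∃ (h : GG p →ₗ[KK p] M) (g'' : {g'' // g'' ∈ GS Z ρ J c T κ smax (T + κ * (i + 1 : ℕ))}),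
        h ∈ NJ Z J t ∧ h 1 = 0 ∧ h ∈ UU G (Lh p n c W T + i) t ∧
          g''.1 = g'.1 - h ∘ₗ mL (O.η J) := by
    rintro i ⟨g', hg'⟩
    have h1 := Lh_spec (p := p) (n := n) c W (T + kap p n * i)
    rw [Lh_add] at h1
    obtain ⟨h, h2, h3, h4, h5⟩ := imp_multi G hρ hρx hS hκ1 (fun a ha => sV_le_kap ha) (kap_lt J)
      hW hW' (le_max_right _ _) ht hT hgen h1 hg' κ.toNat
    refine ⟨h, ⟨_, ?_⟩, h2, h3, h4, rfl⟩
    have h6 : T + κ * ((i + 1 : ℕ) : ℤ) = T + κ * i + (κ.toNat : ℤ) := by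
      rw [Int.toNat_of_nonneg (by omega)]
      push_cast
      ring
    rw [h6]
    exact h5
  choose h nx h1 h2 h3 h4 using hstep
  let sq : ∀ i : ℕ, {g' // g' ∈ GS Z ρ J c T κ smax (T + κ * i)} := fun i =>
    Nat.rec (motive := fun i : ℕ => {g' // g' ∈ GS Z ρ J c T κ smax (T + κ * i)})
      ⟨g, by rw [Nat.cast_zero, mul_zero, add_zero]; exact hstart⟩ (fun i g' => nx i g') i
  have hsq0 : (sq 0).1 = g := rfl
  have hsq : ∀ i, (sq (i + 1)).1 = (sq i).1 - h i (sq i) ∘ₗ mL (O.η J) := fun i => h4 i (sq i)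
  let a : ℕ → (GG p →ₗ[KK p] M) := fun i => h i (sq i)
  have hsum : ∀ m, (sq m).1 = g - (∑ i ∈ Finset.range m, a i) ∘ₗ mL (O.η J) := by
    intro m
    induction m with
    | zero => rw [Finset.sum_range_zero, LinearMap.zero_comp, sub_zero, hsq0]
    | succ m ih => rw [hsq, ih, Finset.sum_range_succ, LinearMap.add_comp, sub_sub]
  obtain ⟨b, hb, hb'⟩ := UU_cpl G (Lh p n c W T) a fun i => h3 i (sq i)
  have hbNJ : b ∈ NJ Z J t := by
    refine ⟨UU_le G _ _ hb, fun l hl => UU_sep_nat G (k := t + dd p n l) (Lh p n c W T) fun m => ?_⟩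
    have h5 : b ∘ₗ mL (O.η l) = (b - ∑ i ∈ Finset.range m, a i) ∘ₗ mL (O.η l) := by
      rw [LinearMap.sub_comp, sum_comp', Finset.sum_eq_zero fun i _ => (h1 i (sq i)).2 l hl,
        sub_zero]
    have h6 := UU_act G (rfl : t + dd p n l = t + dd p n l) (hb' m) (mem_F_nonpos O le_rfl (S.x l))
    rw [T_x', add_zero, ← h5] at h6
    exact h6
  refine ⟨b, hbNJ, ?_, hb, ?_⟩
  · have h9 : (1 : GG p) = monomial 0 1 := rfl
    rw [h9]
    refine UU_sep' G (k := t) 0 fun t' => ?_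
    refine ⟨b - ∑ i ∈ Finset.range (t' - Lh p n c W T).toNat, a i, UU_mono G ?_ (hb' _), ?_⟩
    · omega
    · rw [LinearMap.sub_apply, LinearMap.sum_apply, ← h9,
        Finset.sum_eq_zero fun i _ => h2 i (sq i), sub_zero]
  · rw [← sub_eq_zero, ← neg_eq_zero, neg_sub]
    refine UU_sep_nat G (k := T) (min ((T - smax) / κ) (Lh p n c W T)) fun m => ?_
    have h5 : g - b ∘ₗ mL (O.η J) =
        (sq m).1 - (b - ∑ i ∈ Finset.range m, a i) ∘ₗ mL (O.η J) := by
      rw [hsum, LinearMap.sub_comp]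
      abel
    rw [h5]
    refine AddSubgroup.sub_mem _ ?_ ?_
    · refine UU_mono G (t := (T - smax) / κ + m) (by omega) (GS_le G (by omega) ?_ (sq m).2)
      have h6 := Int.mul_ediv_self_le (x := T - smax) (k := κ) (by omega)
      have h7 : κ * ((T - smax) / κ + m) = κ * ((T - smax) / κ) + κ * m := by ring
      omega
    · have h6 := UU_act G hT (hb' m) (mem_F_nonpos O le_rfl (S.x J))
      rw [T_x', add_zero] at h6
      exact UU_mono G (by omega) h6

end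

end Vale.Agent.P221.H128
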