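import Mathlib.Algebra.Module.Prod
import Mathlib.LinearAlgebra.Prod
import Mathlib.Algebra.Group.Subgroup.Basic
import Mathlib.Algebra.Module.Submodule.Basic
import Mathlib.Tactic.Abel
import Mathlib.Tactic.Ring

/-!
# P221 (helper128): Koszul complexes of graded families of subgroups

`l` is a list of pairs `(s, x)`, `x` an operator of degree `s`. `Kt H l` is the (ungraded) Koszul
complex, `Kd N l t i` the part of internal degree `t` and Koszul degree `i`, with coefficients in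
the family `N`, `Ex N l t i` : exactness.
-/

set_option linter.unusedSectionVars false

namespace Vale.Agent.P221.H128

section

variable {R : Type} [CommRing R] (H : Type) [AddCommGroup H] [Module R H]

/-- the Koszul complex -/
def Kt : List (ℤ × R) → Type
  | [] => H
  | _ :: l => Kt l × Kt l

instance instKt : ∀ l : List (ℤ × R), AddCommGroup (Kt H l)
  | [] => inferInstanceAs (AddCommGroup H)
  | _ :: l => letI := instKt l; inferInstanceAs (AddCommGroup (Kt H l × Kt H l))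

instance modKt : ∀ l : List (ℤ × R), Module R (Kt H l)
  | [] => inferInstanceAs (Module R H)
  | _ :: l => letI := modKt l; inferInstanceAs (Module R (Kt H l × Kt H l))

variable {H}

/-- pairs -/
def pr (a : ℤ × R) {l : List (ℤ × R)} (z w : Kt H l) : Kt H (a :: l) := ((z, w) : Kt H l × Kt H l)

theorem exists_pr {a : ℤ × R} {l : List (ℤ × R)} (z : Kt H (a :: l)) : ∃ u v, z = pr a u v :=
  ⟨Prod.fst (α := Kt H l) (β := Kt H l) z, Prod.snd (α := Kt H l) (β := Kt H l) z, rfl⟩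

theorem pr_add (a : ℤ × R) {l : List (ℤ × R)} (z w z' w' : Kt H l) :
    pr a z w + pr a z' w' = pr a (z + z') (w + w') := rfl

theorem pr_sub (a : ℤ × R) {l : List (ℤ × R)} (z w z' w' : Kt H l) :
    pr a z w - pr a z' w' = pr a (z - z') (w - w') := rfl

theorem pr_smul (a : ℤ × R) {l : List (ℤ × R)} (x : R) (z w : Kt H l) :
    x • pr a z w = pr a (x • z) (x • w) := rfl

theorem pr_zero (a : ℤ × R) (l : List (ℤ × R)) : pr a (0 : Kt H l) 0 = 0 := rfl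

theorem pr_inj {a : ℤ × R} {l : List (ℤ × R)} {z w z' w' : Kt H l} :
    pr a z w = pr a z' w' ↔ z = z' ∧ w = w' := Prod.mk_inj

theorem pr_eq_zero {a : ℤ × R} {l : List (ℤ × R)} {z w : Kt H l} :
    pr a z w = 0 ↔ z = 0 ∧ w = 0 := by rw [← pr_zero, pr_inj]

/-- the differential -/
def dK : ∀ l : List (ℤ × R), Kt H l →ₗ[R] Kt H l
  | [] => 0
  | a :: l => LinearMap.prod
      ((dK l).comp (LinearMap.fst R (Kt H l) (Kt H l)) +
        a.2 • LinearMap.snd R (Kt H l) (Kt H l))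
      (-(dK l).comp (LinearMap.snd R (Kt H l) (Kt H l)))

theorem dK_nil (z : Kt H ([] : List (ℤ × R))) : dK [] z = 0 := rfl

theorem dK_cons (a : ℤ × R) {l : List (ℤ × R)} (z w : Kt H l) :
    dK (a :: l) (pr a z w) = pr a (dK l z + a.2 • w) (-dK l w) := rfl

/-- `d² = 0` -/
theorem dK_dK : ∀ (l : List (ℤ × R)) (z : Kt H l), dK l (dK l z) = 0
  | [], z => rfl
  | a :: l, z => by
    obtain ⟨u, v, rfl⟩ := exists_pr z
    rw [dK_cons, dK_cons, map_add, map_smul, dK_dK l u, map_neg, dK_dK l v, smul_neg, zero_add,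
      add_neg_cancel, neg_zero, neg_zero]
    rfl

/-- the graded pieces -/
def Kd (N : ℤ → AddSubgroup H) : ∀ l : List (ℤ × R), ℤ → ℤ → AddSubgroup (Kt H l)
  | [], t, i => if i = 0 then N t else ⊥
  | a :: l, t, i => (Kd N l t i).prod (Kd N l (t - a.1) (i - 1))

theorem mem_Kd_nil {N : ℤ → AddSubgroup H} {t i : ℤ} {z : Kt H ([] : List (ℤ × R))} :
    z ∈ Kd N [] t i ↔ (i = 0 ∧ (z : H) ∈ N t) ∨ (i ≠ 0 ∧ z = 0) := by
  change z ∈ (if i = 0 then N t else ⊥ : AddSubgroup H) ↔ _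
  split_ifs with h
  · simp only [h, true_and, ne_eq, not_true_eq_false, false_and, or_false]
  · simp only [h, false_and, ne_eq, not_false_eq_true, true_and, false_or]
    exact AddSubgroup.mem_bot

theorem mem_Kd_cons {N : ℤ → AddSubgroup H} {a : ℤ × R} {l : List (ℤ × R)} {t i : ℤ}
    {z w : Kt H l} : pr a z w ∈ Kd N (a :: l) t i ↔
      z ∈ Kd N l t i ∧ w ∈ Kd N l (t - a.1) (i - 1) := AddSubgroup.mem_prod

/-- exactness -/
def Ex (N : ℤ → AddSubgroup H) (l : List (ℤ × R)) (t i : ℤ) : Prop :=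
  ∀ z ∈ Kd N l t i, dK l z = 0 → ∃ w ∈ Kd N l t (i + 1), dK l w = z

/-- the width -/
def Wl (l : List (ℤ × R)) : ℤ := (l.map Prod.fst).sum

theorem Wl_cons (a : ℤ × R) (l : List (ℤ × R)) : Wl (a :: l) = a.1 + Wl l := by simp [Wl]

variable {N : ℤ → AddSubgroup H}

theorem Kd_cast {l : List (ℤ × R)} {t t' i i' : ℤ} (ht : t = t') (hi : i = i') {z : Kt H l}
    (h : z ∈ Kd N l t i) : z ∈ Kd N l t' i' := by
  subst ht hi
  exact h

/-- stability -/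
def Stab (N : ℤ → AddSubgroup H) (s : ℤ) (x : R) : Prop := ∀ k, ∀ f ∈ N k, x • f ∈ N (k + s)

theorem Kd_smul {s : ℤ} {x : R} (hN : Stab N s x) : ∀ (l : List (ℤ × R)) (t i : ℤ),
    ∀ z ∈ Kd N l t i, x • z ∈ Kd N l (t + s) i
  | [], t, i, z, hz => by
    rw [mem_Kd_nil] at hz ⊢
    rcases hz with ⟨h1, h2⟩ | ⟨h1, h2⟩
    · exact Or.inl ⟨h1, hN t _ h2⟩
    · refine Or.inr ⟨h1, ?_⟩
      rw [h2]
      exact smul_zero x
  | a :: l, t, i, z, hz => by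
    obtain ⟨z, w, rfl⟩ := exists_pr z
    rw [mem_Kd_cons] at hz
    rw [pr_smul, mem_Kd_cons]
    exact ⟨Kd_smul hN l t i z hz.1, Kd_cast (by ring) rfl (Kd_smul hN l _ _ w hz.2)⟩

theorem dK_mem : ∀ (l : List (ℤ × R)), (∀ a ∈ l, Stab N a.1 a.2) → ∀ (t i : ℤ),
    ∀ z ∈ Kd N l t i, dK l z ∈ Kd N l t (i - 1)
  | [], _, t, i, z, hz => by
    rw [dK_nil]
    exact AddSubgroup.zero_mem _
  | a :: l, h, t, i, z, hz => by
    obtain ⟨z, w, rfl⟩ := exists_pr z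
    rw [mem_Kd_cons] at hz
    have h' : ∀ a ∈ l, Stab N a.1 a.2 := fun b hb => h b (List.mem_cons_of_mem _ hb)
    rw [dK_cons, mem_Kd_cons]
    exact ⟨AddSubgroup.add_mem _ (dK_mem l h' t i z hz.1)
      (Kd_cast (by ring) rfl (Kd_smul (h a (List.mem_cons_self)) l _ _ w hz.2)),
      AddSubgroup.neg_mem _ (dK_mem l h' _ _ w hz.2)⟩

/-- the kernel of `η` -/
def kerN (N : ℤ → AddSubgroup H) (η : R) (k : ℤ) : AddSubgroup H where
  carrier := {f | f ∈ N k ∧ η • f = 0}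
  add_mem' := fun {f g} hf hg => ⟨(N k).add_mem hf.1 hg.1, by rw [smul_add, hf.2, hg.2, add_zero]⟩
  zero_mem' := ⟨(N k).zero_mem, smul_zero η⟩
  neg_mem' := fun {f} hf => ⟨(N k).neg_mem hf.1, by rw [smul_neg, hf.2, neg_zero]⟩

theorem mem_kerN {η : R} {k : ℤ} {f : H} : f ∈ kerN N η k ↔ f ∈ N k ∧ η • f = 0 := Iff.rfl

theorem mem_Kd_kerN {η : R} : ∀ (l : List (ℤ × R)) (t i : ℤ) (z : Kt H l),
    z ∈ Kd (kerN N η) l t i ↔ z ∈ Kd N l t i ∧ η • z = 0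
  | [], t, i, z => by
    rw [mem_Kd_nil, mem_Kd_nil]
    constructor
    · rintro (⟨h1, h2⟩ | ⟨h1, h2⟩)
      · exact ⟨Or.inl ⟨h1, h2.1⟩, h2.2⟩
      · exact ⟨Or.inr ⟨h1, h2⟩, by rw [h2]; exact smul_zero η⟩
    · rintro ⟨⟨h1, h2⟩ | ⟨h1, h2⟩, h3⟩
      · exact Or.inl ⟨h1, h2, h3⟩
      · exact Or.inr ⟨h1, h2⟩
  | a :: l, t, i, z => by
    obtain ⟨z, w, rfl⟩ := exists_pr z
    rw [mem_Kd_cons, mem_Kd_cons, mem_Kd_kerN l, mem_Kd_kerN l, pr_smul, pr_eq_zero]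
    tauto

/-- lifting along `η` -/
theorem exists_Kd_lift {η : R} {c w₀ : ℤ}
    (hs : ∀ k, c ≤ k → ∀ g ∈ N (k + w₀), ∃ h ∈ N k, η • h = g) :
    ∀ (l : List (ℤ × R)), (∀ a ∈ l, 0 ≤ a.1) → ∀ (t i : ℤ), c + Wl l ≤ t →
      ∀ u ∈ Kd N l (t + w₀) i, ∃ v ∈ Kd N l t i, η • v = u
  | [], _, t, i, ht, u, hu => by
    rw [mem_Kd_nil] at hu
    rcases hu with ⟨h1, h2⟩ | ⟨h1, h2⟩
    · have h3 : Wl ([] : List (ℤ × R)) = 0 := rfl
      obtain ⟨h, h4, h5⟩ := hs t (by omega) u h2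
      exact ⟨h, mem_Kd_nil.2 (Or.inl ⟨h1, h4⟩), h5⟩
    · exact ⟨0, AddSubgroup.zero_mem _, by rw [h2]; exact smul_zero η⟩
  | a :: l, hl, t, i, ht, z, hu => by
    obtain ⟨u, v, rfl⟩ := exists_pr z
    rw [mem_Kd_cons] at hu
    have h1 := Wl_cons a l
    have h2 : 0 ≤ a.1 := hl a List.mem_cons_self
    have hl' : ∀ a ∈ l, 0 ≤ a.1 := fun b hb => hl b (List.mem_cons_of_mem _ hb)
    obtain ⟨u', h3, h4⟩ := exists_Kd_lift hs l hl' t i (by omega) u hu.1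
    obtain ⟨v', h5, h6⟩ := exists_Kd_lift hs l hl' (t - a.1) (i - 1) (by omega) v
      (Kd_cast (by ring) rfl hu.2)
    exact ⟨pr a u' v', mem_Kd_cons.2 ⟨h3, h5⟩, by rw [pr_smul, h4, h6]⟩

/-- **exactness for the kernel of a surjective operator** -/
theorem Ex.ker {η : R} {c w₀ : ℤ} (hη : Stab N w₀ η)
    (hs : ∀ k, c ≤ k → ∀ g ∈ N (k + w₀), ∃ h ∈ N k, η • h = g)
    {l : List (ℤ × R)} (hst : ∀ a ∈ l, Stab N a.1 a.2) (hl : ∀ a ∈ l, 0 ≤ a.1) {t i : ℤ}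
    (ht : c + Wl l ≤ t)
    (h0 : Ex N l t i) (h1 : Ex N l (t + w₀) (i + 1)) : Ex (kerN N η) l t i := by
  intro z hz hdz
  rw [mem_Kd_kerN] at hz
  obtain ⟨w, hw, hdw⟩ := h0 z hz.1 hdz
  have h2 : dK l (η • w) = 0 := by rw [map_smul, hdw, hz.2]
  obtain ⟨u', hu', hdu'⟩ := h1 (η • w) (Kd_smul hη l t (i + 1) w hw) h2
  obtain ⟨u, hu, rfl⟩ := exists_Kd_lift hs l hl t (i + 1 + 1) ht u' hu'
  refine ⟨w - dK l u, (mem_Kd_kerN l t (i + 1) _).2 ⟨AddSubgroup.sub_mem _ hw ?_, ?_⟩, ?_⟩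
  · exact Kd_cast rfl (by ring) (dK_mem l hst t _ u hu)
  · rw [smul_sub, ← map_smul, hdu', sub_self]
  · rw [map_sub, dK_dK, sub_zero, hdw]

/-! ### degree zero -/

/-- the inclusion of the bottom -/
def io : ∀ l : List (ℤ × R), H → Kt H l
  | [], z => z
  | a :: l, z => pr a (io l z) 0

/-- the projection to the bottom -/
def c0 : ∀ l : List (ℤ × R), Kt H l → H
  | [], z => z
  | _ :: l, z => c0 l (Prod.fst (α := Kt H l) (β := Kt H l) z)

theorem c0_pr (a : ℤ × R) {l : List (ℤ × R)} (z w : Kt H l) : c0 (a :: l) (pr a z w) = c0 l z := rfl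

theorem c0_io : ∀ (l : List (ℤ × R)) (z : H), c0 l (io l z) = z
  | [], _ => rfl
  | _ :: l, z => c0_io l z

theorem c0_add : ∀ (l : List (ℤ × R)) (z w : Kt H l), c0 l (z + w) = c0 l z + c0 l w
  | [], _, _ => rfl
  | _ :: l, z, w => by
    obtain ⟨z, z', rfl⟩ := exists_pr z
    obtain ⟨w, w', rfl⟩ := exists_pr w
    rw [pr_add, c0_pr, c0_pr, c0_pr, c0_add l]

theorem c0_smul (x : R) : ∀ (l : List (ℤ × R)) (z : Kt H l), c0 l (x • z) = x • c0 l z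
  | [], _ => rfl
  | _ :: l, z => by
    obtain ⟨z, z', rfl⟩ := exists_pr z
    rw [pr_smul, c0_pr, c0_pr, c0_smul x l]

theorem dK_io : ∀ (l : List (ℤ × R)) (z : H), dK l (io l z) = 0
  | [], _ => rfl
  | a :: l, z => by
    rw [io, dK_cons, dK_io l, smul_zero, map_zero, neg_zero, add_zero]
    rfl

theorem io_mem {t : ℤ} {z : H} (hz : z ∈ N t) : ∀ l : List (ℤ × R), io l z ∈ Kd N l t 0
  | [] => mem_Kd_nil.2 (Or.inl ⟨rfl, hz⟩)
  | _ :: l => mem_Kd_cons.2 ⟨io_mem hz l, AddSubgroup.zero_mem _⟩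

theorem c0_mem {t : ℤ} : ∀ (l : List (ℤ × R)) (z : Kt H l), z ∈ Kd N l t 0 → c0 l z ∈ N t
  | [], z, hz => by
    rw [mem_Kd_nil] at hz
    rcases hz with ⟨-, h⟩ | ⟨h, -⟩
    · exact h
    · exact absurd rfl h
  | _ :: l, z, hz => by
    obtain ⟨z, w, rfl⟩ := exists_pr z
    rw [mem_Kd_cons] at hz
    exact c0_mem l z hz.1

/-- `z = ∑ x_a f_a`, `f_a ∈ N (t - s_a)` -/
def InSum (N : ℤ → AddSubgroup H) (t : ℤ) : List (ℤ × R) → H → Prop
  | [], z => z = 0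
  | a :: l, z => ∃ f ∈ N (t - a.1), ∃ z', InSum N t l z' ∧ z = a.2 • f + z'

theorem inSum_c0 {t : ℤ} : ∀ (l : List (ℤ × R)) (w : Kt H l), w ∈ Kd N l t 1 →
    InSum N t l (c0 l (dK l w))
  | [], _, _ => rfl
  | a :: l, w, hw => by
    obtain ⟨u, v, rfl⟩ := exists_pr w
    rw [mem_Kd_cons, sub_self] at hw
    rw [dK_cons, c0_pr, c0_add, c0_smul]
    exact ⟨c0 l v, c0_mem l v hw.2, c0 l (dK l u), inSum_c0 l u hw.1, add_comm _ _⟩

/-- exactness at the bottom -/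
theorem Ex.inSum {l : List (ℤ × R)} {t : ℤ} (h : Ex N l t 0) {z : H} (hz : z ∈ N t) :
    InSum N t l z := by
  obtain ⟨w, hw, hdw⟩ := h (io l z) (io_mem hz l) (dK_io l z)
  have h1 := inSum_c0 l w (Kd_cast rfl (zero_add 1) hw)
  rwa [hdw, c0_io] at h1

end

end Vale.Agent.P221.H128
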