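import Vale.Agent.P221.H128.A4
import Vale.Agent.P221.H128.Kos

/-!
# P221 (helper128): every element of `π_t X`, `t ≥ c`, is the value of an element of `[Σ^t BP, X]`
killed by all `x_l`, if the Koszul complex of `v_0, …, v_n` is exact in degrees `≥ c + W`.
-/

open MvPolynomial

set_option linter.unusedSectionVars false

namespace Vale.Agent.P221.H128

open Vale.Agent.P221.T Vale.Agent.P221.T.H746 Vale.Agent.P221.H460

variable {p : ℕ} [hp : Fact p.Prime] {n : ℕ} {ld : Lead p n} {S : Src p n} {O : OpAlg ld S}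
  {M : Type} [AddCommGroup M] [Module (KK p) M]

/-- the functionals, as a module over `BP_* BP` by precomposition -/
@[reducible] noncomputable def modX (p : ℕ) [Fact p.Prime] (M : Type) [AddCommGroup M]
    [Module (KK p) M] : Module (GG p) (GG p →ₗ[KK p] M) where
  smul z f := f ∘ₗ mL z
  one_smul f := LinearMap.ext fun w => congrArg f (_root_.one_mul w)
  mul_smul x y f := LinearMap.ext fun w => congrArg f (show x * y * w = y * (x * w) by ring)
  smul_zero _ := rfl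
  smul_add _ _ _ := rfl
  add_smul x y f := LinearMap.ext fun w =>
    (congrArg f (_root_.add_mul x y w)).trans (map_add _ _ _)
  zero_smul f := LinearMap.ext fun w =>
    (congrArg f (MulZeroClass.zero_mul w)).trans (map_zero _)

attribute [local instance] modX

theorem HX_smul (z : GG p) (f : GG p →ₗ[KK p] M) : z • f = f ∘ₗ mL z := rfl

/-- the list `(|v_{m-1}|, v_{m-1}), …, (|v_0|, v_0)` -/
noncomputable def LL (X : OpX O) : ℕ → List (ℤ × GG p)
  | 0 => []
  | m + 1 => (sV p m, X.eta (vK p m)) :: LL X m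

theorem Wl_LL (X : OpX O) : ∀ m, Wl (LL X m) = ∑ a : Fin m, sV p a
  | 0 => rfl
  | m + 1 => by
    rw [LL, Wl_cons, Wl_LL X m, Fin.sum_univ_castSucc, add_comm]
    rfl

theorem mem_LL {X : OpX O} : ∀ {m : ℕ} {a : ℤ × GG p}, a ∈ LL X m →
    ∃ b < m, a = (sV p b, X.eta (vK p b))
  | 0, a, h => absurd h List.not_mem_nil
  | m + 1, a, h => by
    rw [LL, List.mem_cons] at h
    rcases h with rfl | h
    · exact ⟨m, by omega, rfl⟩
    · obtain ⟨b, hb, rfl⟩ := mem_LL h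
      exact ⟨b, by omega, rfl⟩

/-- **(K)_c** : the Koszul complex of `v_0, …, v_n` is exact in degrees `≥ b` -/
def KX (Z : XS O M) (X : OpX O) (b : ℤ) : Prop :=
  ∀ t, b ≤ t → ∀ i, Ex (R := GG p) (H := GG p →ₗ[KK p] M) Z.A (LL X (n + 1)) t i

theorem inSum_LL {X : OpX O} {N : ℤ → AddSubgroup ((GG p →ₗ[KK p] M))} {t : ℤ} : ∀ {m : ℕ} {z : (GG p →ₗ[KK p] M)},
    InSum (R := GG p) N t (LL X m) z →
    ∃ f : Fin m → (GG p →ₗ[KK p] M), (∀ a : Fin m, f a ∈ N (t - sV p a)) ∧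
      z = ∑ a : Fin m, X.eta (vK p a) • f a
  | 0, z, h => ⟨fun _ => 0, fun a => a.elim0, by
      rw [Fin.sum_univ_zero]
      exact h⟩
  | m + 1, z, h => by
    obtain ⟨f, hf, z', hz', rfl⟩ := h
    obtain ⟨g, hg, rfl⟩ := inSum_LL hz'
    refine ⟨Fin.snoc (α := fun _ => (GG p →ₗ[KK p] M)) g f, fun a => ?_, ?_⟩
    · refine Fin.lastCases ?_ (fun a => ?_) a
      · rw [Fin.snoc_last]
        exact hf
      · rw [Fin.snoc_castSucc]
        exact hg a
    · rw [Fin.sum_univ_castSucc, Fin.snoc_last, add_comm]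
      congr 1
      refine Finset.sum_congr rfl fun a _ => ?_
      rw [Fin.snoc_castSucc]
      rfl

section

variable {Z : XS O M} {X : OpX O} {ρ : KK p →ₐ[ℤ_[p]] MvPolynomial (Fin n) ℤ_[p]}

/-- multiplication by `v_a` preserves `N_J` -/
theorem stab_NJ (J a : ℕ) : Stab (R := GG p) (H := GG p →ₗ[KK p] M) (NJ Z J) (sV p a) (X.eta (vK p a)) := by
  intro k f hf
  obtain ⟨γ, hγ⟩ := X.mult (sV p a) (vK p a) (vK_homog a)
  have hγ' : O.T _ γ = mL (X.eta (vK p a)) := LinearMap.ext fun z => hγ z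
  rw [HX_smul]
  refine ⟨?_, fun l hl => ?_⟩
  · have h1 := Z.act (rfl : k + sV p a = k + sV p a) hf.1 γ
    rwa [hγ'] at h1
  · rw [LinearMap.comp_assoc, mL_comm, ← LinearMap.comp_assoc, hf.2 l hl, LinearMap.zero_comp]

theorem stab_NJx (J l : ℕ) : Stab (R := GG p) (H := GG p →ₗ[KK p] M) (NJ Z J) (dd p n l) (O.η l) := by
  intro k f hf
  rw [HX_smul]
  refine ⟨?_, fun i hi => ?_⟩
  · have h1 := Z.act (rfl : k + dd p n l = k + dd p n l) hf.1 (S.x l)
    rwa [T_x'] at h1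
  · rw [LinearMap.comp_assoc, mL_comm, ← LinearMap.comp_assoc, hf.2 i hi, LinearMap.zero_comp]

theorem NJ_zero (k : ℤ) : NJ Z 0 k = Z.A k := by
  ext f
  rw [mem_NJ]
  exact ⟨fun h => h.1, fun h => ⟨h, fun l hl => absurd hl (Nat.not_lt_zero l)⟩⟩

theorem NJ_succ (J : ℕ) : (kerN (R := GG p) (H := GG p →ₗ[KK p] M) (NJ Z J) (O.η J)) = NJ Z (J + 1) := by
  funext k
  refine AddSubgroup.ext fun f => ?_
  rw [mem_kerN]
  constructor
  · rintro ⟨h1, h2⟩
    refine ⟨h1.1, fun l hl => ?_⟩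
    rcases (Nat.lt_succ_iff.1 hl).lt_or_eq with h | rfl
    · exact h1.2 l h
    · exact h2
  · rintro ⟨h1, h2⟩
    exact ⟨⟨h1, fun l hl => h2 l (by omega)⟩, h2 J (by omega)⟩

theorem genJ_of_ex {J : ℕ} {b : ℤ}
    (h : ∀ t, b ≤ t → Ex (R := GG p) (H := GG p →ₗ[KK p] M) (NJ Z J) (LL X (n + 1)) t 0) :
    GenJ Z X J b := by
  intro k hk f hf
  obtain ⟨f', h1, h2⟩ := inSum_LL ((h k hk).inSum (z := f) hf)
  exact ⟨f', h1, h2⟩

variable {c : ℤ} {r : ℕ} {e : Fin r → ℤ} (G : GenX Z X c r e)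
  (hρ : ∀ a, ρ (RN p n a) = a) (hρx : ∀ l, ρ (xx O l) = 0) (hS : SolveB O ρ)

theorem sV_le_WW {a : ℕ} (ha : a ≤ n) : sV p a ≤ WW p n := by
  unfold WW
  exact Finset.single_le_sum (f := fun a : Fin (n + 1) => sV p (a : ℕ))
    (fun a _ => sV_nonneg p _) (Finset.mem_univ (⟨a, by omega⟩ : Fin (n + 1)))

include G hρ hρx hS in
/-- the Koszul complexes of all `N_J` -/
theorem ex_NJ (hK : KX Z X (c + WW p n)) (J : ℕ) :
    ∀ t, c + WW p n ≤ t → ∀ i, Ex (R := GG p) (H := GG p →ₗ[KK p] M) (NJ Z J) (LL X (n + 1)) t i := by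
  induction J with
  | zero =>
    intro t ht i
    have h1 : NJ Z 0 = Z.A := funext NJ_zero
    rw [h1]
    exact hK t ht i
  | succ J ih =>
    intro t ht i
    rw [← NJ_succ]
    have hgen : GenJ Z X J (c + WW p n) := genJ_of_ex fun t ht => ih t ht 0
    have hd : 0 ≤ dd p n J := sV_nonneg p _
    refine Ex.ker (c := c) (stab_NJx J J) (fun k hk g hg => ?_) (fun a ha => ?_) (fun a ha => ?_) ?_
      (ih t ht i) (ih _ (by omega) _)
    · obtain ⟨b, hb, -, -, h⟩ := surj_x G hρ hρx hS (fun a ha => sV_le_WW ha)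
        (WW_le hp.out.two_le n) hk rfl hgen hg
      exact ⟨b, hb, h⟩
    · obtain ⟨b, -, rfl⟩ := mem_LL ha
      exact stab_NJ J b
    · obtain ⟨b, -, rfl⟩ := mem_LL ha
      exact sV_nonneg p b
    · rw [Wl_LL]
      exact ht

include G hρ hρx hS in
/-- **the lifting theorem** -/
theorem lift_all (hK : KX Z X (c + WW p n)) {t : ℤ} (ht : c ≤ t) {f₀ : GG p →ₗ[KK p] M}
    (hf₀ : f₀ ∈ Z.A t) : ∃ f ∈ Z.A t, f 1 = f₀ 1 ∧ ∀ l, f ∘ₗ mL (O.η l) = 0 := by
  classical
  set s := Lh p n c (WW p n) (t + dd p n 0) with hs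
  have hLh : ∀ J : ℕ, s + J ≤ Lh p n c (WW p n) (t + dd p n J) := by
    intro J
    have h1 : t + dd p n 0 + kap p n * J ≤ t + dd p n J := by
      induction J with
      | zero => simp
      | succ J ih =>
        have h2 := dd_step (p := p) (n := n) J
        push_cast
        have h3 : kap p n * ((J : ℤ) + 1) = kap p n * J + kap p n := by ring
        omega
    have h2 := Lh_mono (p := p) (n := n) (c := c) (W := WW p n) h1
    rw [Lh_add] at h2
    exact h2
  have hstep : ∀ (J : ℕ) (g : {g // g ∈ NJ Z J t}), ∃ (h : GG p →ₗ[KK p] M)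
      (g' : {g // g ∈ NJ Z (J + 1) t}), h 1 = 0 ∧ h ∈ UU G (s + J) t ∧ g'.1 = g.1 - h := by
    rintro J ⟨g, hg⟩
    obtain ⟨b, hb, hb1, hbU, hbx⟩ := surj_x G hρ hρx hS (fun a ha => sV_le_WW ha)
      (WW_le hp.out.two_le n) ht rfl (genJ_of_ex fun t ht => ex_NJ G hρ hρx hS hK J t ht 0)
      (stab_NJx J J t g hg)
    refine ⟨b, ⟨g - b, ⟨(Z.A t).sub_mem hg.1 hb.1, fun l hl => ?_⟩⟩, hb1, UU_mono G (hLh J) hbU, rfl⟩
    rcases (Nat.lt_succ_iff.1 hl).lt_or_eq with h | rfl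
    · rw [LinearMap.sub_comp, hg.2 l h, hb.2 l h, sub_zero]
    · rw [LinearMap.sub_comp, hbx]
      exact sub_self _
  choose h nx h1 h2 h3 using hstep
  let sq : ∀ J : ℕ, {g // g ∈ NJ Z J t} := fun J =>
    Nat.rec (motive := fun J : ℕ => {g // g ∈ NJ Z J t})
      ⟨f₀, by rw [NJ_zero]; exact hf₀⟩ (fun J g => nx J g) J
  have hsq0 : (sq 0).1 = f₀ := rfl
  have hsq : ∀ J, (sq (J + 1)).1 = (sq J).1 - h J (sq J) := fun J => h3 J (sq J)
  let a : ℕ → (GG p →ₗ[KK p] M) := fun J => h J (sq J)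
  have hsum : ∀ m, (sq m).1 = f₀ - ∑ i ∈ Finset.range m, a i := by
    intro m
    induction m with
    | zero => rw [Finset.sum_range_zero, sub_zero, hsq0]
    | succ m ih => rw [hsq, ih, Finset.sum_range_succ, sub_sub]
  obtain ⟨b, hb, hb'⟩ := UU_cpl G s a fun i => h2 i (sq i)
  refine ⟨f₀ - b, (Z.A t).sub_mem hf₀ (UU_le G _ _ hb), ?_, fun l => ?_⟩
  · have h9 : (1 : GG p) = monomial 0 1 := rfl
    have h10 : b 1 = 0 := by
      rw [h9]
      refine UU_sep' G (k := t) 0 fun t' => ?_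
      refine ⟨b - ∑ i ∈ Finset.range (t' - s).toNat, a i, UU_mono G ?_ (hb' _), ?_⟩
      · omega
      · rw [LinearMap.sub_apply, LinearMap.sum_apply, ← h9,
          Finset.sum_eq_zero fun i _ => h1 i (sq i), sub_zero]
    rw [LinearMap.sub_apply, h10, sub_zero]
  · refine UU_sep G (k := t + dd p n l) fun t' => ?_
    set m := max (l + 1) (t' - s).toNat with hm
    have h4 : (f₀ - b) ∘ₗ mL (O.η l) = -((b - ∑ i ∈ Finset.range m, a i) ∘ₗ mL (O.η l)) := by
      have h5 : f₀ - b = (sq m).1 - (b - ∑ i ∈ Finset.range m, a i) := by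
        rw [hsum]
        abel
      rw [h5, LinearMap.sub_comp, (sq m).2.2 l (by omega), zero_sub]
    rw [h4]
    refine AddSubgroup.neg_mem _ ?_
    have h6 := UU_act G (rfl : t + dd p n l = t + dd p n l) (hb' m) (mem_F_nonpos O le_rfl (S.x l))
    rw [T_x', add_zero] at h6
    exact UU_mono G (by omega) h6

end

end Vale.Agent.P221.H128
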