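import Vale.Agent.P221.H128.Nak
import Vale.Agent.P221.H377.Sys
import Vale.Agent.P221.H626.Kos

/-!
# P221 (helper128): the covering theorem

`Y : Sys S` the system of `X`, `Z : Ev O Y M`. If the Koszul complex of `v_0, …, v_n` on
`⨁_k [Σ^k BP, X]` is exact in degrees `≥ c + W`, then

* `exists_lift_x` : every element of `π_k X`, `k ≥ c`, is the value of an element of `[Σ^k BP, X]`
  killed by all `x_l`;
* `exists_cover` : finitely many such elements of degrees in `[c, c + W)` generate `π_k X`, `k ≥ c`;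
* `surj_x_sys` : `x_J` is onto on the elements killed by `x_0, …, x_{J-1}`.
-/

open MvPolynomial

set_option linter.unusedSectionVars false

namespace Vale.Agent.P221.H128

open Vale.Agent.P221.T Vale.Agent.P221.T.H746 Vale.Agent.P221.H460 Vale.Agent.P221.H377

/-! ### comparison of the two Koszul complexes -/

section conv

variable {R : Type} [CommRing R] {H : Type} [AddCommGroup H] [Module R H] {F : Type*}
  [AddCommGroup F] {gr : ℤ → AddSubgroup F} {N : ℤ → AddSubgroup H} {x : ℕ → F →+ F} {dg : ℕ → ℤ}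

/-- the list `(dg (m-1), η (m-1)), …, (dg 0, η 0)` -/
def LG (dg : ℕ → ℤ) (η : ℕ → R) : ℕ → List (ℤ × R)
  | 0 => []
  | m + 1 => (dg m, η m) :: LG dg η m

/-- the comparison map -/
def cv (dg : ℕ → ℤ) (η : ℕ → R) (f : F →+ H) : ∀ r, H626.KC F r → Kt H (LG dg η r)
  | 0, z => f z
  | r + 1, z => pr (dg r, η r) (cv dg η f r (H626.fs r z)) (cv dg η f r (H626.sn r z))

theorem cv_zero' (dg : ℕ → ℤ) (η : ℕ → R) (f : F →+ H) : ∀ r, cv dg η f r 0 = 0
  | 0 => map_zero f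
  | r + 1 => by
    change pr (dg r, η r) (cv dg η f r 0) (cv dg η f r 0) = 0
    rw [cv_zero' dg η f r]
    rfl

theorem cv_add (dg : ℕ → ℤ) (η : ℕ → R) (f : F →+ H) : ∀ r (z w : H626.KC F r),
    cv dg η f r (z + w) = cv dg η f r z + cv dg η f r w
  | 0, z, w => map_add f z w
  | r + 1, z, w => by
    change pr (dg r, η r) (cv dg η f r (H626.fs r z + H626.fs r w))
      (cv dg η f r (H626.sn r z + H626.sn r w)) =
      pr (dg r, η r) (cv dg η f r (H626.fs r z)) (cv dg η f r (H626.sn r z)) +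
      pr (dg r, η r) (cv dg η f r (H626.fs r w)) (cv dg η f r (H626.sn r w))
    rw [cv_add dg η f r, cv_add dg η f r]
    rfl

theorem cv_neg (dg : ℕ → ℤ) (η : ℕ → R) (f : F →+ H) (r : ℕ) (z : H626.KC F r) :
    cv dg η f r (-z) = -cv dg η f r z := by
  rw [eq_neg_iff_add_eq_zero, ← cv_add, neg_add_cancel, cv_zero']

variable {η : ℕ → R} {f : F →+ H} (hfx : ∀ a z, f (x a z) = η a • f z)

include hfx in
theorem cv_kmap (a : ℕ) : ∀ {r : ℕ} (z : H626.KC F r),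
    cv dg η f r (H626.kmap (x a) r z) = η a • cv dg η f r z
  | 0, z => hfx a z
  | r + 1, z => by
    change pr (dg r, η r) (cv dg η f r (H626.kmap (x a) r (H626.fs r z)))
      (cv dg η f r (H626.kmap (x a) r (H626.sn r z))) =
      η a • pr (dg r, η r) (cv dg η f r (H626.fs r z)) (cv dg η f r (H626.sn r z))
    rw [cv_kmap a, cv_kmap a, pr_smul]

include hfx in
theorem cv_kd : ∀ {r : ℕ} (z : H626.KC F r),
    cv dg η f r (H626.kd x r z) = dK (LG dg η r) (cv dg η f r z)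
  | 0, z => map_zero f
  | r + 1, z => by
    change pr (dg r, η r) (cv dg η f r (H626.kd x r (H626.fs r z) +
        H626.kmap (x r) r (H626.sn r z))) (cv dg η f r (-H626.kd x r (H626.sn r z))) =
      dK ((dg r, η r) :: LG dg η r) (pr (dg r, η r) (cv dg η f r (H626.fs r z))
        (cv dg η f r (H626.sn r z)))
    rw [cv_add, cv_kd, cv_kmap hfx, cv_neg, cv_kd, dK_cons]

variable (hf1 : ∀ k, ∀ z ∈ gr k, f z ∈ N k) (hf2 : ∀ k, ∀ z ∈ gr k, f z = 0 → z = 0)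
  (hf3 : ∀ k, ∀ w ∈ N k, ∃ z ∈ gr k, f z = w)

include hf1 in
theorem cv_mem : ∀ {r : ℕ} {s t : ℤ} {z : H626.KC F r}, z ∈ H626.KG gr dg r s t →
    cv dg η f r z ∈ Kd N (LG dg η r) t s
  | 0, s, t, z, hz => by
    refine mem_Kd_nil.2 ?_
    by_cases hs : s = 0
    · refine Or.inl ⟨hs, hf1 t z ?_⟩
      have h1 : z ∈ (if s = 0 then gr t else ⊥ : AddSubgroup F) := hz
      rwa [if_pos hs] at h1
    · refine Or.inr ⟨hs, ?_⟩
      rw [H626.mem_KG_zero hs hz]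
      exact map_zero f
  | r + 1, s, t, z, hz => by
    obtain ⟨h1, h2⟩ := H626.mem_KG_succ.1 hz
    exact mem_Kd_cons.2 ⟨cv_mem h1, cv_mem h2⟩

include hf2 in
theorem cv_inj : ∀ {r : ℕ} {s t : ℤ} {z : H626.KC F r}, z ∈ H626.KG gr dg r s t →
    cv dg η f r z = 0 → z = 0
  | 0, s, t, z, hz, h => by
    by_cases hs : s = 0
    · have h1 : z ∈ (if s = 0 then gr t else ⊥ : AddSubgroup F) := hz
      rw [if_pos hs] at h1
      exact hf2 t z h1 h
    · exact H626.mem_KG_zero hs hz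
  | r + 1, s, t, z, hz, h => by
    obtain ⟨h1, h2⟩ := H626.mem_KG_succ.1 hz
    obtain ⟨h3, h4⟩ := pr_eq_zero.1 h
    exact H626.pr_ext (cv_inj h1 h3) (cv_inj h2 h4)

include hf3 in
theorem cv_surj : ∀ {r : ℕ} {s t : ℤ} {w : Kt H (LG dg η r)}, w ∈ Kd N (LG dg η r) t s →
    ∃ z ∈ H626.KG gr dg r s t, cv dg η f r z = w
  | 0, s, t, w, hw => by
    rcases mem_Kd_nil.1 hw with ⟨hs, hw⟩ | ⟨hs, hw⟩
    · obtain ⟨z, hz, hzw⟩ := hf3 t w hw
      refine ⟨z, ?_, hzw⟩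
      change z ∈ (if s = 0 then gr t else ⊥ : AddSubgroup F)
      rwa [if_pos hs]
    · exact ⟨0, AddSubgroup.zero_mem _, by rw [cv_zero', hw]; rfl⟩
  | r + 1, s, t, w, hw => by
    obtain ⟨u, v, rfl⟩ := exists_pr (a := (dg r, η r)) w
    obtain ⟨hu, hv⟩ := mem_Kd_cons.1 hw
    obtain ⟨z, hz, rfl⟩ := cv_surj hu
    obtain ⟨z', hz', rfl⟩ := cv_surj hv
    exact ⟨H626.pr z z', H626.mem_KG_succ.2 ⟨hz, hz'⟩, rfl⟩

include hfx hf1 hf2 hf3 in
/-- comparison of exactness -/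
theorem ex_conv (hg : ∀ a k, ∀ z ∈ gr k, x a z ∈ gr (k + dg a)) {r : ℕ} {s t : ℤ}
    (h : H626.Ex x gr dg r s t) : Ex N (LG dg η r) t s := by
  intro w hw hdw
  obtain ⟨z, hz, rfl⟩ := cv_surj (dg := dg) (η := η) hf3 hw
  rw [← cv_kd hfx] at hdw
  have h1 : H626.kd x r z = 0 := cv_inj hf2 (H626.kd_mem hg hz) hdw
  obtain ⟨y, hy, rfl⟩ := h z hz h1
  exact ⟨cv dg η f r y, cv_mem hf1 hy, (cv_kd hfx y).symm⟩

end conv

variable {p : ℕ} [hp : Fact p.Prime] {n : ℕ} {ld : Lead p n} {S : Src p n} {O : OpAlg ld S}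
  {Y : Sys S} {M : Type} [AddCommGroup M] [Module (KK p) M]

attribute [local instance] modX

theorem LL_eq (X : OpX O) : ∀ m, LL X m = LG (sV p) (fun a => X.eta (vK p a)) m
  | 0 => rfl
  | m + 1 => by rw [LL, LG, LL_eq X m]

section ev

variable (Z : Ev O Y M) (X : OpX O) (hsurj : ∀ k, Function.Surjective (Y.ev k))
  (hsep : ∀ z : M, (∀ N : ℕ, ∃ z', z = (p : KK p) ^ N • z') → z = 0)

/-- the internal system -/
noncomputable def xsOfEv : XS O M where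
  A k := (Z.c k).range
  act := by
    rintro k m k' h _ ⟨a, rfl⟩ γ
    exact ⟨Y.act h a γ, Z.act h a γ⟩
  low := by
    rintro k c₀ _ ⟨a, rfl⟩ h E hE
    obtain ⟨x, hx⟩ := Z.low k c₀ a h E hE
    obtain ⟨a', rfl⟩ := hsurj _ x
    exact ⟨Z.c _ a', ⟨a', rfl⟩, by rw [← Z.ev, hx]⟩
  sep := hsep

theorem mem_xs {k : ℤ} {f : GG p →ₗ[KK p] M} :
    f ∈ (xsOfEv Z hsurj hsep).A k ↔ ∃ a, Z.c k a = f := Iff.rfl

/-- the coordinates on `⨁ A_k` -/
noncomputable def cA : AA Y →+ (GG p →ₗ[KK p] M) := DirectSum.toAddMonoid fun k => Z.c k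

theorem cA_of (k : ℤ) (a : Y.A k) : cA Z (ofA Y k a) = Z.c k a := DirectSum.toAddMonoid_of _ _ _

theorem c_act_gm' {m : ℕ} {k k' : ℤ} (h : k + sV p m = k') (a : Y.A k) :
    Z.c k' (Y.act h a (gm X m)) = X.eta (vK p m) • Z.c k a :=
  LinearMap.ext fun z => c_act_gm Z X h a z

theorem cA_xx (m : ℕ) (α : AA Y) : cA Z (H377.xx X Y m α) = X.eta (vK p m) • cA Z α := by
  refine ind Y (Q := fun α => cA Z (H377.xx X Y m α) = X.eta (vK p m) • cA Z α) ?_ ?_ ?_ α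
  · rw [map_zero, map_zero, smul_zero]
  · intro k a
    rw [H377.xx, opA_of Y (rfl : k + sV p m = _), cA_of, cA_of, c_act_gm']
  · intro α β h h'
    rw [map_add, map_add, h, h', map_add, smul_add]

/-- **Koszul exactness** in the internal form -/
theorem kx_of_ex {b : ℤ} (hK : ∀ t, b ≤ t → ∀ s, H626.Ex (fun a => (H377.xx X Y a : AA Y →+ AA Y))
    (fun k => (ofA Y k).range) (sV p) (n + 1) s t) : KX (xsOfEv Z hsurj hsep) X b := by
  intro t ht i
  rw [LL_eq]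
  refine ex_conv (f := cA Z) (x := fun a => (H377.xx X Y a : AA Y →+ AA Y))
    (gr := fun k => (ofA Y k).range) (fun a z => cA_xx Z X a z) ?_ ?_ ?_ ?_ (hK t ht i)
  · rintro k _ ⟨a, rfl⟩
    exact ⟨a, (cA_of Z k a).symm⟩
  · rintro k _ ⟨a, rfl⟩ h
    rw [cA_of] at h
    rw [Z.inj k (h.trans (map_zero _).symm), map_zero]
  · rintro k _ ⟨a, rfl⟩
    exact ⟨ofA Y k a, ⟨a, rfl⟩, cA_of Z k a⟩
  · rintro a k _ ⟨b, rfl⟩
    exact ⟨Y.act rfl b (gm X a), (opA_of Y rfl (gm X a) b).symm⟩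

/-- the elements `x_j` of degrees `e_j` generate `π_k X` modulo `p` for `c ≤ k < c + W` -/
def Win (Y : Sys S) (c W : ℤ) {r : ℕ} (e : Fin r → ℤ) (x : ∀ j, Y.Pi (e j)) : Prop :=
  ∀ k, c ≤ k → k < c + W → ∀ y : Y.Pi k, ∃ (m : Fin r → ℤ) (y' : Y.Pi k),
    y = ∑ j, (if h : e j = k then m j • (h ▸ x j : Y.Pi k) else 0) + (p : ℤ) • y'

variable {c : ℤ} (hK : ∀ t, c + WW p n ≤ t → ∀ s, H626.Ex (fun a => (H377.xx X Y a : AA Y →+ AA Y))
    (fun k => (ofA Y k).range) (sV p) (n + 1) s t)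

theorem zsmul_M (m : ℤ) (z : M) : (m : KK p) • z = m • z := Int.cast_smul_eq_zsmul _ _ _

include hK in
/-- **generation**, from the window -/
theorem gen_of_win {r : ℕ} {e : Fin r → ℤ} (a : ∀ j, Y.A (e j))
    (hw : Win Y c (WW p n) e fun j => Y.ev (e j) (a j)) (k : ℤ) (hk : c ≤ k)
    (f : GG p →ₗ[KK p] M) (hf : f ∈ (xsOfEv Z hsurj hsep).A k) : ∃ v : Fin r → KK p,
      (∀ j, HK p (k - e j) (v j)) ∧ f 1 = ∑ j, Z.c (e j) (a j) (X.eta (v j)) := by
  classical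
  refine gen_of_window (g := fun j => Z.c (e j) (a j)) (e := e) (kx_of_ex Z X hsurj hsep hK)
    (fun j => ⟨a j, rfl⟩) ?_ k hk f hf
  rintro k hk hk' _ ⟨b, rfl⟩
  obtain ⟨m, y', hy⟩ := hw k hk hk' (Y.ev k b)
  obtain ⟨b', rfl⟩ := hsurj k y'
  refine ⟨fun j => if e j = k then (m j : KK p) else 0, fun j => ?_, Z.c k b', ⟨b', rfl⟩, ?_⟩
  · change HK p (k - e j) (if e j = k then (m j : KK p) else 0)
    split_ifs with h
    · rw [h, sub_self, ← map_intCast (C : ℤ_[p] →+* KK p)]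
      exact HK_C _
    · exact HK_zero _
  · rw [← Z.ev, hy, map_add, map_zsmul, Z.ev, map_sum]
    congr 1
    · refine Finset.sum_congr rfl fun j _ => ?_
      change Z.e k (if h : e j = k then m j • (h ▸ Y.ev (e j) (a j) : Y.Pi k) else 0) =
        Z.c (e j) (a j) (X.eta (if e j = k then (m j : KK p) else 0))
      by_cases h : e j = k
      · subst h
        rw [dif_pos rfl, if_pos rfl, map_zsmul, map_intCast X.eta, Z.ev]
        have h2 : ((m j : ℤ) : GG p) = ((m j : ℤ) : KK p) • (1 : GG p) := by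
          rw [smul_eq_C_mul, map_intCast, _root_.mul_one]
        rw [h2, map_smul, zsmul_M]
      · rw [dif_neg h, if_neg h, map_zero, map_zero, map_zero]
    · rw [← zsmul_M (p := p), Int.cast_natCast]

/-- the generators -/
noncomputable def genX {r : ℕ} {e : Fin r → ℤ} (a : ∀ j, Y.A (e j))
    (hw : Win Y c (WW p n) e fun j => Y.ev (e j) (a j)) : GenX (xsOfEv Z hsurj hsep) X c r e where
  g j := Z.c (e j) (a j)
  mem j := ⟨a j, rfl⟩
  gen := gen_of_win Z X hsurj hsep hK a hw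

include hsurj hsep hK in
/-- **(I.2)** the elements `a_j` generate `π_k X` for all `k ≥ c` if they generate it modulo `p`
for `c ≤ k < c + W` -/
theorem cover_gen {r : ℕ} {e : Fin r → ℤ} (a : ∀ j, Y.A (e j))
    (hw : Win Y c (WW p n) e fun j => Y.ev (e j) (a j)) (k : ℤ) (hk : c ≤ k) (x : Y.Pi k) :
    ∃ v : Fin r → KK p, (∀ j, HK p (k - e j) (v j)) ∧
      Z.e k x = ∑ j, Z.c (e j) (a j) (X.eta (v j)) := by
  obtain ⟨b, rfl⟩ := hsurj k x
  obtain ⟨v, hv, h⟩ := gen_of_win Z X hsurj hsep hK a hw k hk (Z.c k b) ⟨b, rfl⟩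
  exact ⟨v, hv, by rw [Z.ev, h]⟩

/-- finite generation modulo `p` in the window -/
def Fing (Y : Sys S) (p : ℕ) (c W : ℤ) : Prop :=
  ∀ k, c ≤ k → k < c + W → ∃ (r : ℕ) (x : Fin r → Y.Pi k), ∀ y : Y.Pi k,
    ∃ (m : Fin r → ℤ) (y' : Y.Pi k), y = ∑ i, m i • x i + (p : ℤ) • y'

theorem exists_win {W : ℤ} (hfin : Fing Y p c W) : ∃ (r : ℕ) (e : Fin r → ℤ)
    (x : ∀ j, Y.Pi (e j)), (∀ j, c ≤ e j ∧ e j < c + W) ∧ Win Y c W e x := by
  classical
  choose r x hx using fun k : Finset.Ico c (c + W) =>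
    hfin k.1 (Finset.mem_Ico.1 k.2).1 (Finset.mem_Ico.1 k.2).2
  let ι := Σ k : Finset.Ico c (c + W), Fin (r k)
  let φ : ι ≃ Fin (Fintype.card ι) := Fintype.equivFin ι
  refine ⟨Fintype.card ι, fun j => (φ.symm j).1.1, fun j => x (φ.symm j).1 (φ.symm j).2,
    fun j => Finset.mem_Ico.1 (φ.symm j).1.2, fun k hk hk' y => ?_⟩
  let k' : Finset.Ico c (c + W) := ⟨k, Finset.mem_Ico.2 ⟨hk, hk'⟩⟩
  obtain ⟨m, y', hy⟩ := hx k' y
  refine ⟨fun j => if h : (φ.symm j).1 = k' then m (h ▸ (φ.symm j).2) else 0, y', ?_⟩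
  rw [hy]
  congr 1
  let G : ι → Y.Pi k := fun j => if h : j.1.1 = k then
    (if h' : j.1 = k' then m (h' ▸ j.2) else 0) • (h ▸ x j.1 j.2 : Y.Pi k) else 0
  have h1 : ∑ j, G (φ.symm j) = ∑ j, G j := Equiv.sum_comp φ.symm G
  refine Eq.trans ?_ h1.symm
  rw [Fintype.sum_sigma, Finset.sum_eq_single k']
  · refine Finset.sum_congr rfl fun i _ => ?_
    change _ = (if h : k'.1 = k then
      (if h' : k' = k' then m (h' ▸ i) else 0) • (h ▸ x k' i : Y.Pi k) else 0)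
    rw [dif_pos rfl, dif_pos rfl]
  · intro k'' _ hne
    refine Finset.sum_eq_zero fun i _ => ?_
    change (if h : k''.1 = k then
      (if h' : k'' = k' then m (h' ▸ i) else 0) • (h ▸ x k'' i : Y.Pi k) else 0) = 0
    rw [dif_neg]
    intro h
    exact hne (Subtype.ext h)
  · intro h
    exact absurd (Finset.mem_univ _) h

theorem comp_mL_eta (l : ℕ) {k k' : ℤ} (h : k + dd p n l = k') (a : Y.A k) :
    Z.c k a ∘ₗ mL (O.η l) = Z.c k' (Y.act h a (S.x l)) := by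
  rw [Z.act, T_x']

theorem act_x_eq_zero_iff (l : ℕ) {k k' : ℤ} (h : k + dd p n l = k') (a : Y.A k) :
    Y.act h a (S.x l) = 0 ↔ Z.c k a ∘ₗ mL (O.η l) = 0 := by
  rw [comp_mL_eta Z l h]
  exact ⟨fun h => by rw [h, map_zero], fun h => Z.inj _ (h.trans (map_zero _).symm)⟩

/-! ### the theorems -/

variable {YB : Sys S} {MB : Type} [AddCommGroup MB] [Module (KK p) MB] {Mg : ℤ → AddSubgroup MB}
  (co : Coor O YB MB Mg) {y : MB} (hy : y ∈ Mg 0)
  (hf : ∀ k, ∀ z ∈ Mg k, ∃! f : MvPolynomial (Fin n) ℤ_[p],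
      HK p k (RN p n f) ∧ z = RN p n f • y)
  (hx : ∀ l, xx O l • y = 0)

include Z X hsurj hsep hK co hy hf hx

/-- **(I.1)** every element of `π_k X`, `k ≥ c`, is the value of an element killed by all `x_l` -/
theorem exists_lift_x (hfin : Fing Y p c (WW p n)) (k : ℤ) (hk : c ≤ k) (x : Y.Pi k) :
    ∃ a : Y.A k, Y.ev k a = x ∧ ∀ l k' (h : k + dd p n l = k'), Y.act h a (S.x l) = 0 := by
  obtain ⟨r, e, g, -, hg⟩ := exists_win hfin
  choose a ha using fun j => hsurj (e j) (g j)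
  obtain rfl : (fun j => Y.ev (e j) (a j)) = g := funext ha
  obtain ⟨b, rfl⟩ := hsurj k x
  obtain ⟨_, ⟨f, rfl⟩, hf1, hf2⟩ := lift_all (genX Z X hsurj hsep hK a hg)
    (rho_RN co hy hf) (fun l => rho_eq_zero co hy hf (xx_homog l) (hx l)) (solveB co hy hf hx)
    (kx_of_ex Z X hsurj hsep hK) hk (f₀ := Z.c k b) ⟨b, rfl⟩
  refine ⟨f, Z.e_inj k (by rw [Z.ev, Z.ev, hf1]), fun l k' h => ?_⟩
  rw [act_x_eq_zero_iff Z]
  exact hf2 l

/-- **(I.2)** finitely many elements killed by all `x_l` generate `π_k X`, `k ≥ c` -/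
theorem exists_cover (hfin : Fing Y p c (WW p n)) : ∃ (r : ℕ) (e : Fin r → ℤ)
    (a : ∀ j, Y.A (e j)), (∀ j, c ≤ e j ∧ e j < c + WW p n) ∧
    (∀ j l k' (h : e j + dd p n l = k'), Y.act h (a j) (S.x l) = 0) ∧
    ∀ k, c ≤ k → ∀ x : Y.Pi k, ∃ v : Fin r → KK p, (∀ j, HK p (k - e j) (v j)) ∧
      Z.e k x = ∑ j, Z.c (e j) (a j) (X.eta (v j)) := by
  obtain ⟨r, e, g, he, hg⟩ := exists_win hfin
  choose a ha ha' using fun j => exists_lift_x Z X hsurj hsep hK co hy hf hx hfin (e j)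
    (he j).1 (g j)
  obtain rfl : (fun j => Y.ev (e j) (a j)) = g := funext ha
  exact ⟨r, e, a, he, ha', cover_gen Z X hsurj hsep hK a hg⟩

/-- **(I.3)** `x_J` is onto on the elements killed by `x_0, …, x_{J-1}` -/
theorem surj_x_sys (hfin : Fing Y p c (WW p n)) (J : ℕ) (k : ℤ) (hk : c ≤ k)
    (b : Y.A (k + dd p n J))
    (hb : ∀ l < J, ∀ k' (h : k + dd p n J + dd p n l = k'), Y.act h b (S.x l) = 0) :
    ∃ a : Y.A k, (∀ l < J, ∀ k' (h : k + dd p n l = k'), Y.act h a (S.x l) = 0) ∧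
      Y.act rfl a (S.x J) = b := by
  obtain ⟨r, e, g, -, hg⟩ := exists_win hfin
  choose a ha using fun j => hsurj (e j) (g j)
  obtain rfl : (fun j => Y.ev (e j) (a j)) = g := funext ha
  have h1 := rho_RN co hy hf
  have h2 : ∀ l, rho hf (xx O l) = 0 := fun l => rho_eq_zero co hy hf (xx_homog l) (hx l)
  have h3 := solveB co hy hf hx
  have hKX := kx_of_ex Z X hsurj hsep hK
  let G := genX Z X hsurj hsep hK a hg
  obtain ⟨_, ⟨⟨f, rfl⟩, hf1⟩, -, -, hf2⟩ := surj_x (Z := xsOfEv Z hsurj hsep) (X := X) G h1 h2 h3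
    (fun a ha => sV_le_WW ha) (WW_le hp.out.two_le n) hk rfl
    (genJ_of_ex fun t ht => ex_NJ G h1 h2 h3 hKX J t ht 0) (g := Z.c _ b)
    ⟨⟨b, rfl⟩, fun l hl => by
      rw [← act_x_eq_zero_iff Z l rfl]
      exact hb l hl _ rfl⟩
  refine ⟨f, fun l hl k' h => ?_, Z.inj _ ?_⟩
  · rw [act_x_eq_zero_iff Z]
    exact hf1 l hl
  · rw [← comp_mL_eta Z J rfl]
    exact hf2

end ev

end Vale.Agent.P221.H128
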