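import Vale.Agent.P221.H128.A6
import Vale.Agent.P221.V.H520.Lifts

/-!
# P221 (helper128): vanishing of the first Koszul cohomology of the `x_l`

`h1V_sys` : compatible families in degrees `≥ c` are coboundaries.
-/

open MvPolynomial

set_option linter.unusedSectionVars false

namespace Vale.Agent.P221.H128

open Vale.Agent.P221.T Vale.Agent.P221.T.H746 Vale.Agent.P221.H460 Vale.Agent.P221.H377

variable {p : ℕ} [hp : Fact p.Prime] {n : ℕ} {S : Src p n} {Y : Sys S}

/-- from surjectivity to the vanishing of cohomology -/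
theorem h1V_of_surj {c : ℤ} (hs : ∀ (J : ℕ) (k : ℤ), c ≤ k → ∀ b : Y.A (k + dd p n J),
    (∀ l < J, ∀ k' (h : k + dd p n J + dd p n l = k'), Y.act h b (S.x l) = 0) →
    ∃ a : Y.A k, (∀ l < J, ∀ k' (h : k + dd p n l = k'), Y.act h a (S.x l) = 0) ∧
      Y.act rfl a (S.x J) = b) (m : ℕ) : V.H1V Y {l | l < m} c := by
  induction m with
  | zero =>
    intro k _ ψ _
    exact ⟨0, fun l hl => absurd hl (Nat.not_lt_zero l)⟩
  | succ m ih =>
    intro k hk ψ hψ
    obtain ⟨φ, hφ⟩ := ih k hk ψ fun i hi l hl k' h h' =>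
      hψ i (Nat.lt_succ_of_lt hi) l (Nat.lt_succ_of_lt hl) k' h h'
    obtain ⟨a, ha, ha'⟩ := hs m k hk (ψ m - Y.act rfl φ (S.x m)) fun l hl k' h => by
      rw [map_sub, AddMonoidHom.sub_apply, sub_eq_zero,
        Y.comm m l rfl h rfl (show k + dd p n l + dd p n m = k' by rw [← h]; ring) φ, hφ l hl]
      exact hψ l (Nat.lt_succ_of_lt hl) m (Nat.lt_succ_self m) k' h
        (show k + dd p n l + dd p n m = k' by rw [← h]; ring)
    refine ⟨φ + a, fun l hl => ?_⟩
    rw [map_add, AddMonoidHom.add_apply]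
    rcases (Nat.lt_succ_iff.1 hl).lt_or_eq with h | rfl
    · rw [hφ l h, ha l h _ rfl, add_zero]
    · rw [ha', add_sub_cancel]

variable {ld : Lead p n} {O : OpAlg ld S} {M : Type} [AddCommGroup M] [Module (KK p) M]
  (Z : Ev O Y M) (X : OpX O) (hsurj : ∀ k, Function.Surjective (Y.ev k))
  (hsep : ∀ z : M, (∀ N : ℕ, ∃ z', z = (p : KK p) ^ N • z') → z = 0)
  {c : ℤ} (hK : ∀ t, c + WW p n ≤ t → ∀ s, H626.Ex (fun a => (H377.xx X Y a : AA Y →+ AA Y))
    (fun k => (ofA Y k).range) (sV p) (n + 1) s t)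
  {YB : Sys S} {MB : Type} [AddCommGroup MB] [Module (KK p) MB] {Mg : ℤ → AddSubgroup MB}
  (co : Coor O YB MB Mg) {y : MB} (hy : y ∈ Mg 0)
  (hf : ∀ k, ∀ z ∈ Mg k, ∃! f : MvPolynomial (Fin n) ℤ_[p],
      HK p k (RN p n f) ∧ z = RN p n f • y)
  (hx : ∀ l, xx O l • y = 0)

include Z X hsurj hsep hK co hy hf hx

/-- **(I.3)** compatible families in degrees `≥ c` are coboundaries -/
theorem h1V_sys (hfin : Fing Y p c (WW p n)) (m : ℕ) : V.H1V Y {l | l < m} c :=
  h1V_of_surj (surj_x_sys Z X hsurj hsep hK co hy hf hx hfin) m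

end Vale.Agent.P221.H128
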