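import Vale.Agent.P221.H128.A7
import Vale.Agent.P221.H543.Main

/-!
# P221 (helper128): every homotopy class extends over a form `B`

* `fing_of_finZp` : finitely generated `ℤ_p`-modules;
* `cvr_of_cx` : the covering property for the objects of the induction.
-/

open CategoryTheory MonoidalCategory MonObj Limits Pretriangulated

set_option linter.unusedSectionVars false

universe u

noncomputable section

namespace Vale.Agent.P221.H128

open Vale.Agent.P251 Vale.Agent.P251.S Vale.Agent.P251.T Vale.Agent.P251.M Vale.Agent.P251.F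
  Vale.Agent.P251.I EvenSpheres Vale.Agent.P257.H80 Vale.Agent.P257.H762 Vale.Agent.P221.H246
  Vale.Agent.P221.Loc Vale.Agent.P221.E Vale.Agent.P221.E.H817
open Vale.Agent.P221.H395 (PComplete)
open Vale.Agent.P221.T (fm fm_comp shift_fm fm_assoc gc comp_gc gc_map gc_comp gc_surj
  gc_zero_left BPS PiM zr KK GG HK dT SrcT Lead OpAlg SysMap Sys tri_exact
  tri_inj FormD decomp pComplete_coprod pi_shift_zero hat FinZp Env sV FS grR WW dd)
open Vale.Agent.P221.H460 (Ev OpX)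
open Vale.Agent.P221.T.H746 (RN)
open Vale.Agent.P221.H626
open Vale.Agent.P221.H543 (CX Cvr freeOne_B T_mult')
open Vale.Agent.P221.V (LiftsV)
open MvPolynomial (monomial coeff)

/-- finitely generated `ℤ_p`-modules are finitely generated modulo `p` -/
theorem fing_of_finZp {p : ℕ} [hp : Fact p.Prime] {G : Type} [AddCommGroup G] (h : FinZp p G) :
    ∃ (r : ℕ) (x : Fin r → G), ∀ y : G, ∃ (m : Fin r → ℤ) (y' : G),
      y = ∑ i, m i • x i + (p : ℤ) • y' := by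
  obtain ⟨M, hM⟩ := h
  obtain ⟨r, x, hx⟩ := Module.Finite.exists_fin (R := ℤ_[p]) (M := G)
  refine ⟨r, x, fun y => ?_⟩
  have h1 : y ∈ Submodule.span ℤ_[p] (Set.range x) := by
    rw [hx]
    exact Submodule.mem_top
  obtain ⟨c, rfl⟩ := (Submodule.mem_span_range_iff_exists_fun ℤ_[p]).1 h1
  have h2 : ∀ i, ∃ (m : ℕ) (d : ℤ_[p]), c i = m + p * d := by
    intro i
    obtain ⟨m, -, hm⟩ := PadicInt.exists_mem_range (c i)
    rw [PadicInt.maximalIdeal_eq_span_p, Ideal.mem_span_singleton] at hm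
    obtain ⟨d, hd⟩ := hm
    exact ⟨m, d, by rw [← hd]; ring⟩
  choose m d hd using h2
  refine ⟨fun i => m i, ∑ i, d i • x i, ?_⟩
  rw [Finset.smul_sum, ← Finset.sum_add_distrib]
  refine Finset.sum_congr rfl fun i _ => ?_
  rw [hd, add_smul, mul_smul, Nat.cast_smul_eq_nsmul, Nat.cast_smul_eq_nsmul, natCast_zsmul,
    natCast_zsmul]

theorem Wd_eq (p n : ℕ) [Fact p.Prime] : Wd (sV p) (n + 1) = WW p n := by
  unfold Wd WW
  exact Finset.sum_range _

variable {𝒯 : Type u} [Category.{0} 𝒯] [Preadditive 𝒯] [HasZeroObject 𝒯]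
    [HasShift 𝒯 ℤ] [∀ n : ℤ, (shiftFunctor 𝒯 n).Additive] [Pretriangulated 𝒯] [IsTriangulated 𝒯]
    [MonoidalCategory 𝒯] [SymmetricCategory 𝒯] [TensorTriangulated 𝒯] [MonoidalClosed 𝒯]
    [HasCoproducts.{0} 𝒯] [HasProducts.{0} 𝒯] [StableCat 𝒯]

variable {p : ℕ} [hp : Fact p.Prime] {n : ℕ} {R : 𝒯} [MonObj R] [IsCommMonObj R]
  {P W₀ : 𝒯} {β : BPS p R P W₀} {ld : Lead p n} {Sc : SrcT p n P} {O : OpAlg ld Sc.src}
  {OX : OpX O} {B : 𝒯}

/-- the elements `x_l` act as zero on `π_* B` -/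
theorem xx_eq (hT : ∀ (m : ℤ) (g : P⟦m⟧ ⟶ P), O.T m g = β.T g) (OX : OpX O) (φ : FormD β n B)
    (hS : ∀ l, β.c⟦dd p n l⟧' ≫ Sc.x l = hat β.MP (β.cls (dd p n l) (φ.x l))) (l : ℕ) :
    xx O l = φ.x l := by
  have h1 : Sc.x l = β.mult (dd p n l) (φ.x l) := by
    apply β.cext_unique β.cP
    rw [Vale.Agent.P221.T.H598.c_mult, hS]
  have h2 := O.T_x l 1
  have h3 := T_mult' (β := β) hT OX (φ.x_deg l) 1
  have h4 : (OX.eta (φ.x l) : GG p) = O.η l := by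
    rw [_root_.mul_one] at h2 h3
    rw [← h2, ← h3]
    exact congrArg (fun g => O.T (dd p n l) g 1) h1.symm
  rw [xx, ← h4, OX.eta_zero]

variable {D : MUData 𝒯} {F : SpaceFunctor 𝒯} {eF : F.S.obj CCF ≅ (stdEven 𝒯).L}
  {b₀ : D.R ⟶ R} [IsMonHom b₀]

/-- **every homotopy class in degrees `≥ c` extends over `B`** -/
theorem cvr_of_cx (hu : Sc.u = η[R] ≫ β.c) (hD : MUUniv eF D) (hb : IsBPMon p b₀)
    (hT : ∀ (m : ℤ) (g : P⟦m⟧ ⟶ P), O.T m g = β.T g) (φ : FormD β n B)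
    (hS : ∀ l, β.c⟦dd p n l⟧' ≫ Sc.x l = hat β.MP (β.cls (dd p n l) (φ.x l)))
    (hL : LiftsV Sc φ.Q) {c : ℤ} {X : 𝒯} (hX : CX Sc OX c X) : Cvr Sc φ.Q c X := by
  let mB := β.mdl φ.MB φ.hB
  obtain ⟨co, -⟩ := β.specA2 ld Sc O hu hT B φ.MB φ.hB
  have hF := freeOne_B φ
  have hfB : ∀ k, ∀ z ∈ PiM.gr B k, ∃! f : MvPolynomial (Fin n) ℤ_[p],
      HK p k (RN p n f) ∧ z = RN p n f • H903.q1 φ := by
    intro k z hz
    obtain ⟨f, hf, h⟩ := hF.ex k z hz
    refine ⟨f, ⟨hf, h⟩, fun g hg => hF.inj k g f hg.1 hf ?_⟩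
    rw [← hg.2, ← h]
  have hx : ∀ l, xx O l • H903.q1 φ = 0 := by
    intro l
    rw [xx_eq hT OX φ hS l]
    exact φ.x_zero l
  let mX := β.mdl (ModStr.free R X) (hX.ee.tensB hD hb).pc
  obtain ⟨Z, -⟩ := exists_Ev β β.specA2 O hu hT hD hb hX.ee
  have hsurj := ev_surj β hu hD hb hX.ee
  have hsep := sep_tensB β hD hb hX.ee hX.fin
  have hfin : Fing (Sc.sys X) p c (WW p n) := fun k _ _ => fing_of_finZp (hX.fin k)
  have hK : ∀ t, c + WW p n ≤ t → ∀ s, H626.Ex (fun a => (H377.xx OX (Sc.sys X) a :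
      H377.AA (Sc.sys X) →+ H377.AA (Sc.sys X))) (fun k => (H377.ofA (Sc.sys X) k).range) (sV p)
        (n + 1) s t := by
    intro t ht s
    rw [← Wd_eq] at ht
    exact hX.ka s t ht
  intro k hk x
  obtain ⟨a, ha, hax⟩ := exists_lift_x Z OX hsurj hsep hK co hF.mem hfB hx hfin k hk x
  obtain ⟨b, hb⟩ := hL X hX.ee.pc c (h1V_sys Z OX hsurj hsep hK co hF.mem hfB hx hfin) k a hk
    fun l => hax l _ rfl
  refine ⟨b, ?_⟩
  rw [hb]
  exact ha

end Vale.Agent.P221.H128
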