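import Vale.Agent.P221.H45.Defs

/-!
# P221 (helper128): `ihom R X` as a module over `R`; `StatementD`

`H = ihom R X` with the action `(r φ)(x) = φ (x r)`; `π_* (H ⊗ V)` for dualizable `V`.
-/

open CategoryTheory MonoidalCategory MonObj Limits Pretriangulated
open Vale.Agent.P251.T Vale.Agent.P251.M Vale.Agent.P251.S

set_option linter.unusedSectionVars false

universe v u

noncomputable section

namespace Vale.Agent.P221.H128

section mod

variable {𝒯 : Type u} [Category.{v} 𝒯] [MonoidalCategory 𝒯] [MonoidalClosed 𝒯]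

/-- the evaluation `R ⊗ ihom R X ⟶ X` -/
def evR (R X : 𝒯) : R ⊗ (ihom R).obj X ⟶ X := (ihom.ev R).app X

theorem uncurry_eqR {R X W : 𝒯} (g : W ⟶ (ihom R).obj X) :
    MonoidalClosed.uncurry g = R ◁ g ≫ evR R X := MonoidalClosed.uncurry_eq g

variable (R X : 𝒯) [MonObj R]

/-- the action of `R` on `ihom R X` -/
def actR : R ⊗ (ihom R).obj X ⟶ (ihom R).obj X :=
  MonoidalClosed.curry ((α_ R R ((ihom R).obj X)).inv ≫ μ[R] ▷ (ihom R).obj X ≫ evR R X)

theorem uncurry_actR : R ◁ actR R X ≫ evR R X =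
    (α_ R R ((ihom R).obj X)).inv ≫ μ[R] ▷ (ihom R).obj X ≫ evR R X := by
  rw [← uncurry_eqR]
  exact MonoidalClosed.uncurry_curry _

/-- `ihom R X` as a module over `R` -/
def modR : ModStr R ((ihom R).obj X) where
  act := actR R X
  one_act := by
    apply MonoidalClosed.uncurry_injective
    rw [uncurry_eqR, uncurry_eqR, MonoidalCategory.whiskerLeft_comp, Category.assoc,
      uncurry_actR, associator_inv_naturality_middle_assoc, ← comp_whiskerRight_assoc,
      MonObj.mul_one, triangle_assoc_comp_right_assoc]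
  mul_act := by
    apply MonoidalClosed.uncurry_injective
    rw [uncurry_eqR, uncurry_eqR]
    simp only [MonoidalCategory.whiskerLeft_comp, Category.assoc]
    rw [uncurry_actR, associator_inv_naturality_middle_assoc, ← comp_whiskerRight_assoc,
      associator_inv_naturality_right_assoc, whisker_exchange_assoc, uncurry_actR,
      associator_inv_naturality_left_assoc, ← comp_whiskerRight_assoc, MonObj.mul_assoc]
    simp only [comp_whiskerRight, Category.assoc]
    simp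

end mod

variable {𝒯 : Type u} [Category.{0} 𝒯] [Preadditive 𝒯] [HasZeroObject 𝒯]
    [HasShift 𝒯 ℤ] [∀ n : ℤ, (shiftFunctor 𝒯 n).Additive] [Pretriangulated 𝒯] [IsTriangulated 𝒯]
    [MonoidalCategory 𝒯] [SymmetricCategory 𝒯] [TensorTriangulated 𝒯] [MonoidalClosed 𝒯]
    [HasCoproducts.{0} 𝒯] [HasProducts.{0} 𝒯] [StableCat 𝒯]

open Vale.Agent.P221.H395 Vale.Agent.P221.H45

/-- `ihom R X` is `p`-complete -/
theorem pComplete_ihom {p : ℕ} (R : 𝒯) {X : 𝒯} (h : PComplete p X) :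
    PComplete p ((ihom R).obj X) := by
  intro W hW f
  apply MonoidalClosed.uncurry_injective
  have h1 : IsIso ((p : ℤ) • 𝟙 (R ⊗ W)) := isIso_p_map hW (tensorLeft R)
  rw [h _ h1 (MonoidalClosed.uncurry f), uncurry_eqR, MonoidalPreadditive.whiskerLeft_zero,
    zero_comp]

/-- the automorphism `(λ_ 𝟙⟦k⟧).inv ≫ tensorSph` of `𝟙⟦k⟧` is `1` up to an isomorphism -/
theorem exists_unit_shift (R : 𝒯) [MonObj R] (k : ℤ) : ∃ u : (𝟙_ 𝒯)⟦k⟧ ≅ (𝟙_ 𝒯)⟦k⟧,
    (λ_ ((𝟙_ 𝒯)⟦k⟧)).inv ≫ η[R] ▷ (𝟙_ 𝒯)⟦k⟧ ≫ (tensorSph k R).hom = u.hom ≫ (η[R])⟦k⟧' := by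
  refine ⟨(λ_ ((𝟙_ 𝒯)⟦k⟧)).symm ≪≫ tensorSph k (𝟙_ 𝒯), ?_⟩
  rw [tensorSph_naturality]
  simp

/-- maps from `R ⊗ W` vanish, then maps from `W` to `ihom R X ⊗ V` vanish -/
theorem hom_ten_eq_zero {R X V W : 𝒯} (hV : Vale.Agent.P093.N2.Dz V)
    (h : ∀ y : R ⊗ W ⟶ X ⊗ V, y = 0) (z : W ⟶ (ihom R).obj X ⊗ V) : z = 0 := by
  obtain ⟨L, ⟨_⟩⟩ := hV
  have h1 : ∀ y : (R ⊗ W) ⊗ L ⟶ X, y = 0 := by
    intro y
    apply (tensorRightHomEquiv (R ⊗ W) L V X).injective
    rw [h (tensorRightHomEquiv (R ⊗ W) L V X y), h (tensorRightHomEquiv (R ⊗ W) L V X 0)]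
  have h2 : ∀ y : W ⊗ L ⟶ (ihom R).obj X, y = 0 := by
    intro y
    apply MonoidalClosed.uncurry_injective
    rw [← cancel_epi (α_ R W L).hom, h1 ((α_ R W L).hom ≫ MonoidalClosed.uncurry y),
      h1 ((α_ R W L).hom ≫ MonoidalClosed.uncurry 0)]
  apply (tensorRightHomEquiv W L V ((ihom R).obj X)).symm.injective
  rw [h2 ((tensorRightHomEquiv W L V ((ihom R).obj X)).symm z),
    h2 ((tensorRightHomEquiv W L V ((ihom R).obj X)).symm 0)]

/-- `ihom R X` -/
def homData (R X : 𝒯) [MonObj R] (p : ℕ) (hX : PComplete p X) : HomData R X p where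
  Z := (ihom R).obj X
  M := modR R X
  ev := (λ_ _).inv ≫ η[R] ▷ _ ≫ evR R X
  pc := pComplete_ihom R hX
  lift := by
    intro k x'
    obtain ⟨u, hu⟩ := exists_unit_shift R k
    refine ⟨u.inv ≫ MonoidalClosed.curry ((tensorSph k R).hom ≫ x'), ?_⟩
    rw [Category.assoc, leftUnitor_inv_naturality_assoc, whisker_exchange_assoc, ← uncurry_eqR,
      MonoidalClosed.uncurry_curry, reassoc_of% hu, Iso.inv_hom_id_assoc]
  van := by
    intro k h z
    apply MonoidalClosed.uncurry_injective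
    rw [← cancel_epi (tensorSph k R).inv, h ((tensorSph k R).inv ≫ MonoidalClosed.uncurry z),
      h ((tensorSph k R).inv ≫ MonoidalClosed.uncurry 0)]
  ten := by
    intro V hV k h z
    refine hom_ten_eq_zero hV (fun y => ?_) z
    rw [← cancel_epi (tensorSph k R).inv, h ((tensorSph k R).inv ≫ y), comp_zero]

theorem statementD : StatementD 𝒯 := fun R X _ _ p hX => ⟨homData R X p hX⟩

end Vale.Agent.P221.H128
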