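import Vale.Agent.P221.H45.Defs
import Vale.Agent.P221.H626.High
import Vale.Agent.P221.H746.Z6
import Vale.Agent.P221.T.H817.Lin

/-!
# P221 (helper128): `RData` for the Brown-Peterson monoid

* `van_highB` : if `π_k Y = 0` for all `k ≥ c` outside `A`, then `[B⟦t⟧, Y] = 0` for all `t ≥ c`
  outside `A`;
* `ext_highB` : if `π_k Y = 0` for all `k ≥ c`, `k ≡ i₀ - 1`, then the classes in `π_t Y`, `t ≥ c`,
  `t ≡ i₀`, extend over `B⟦t⟧`.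
-/

open CategoryTheory MonoidalCategory MonObj Limits Pretriangulated

set_option linter.unusedSectionVars false

universe u

noncomputable section

namespace Vale.Agent.P221.H128

open Vale.Agent.P251 Vale.Agent.P251.S Vale.Agent.P251.T Vale.Agent.P251.M Vale.Agent.P251.F
  Vale.Agent.P251.I EvenSpheres Vale.Agent.P257.H80 Vale.Agent.P257.H762 Vale.Agent.P221.H246
  Vale.Agent.P221.Loc Vale.Agent.P221.E Vale.Agent.P221.E.H817 Vale.Agent.P221.H626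
open Vale.Agent.P221.H395 (PComplete)
open Vale.Agent.P221.T (hat unit_hat)
open Vale.Agent.P221.H45 (RData)

variable {𝒯 : Type u} [Category.{0} 𝒯] [Preadditive 𝒯] [HasZeroObject 𝒯]
    [HasShift 𝒯 ℤ] [∀ n : ℤ, (shiftFunctor 𝒯 n).Additive] [Pretriangulated 𝒯] [IsTriangulated 𝒯]
    [MonoidalCategory 𝒯] [SymmetricCategory 𝒯] [TensorTriangulated 𝒯] [MonoidalClosed 𝒯]
    [HasCoproducts.{0} 𝒯] [HasProducts.{0} 𝒯] [StableCat 𝒯]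
  {D : MUData 𝒯} {F : SpaceFunctor 𝒯} {e : F.S.obj CCF ≅ (stdEven 𝒯).L}
  {p : ℕ} [hp : Fact p.Prime] {B : 𝒯} [MonObj B] [IsCommMonObj B] {b : D.R ⟶ B} [IsMonHom b]

/-- **`[B⟦t⟧, Y]` in high degrees** -/
theorem van_highB (hD : MUUniv e D) (hb : IsBPMon p b) {A : ℤ → Prop} (hA : QSt p A) {Y : 𝒯}
    (hY : PComplete p Y) {c : ℤ} (hc : ∀ k, c ≤ k → ¬ A k → ∀ y : (𝟙_ 𝒯)⟦k⟧ ⟶ Y, y = 0)
    {t : ℤ} (ht : c ≤ t) (hAt : ¬ A t) (z : B⟦t⟧ ⟶ Y) : z = 0 := by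
  have h0 : Conn (0 : ℤ) (𝟙_ 𝒯) := D.conn_unit
  obtain ⟨C, i, δ, hC⟩ := H746.exists_moore (𝒯 := 𝒯) (p : ℤ)
  obtain ⟨Y', f, hf⟩ := exists_cov c Y
  have hP : BigCell 𝒯 c (B⟦t⟧) :=
    ((bigCell_of_conn h0 (conn_bp hD hb)).shift t t (by ring)).mono ht
  obtain ⟨g, rfl⟩ := hf.exists_lift h0 hP z
  rw [(sp_cov h0 hf hc).homB hD hb hA (hf.pComplete hC h0 hY) (BigCell.conn' h0 hf.cell) hAt g,
    zero_comp]

/-- the objects `W⟦k - 1⟧`, `W` the cofibre of the unit -/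
theorem exists_cof_unit (B : 𝒯) [MonObj B] (k : ℤ) : ∃ (W Z : 𝒯) (_ : B⟦k - 1⟧ ≅ Z)
    (a : W ⟶ (𝟙_ 𝒯)⟦k⟧) (δ : B⟦k⟧ ⟶ W⟦(1 : ℤ)⟧) (g : Z ⟶ W) (δ' : (𝟙_ 𝒯)⟦k⟧ ⟶ Z⟦(1 : ℤ)⟧),
    Triangle.mk a ((η[B])⟦k⟧') δ ∈ distTriang 𝒯 ∧ Triangle.mk g a δ' ∈ distTriang 𝒯 := by
  obtain ⟨Q, g, h, hT⟩ := distinguished_cocone_triangle ((η[B])⟦k⟧')
  obtain ⟨a, b, h1⟩ := Dist.invRot' hT
  obtain ⟨c, d, h2⟩ := Dist.invRot' h1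
  exact ⟨_, _, (shiftFunctorAdd' 𝒯 k (-1) (k - 1) (by ring)).app B, a, b, c, d, h1, h2⟩

/-- **extension over `B⟦t⟧` in high degrees** -/
theorem ext_highB (hD : MUUniv e D) (hb : IsBPMon p b) {A : ℤ → Prop} (hA : QSt p A) {Y : 𝒯}
    (hY : PComplete p Y) {c : ℤ} (hc : ∀ k, c ≤ k → ¬ A k → ∀ y : (𝟙_ 𝒯)⟦k⟧ ⟶ Y, y = 0)
    {t : ℤ} (ht : c ≤ t) (hAt : ¬ A (t - 1)) (x : (𝟙_ 𝒯)⟦t⟧ ⟶ Y) :
    ∃ x' : B⟦t⟧ ⟶ Y, (η[B])⟦t⟧' ≫ x' = x := by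
  have h0 : Conn (0 : ℤ) (𝟙_ 𝒯) := D.conn_unit
  obtain ⟨C, i, δ, hC⟩ := H746.exists_moore (𝒯 := 𝒯) (p : ℤ)
  obtain ⟨Y', f, hf⟩ := exists_cov c Y
  obtain ⟨y, rfl⟩ : ∃ y : (𝟙_ 𝒯)⟦t⟧ ⟶ Y', y ≫ f = x := (hf.bij t ht).2 x
  obtain ⟨W, Z, i, a, δ, g, δ', h1, h2⟩ := exists_cof_unit B t
  have ha : a ≫ (η[B])⟦t⟧' = 0 := comp_distTriang_mor_zero₁₂ _ h1
  have h3 : a ≫ y = 0 := by
    refine SpPi.hom_zero D (fun E hE hEc hE' u => ?_) (sp_cov h0 hf hc)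
      (hf.pComplete hC h0 hY) (BigCell.conn' h0 hf.cell) (a ≫ y)
    obtain ⟨j, hj1, hj2⟩ := hE'
    obtain ⟨L⟩ := exists_mod_single hD hb hEc hj1 hj2
    obtain ⟨s, hs⟩ : ∃ s : (𝟙_ 𝒯)⟦t⟧ ⟶ E, u = a ≫ s :=
      Triangle.yoneda_exact₂ _ h2 u (by
        change g ≫ u = 0
        rw [← cancel_epi i.hom, homB_mod' hD hb hA L hE hAt (i.hom ≫ _), comp_zero])
    rw [hs, ← unit_hat L s, reassoc_of% ha, zero_comp]
  obtain ⟨x', hx'⟩ : ∃ x' : B⟦t⟧ ⟶ Y', y = (η[B])⟦t⟧' ≫ x' := Triangle.yoneda_exact₂ _ h1 y h3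
  exact ⟨x' ≫ f, by rw [hx', Category.assoc]⟩

/-- the facts on the Brown-Peterson monoid -/
theorem rData (hD : MUUniv e D) (hb : IsBPMon p b) : RData B p (2 * (p : ℤ) - 2) where
  van Y hY E hE T h k hk hEk y := van_highB hD hb hE hY h hk hEk y
  ext Y hY T i₀ h k hk hk' x := by
    have hA : QSt p fun k => ¬ (2 * (p : ℤ) - 2) ∣ k - (i₀ - 1) := by
      intro k j
      have h1 : k + (2 * (p : ℤ) - 2) * j - (i₀ - 1) = k - (i₀ - 1) + (2 * (p : ℤ) - 2) * j := by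
        ring
      beta_reduce
      rw [h1, dvd_add_left (dvd_mul_right _ _)]
    refine ext_highB hD hb hA hY (fun k hk hk1 => h k hk (not_not.1 hk1)) hk ?_ x
    rw [not_not]
    have h2 : k - 1 - (i₀ - 1) = k - i₀ := by ring
    rw [h2]
    exact hk'

end Vale.Agent.P221.H128
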