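import Vale.Agent.P221.H128.A5

/-!
# P221 (helper128): the iteration, for a complete filtration

The statements of `A4`, `A5` for a filtration `G : Fil Z c` instead of finitely many generators.

* `Fil Z c` : a complete and separated filtration of the groups `A k`;
* `Fil.ofCpl` : the `p`-adic filtration of the coordinates, if the groups `A k` are complete.
-/

open MvPolynomial

set_option linter.unusedSectionVars false

namespace Vale.Agent.P221.H128.CL

open Vale.Agent.P221.T Vale.Agent.P221.T.H746 Vale.Agent.P221.H460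

variable {p : ℕ} [hp : Fact p.Prime] {n : ℕ} {ld : Lead p n} {S : Src p n} {O : OpAlg ld S}
  {M : Type} [AddCommGroup M] [Module (KK p) M]

/-- a complete and separated filtration -/
structure Fil (Z : XS O M) (c : ℤ) where
  /-- the subgroups -/
  U : ℤ → ℤ → AddSubgroup (GG p →ₗ[KK p] M)
  mono : ∀ {s t k : ℤ}, s ≤ t → U t k ≤ U s k
  le : ∀ t k : ℤ, U t k ≤ Z.A k
  act : ∀ {s t k m k' : ℤ}, k + m = k' → ∀ {f : GG p →ₗ[KK p] M}, f ∈ U s k → ∀ {δ : S.E m},
    δ ∈ S.F t m → f ∘ₗ O.T m δ ∈ U (s + t) k'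
  zero : ∀ {k : ℤ}, c ≤ k → ∀ {f : GG p →ₗ[KK p] M}, f ∈ Z.A k → f ∈ U 0 k
  sep' : ∀ {k : ℤ} {f : GG p →ₗ[KK p] M} (E : ℕ →₀ ℕ),
    (∀ t, ∃ f' ∈ U t k, f (monomial E 1) = f' (monomial E 1)) → f (monomial E 1) = 0
  cpl : ∀ {k : ℤ} (s : ℤ) (a : ℕ → (GG p →ₗ[KK p] M)), (∀ i : ℕ, a i ∈ U (s + i) k) →
    ∃ b ∈ U s k, ∀ m : ℕ, b - ∑ i ∈ Finset.range m, a i ∈ U (s + m) k

theorem Fil.sep {Z : XS O M} {c : ℤ} (G : Fil Z c) {k : ℤ} {f : GG p →ₗ[KK p] M}
    (hf : ∀ t, f ∈ G.U t k) : f = 0 := by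
  refine monoExt fun E => ?_
  rw [LinearMap.zero_apply]
  exact G.sep' E fun t => ⟨f, hf t, rfl⟩

theorem Fil.sep_nat {Z : XS O M} {c : ℤ} (G : Fil Z c) {k : ℤ} {f : GG p →ₗ[KK p] M} (s : ℤ)
    (hf : ∀ m : ℕ, f ∈ G.U (s + m) k) : f = 0 := by
  refine G.sep fun t => G.mono ?_ (hf (t - s).toNat)
  omega

/-! ### the `p`-adic filtration -/

/-- the coordinates of `f` are divisible by powers of `p` -/
def Dv (c t k : ℤ) (f : GG p →ₗ[KK p] M) : Prop :=
  ∀ (E : ℕ →₀ ℕ) (N : ℕ), N + (k + dT p E - c) ≤ t → ∃ z, f (monomial E 1) = (p : KK p) ^ N • z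

theorem Dv.add {c t k : ℤ} {f g : GG p →ₗ[KK p] M} (hf : Dv c t k f) (hg : Dv c t k g) :
    Dv c t k (f + g) := fun E N hN => by
  obtain ⟨z, hz⟩ := hf E N hN
  obtain ⟨w, hw⟩ := hg E N hN
  exact ⟨z + w, by rw [LinearMap.add_apply, hz, hw, smul_add]⟩

theorem Dv.neg {c t k : ℤ} {f : GG p →ₗ[KK p] M} (hf : Dv c t k f) : Dv c t k (-f) :=
  fun E N hN => by
  obtain ⟨z, hz⟩ := hf E N hN
  exact ⟨-z, by rw [LinearMap.neg_apply, hz, smul_neg]⟩

theorem Dv.zero (c t k : ℤ) : Dv c t k (0 : GG p →ₗ[KK p] M) := fun E N _ =>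
  ⟨0, by rw [LinearMap.zero_apply, smul_zero]⟩

/-- completeness of the groups `A k` -/
def Cpl (Z : XS O M) (c : ℤ) : Prop :=
  ∀ (k s : ℤ) (a : ℕ → (GG p →ₗ[KK p] M)), (∀ i, a i ∈ Z.A k) → (∀ i : ℕ, Dv c (s + i) k (a i)) →
    ∃ b ∈ Z.A k, ∀ m : ℕ, Dv c (s + m) k (b - ∑ i ∈ Finset.range m, a i)

/-- divisibility and composition -/
theorem Dv.comp {c s t k m k' : ℤ} (h : k + m = k') {f : GG p →ₗ[KK p] M} (hf : Dv c s k f)
    {δ : S.E m} (hδ : δ ∈ S.F t m) : Dv c (s + t) k' (f ∘ₗ O.T m δ) := by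
  intro E N hN
  have h2 := (O.F_iff t _ δ).1 hδ E
  have h3 := O.homog _ δ E
  have h4 : ∀ E' ∈ (O.T m δ (monomial E 1)).support, ∃ z,
      coeff E' (O.T m δ (monomial E 1)) • f (monomial E' 1) = (p : KK p) ^ N • z := by
    intro E' hE'
    have hd : 0 ≤ m + dT p E - dT p E' := by
      by_contra hcon
      exact mem_support_iff.1 hE' (HK_neg_eq_zero (by omega) (h3 E'))
    obtain ⟨N₁, N₂, hN₁, hN₂, rfl⟩ : ∃ N₁ N₂ : ℕ, (N₁ = 0 ∨ N₁ + (m + dT p E - dT p E') ≤ t) ∧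
        (N₂ = 0 ∨ N₂ + (k + dT p E' - c) ≤ s) ∧ N = N₁ + N₂ := by
      by_cases h5 : (N : ℤ) ≤ s - (k + dT p E' - c)
      · exact ⟨0, N, Or.inl rfl, Or.inr (by omega), by omega⟩
      · by_cases h6 : 0 ≤ s - (k + dT p E' - c)
        · refine ⟨N - (s - (k + dT p E' - c)).toNat, (s - (k + dT p E' - c)).toNat,
            Or.inr ?_, Or.inr ?_, ?_⟩
          · omega
          · omega
          · omega
        · exact ⟨N, 0, Or.inr (by omega), Or.inl rfl, by omega⟩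
    obtain ⟨g, hg⟩ : ∃ g, coeff E' (O.T m δ (monomial E 1)) = (p : KK p) ^ N₁ * g := by
      rcases hN₁ with rfl | hN₁
      · exact ⟨_, by rw [pow_zero, _root_.one_mul]⟩
      · exact exists_pow_smul (h3 E') (h2 E') N₁ hN₁
    obtain ⟨z, hz⟩ : ∃ z, f (monomial E' 1) = (p : KK p) ^ N₂ • z := by
      rcases hN₂ with rfl | hN₂
      · exact ⟨_, by rw [pow_zero, one_smul]⟩
      · exact hf E' N₂ hN₂
    refine ⟨g • z, ?_⟩
    rw [hg, hz, smul_smul, smul_smul, pow_add]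
    congr 1
    ring
  choose! z hz using h4
  refine ⟨∑ E' ∈ (O.T m δ (monomial E 1)).support, z E', ?_⟩
  rw [LinearMap.comp_apply]
  conv_lhs => rw [(O.T m δ (monomial E 1)).as_sum, map_sum]
  rw [Finset.smul_sum]
  refine Finset.sum_congr rfl fun E' hE' => ?_
  have h5 : (monomial E' (coeff E' (O.T m δ (monomial E 1))) : GG p) =
      coeff E' (O.T m δ (monomial E 1)) • monomial E' 1 := by
    rw [smul_monomial, smul_eq_mul, _root_.mul_one]
  rw [h5, map_smul, hz E' hE']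

/-- the filtration by divisibility -/
def Fil.ofCpl {Z : XS O M} {c : ℤ} (h : Cpl Z c) : Fil Z c where
  U t k := {
    carrier := {f | f ∈ Z.A k ∧ Dv c t k f}
    add_mem' := fun hf hg => ⟨(Z.A k).add_mem hf.1 hg.1, hf.2.add hg.2⟩
    zero_mem' := ⟨(Z.A k).zero_mem, Dv.zero c t k⟩
    neg_mem' := fun hf => ⟨(Z.A k).neg_mem hf.1, hf.2.neg⟩ }
  mono h1 f hf := ⟨hf.1, fun E N hN => hf.2 E N (hN.trans h1)⟩
  le t k f hf := hf.1
  act h1 _ hf _ hδ := ⟨Z.act h1 hf.1 _, hf.2.comp h1 hδ⟩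
  zero {k} hk f hf := ⟨hf, fun E N hN => by
    have h1 := dT_nonneg (p := p) E
    have h2 : N = 0 := by omega
    exact ⟨_, by rw [h2, pow_zero, one_smul]⟩⟩
  sep' {k f} E hf := by
    refine Z.sep _ fun N => ?_
    obtain ⟨f', hf', h1⟩ := hf (N + (k + dT p E - c))
    rw [h1]
    exact hf'.2 E N le_rfl
  cpl {k} s a ha := by
    obtain ⟨b, hb, hb'⟩ := h k s a (fun i => (ha i).1) fun i => (ha i).2
    have h1 : ∀ m : ℕ, b - ∑ i ∈ Finset.range m, a i ∈ Z.A k := fun m =>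
      (Z.A k).sub_mem hb (AddSubgroup.sum_mem _ fun i _ => (ha i).1)
    refine ⟨b, ⟨hb, ?_⟩, fun m => ⟨h1 m, hb' m⟩⟩
    have h2 := hb' 0
    rwa [Finset.sum_range_zero, sub_zero, Nat.cast_zero, add_zero] at h2

section

variable {Z : XS O M} {X : OpX O} {ρ : KK p →ₐ[ℤ_[p]] MvPolynomial (Fin n) ℤ_[p]} {c : ℤ}
  (G : Fil Z c) (hρ : ∀ a, ρ (RN p n a) = a) (hρx : ∀ l, ρ (xx O l) = 0) (hS : SolveB O ρ)

include G X in
/-- the elements of a state group have high filtration -/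
theorem GS_le {J : ℕ} {T κ smax φ t : ℤ} (hκ : 0 < κ) (ht : κ * t + smax ≤ φ) :
    GS Z ρ J c T κ smax φ ≤ G.U t T := by
  rw [GS, AddSubgroup.closure_le]
  rintro g ⟨s, L, f, γ, u, h1, h2, h3, h4, h5, h6, h7, rfl⟩
  have h8 : t ≤ L := by
    by_contra hcon
    push Not at hcon
    have : κ * L < κ * t := by nlinarith
    omega
  have h9 := G.act (show s + (T - s) = T by omega) (G.zero h1 h3.1)
    (mem_F_of_coord X (t := L) fun E => by rw [h4 E]; exact h5 E)
  rw [zero_add] at h9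
  exact G.mono h8 h9

variable (hρ : ∀ a, ρ (RN p n a) = a) (hρx : ∀ l, ρ (xx O l) = 0) (hS : SolveB O ρ)

include G hρ hρx hS in
/-- **one step** -/
theorem imp_state {J : ℕ} {T κ W smax t φ t' : ℤ} (hκ : 1 ≤ κ) (hκv : ∀ a ≤ n, sV p a ≤ κ)
    (hκJ : κ + 1 ≤ dd p n J) (hW : ∀ a ≤ n, sV p a ≤ W) (hW' : W ≤ 2 * (p : ℤ) ^ (n + 1) - 4)
    (hsm : c + W + dd p n J ≤ smax) (ht : c ≤ t) (hT : t + dd p n J = T)
    (hgen : GenJ Z X J (c + W)) (ht' : κ * (t' + 1) + (c + W) ≤ φ) (N : ℕ) :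
    ∀ (s L : ℤ) (f : GG p →ₗ[KK p] M) (γ : S.E (T - s))
      (u : (ℕ →₀ ℕ) → MvPolynomial (Fin n) ℤ_[p]), s - c < N →
    c ≤ s → s ≤ smax → f ∈ NJ Z J s → (HasC O γ fun E => RN p n (u E)) →
    (∀ E, RN p n (u E) ∈ Ip p L) → (∀ l < J, ∀ E, DB O ρ l u E = 0) → φ ≤ κ * L + s →
    Imp (GS Z ρ J c T κ smax (φ + 1)) (G.U t' t) Z J t (f ∘ₗ O.T _ γ) := by
  classical
  induction N with
  | zero =>
    intro s L f γ u hN h1
    exact absurd hN (by push_cast; omega)
  | succ N ih =>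
    intro s L f γ u hN h1 h2 h3 h4 h5 h6 h7
    push_cast at hN
    rcases lt_or_ge s (c + W) with hs | hs
    · -- solve
      obtain ⟨y, hyH, hyF, hy0, hyJ, hyz⟩ := hS J (T - (s + dd p n J)) (L - 1) (by omega) u
        (fun E => by
          have h8 := HK_coord (O := O) γ E
          rw [h4 E] at h8
          exact HK_cast (by omega) h8)
        (by rw [sub_add_cancel]; exact h5) h6
      obtain ⟨γy, -, hγy⟩ := X.ex (T - (s + dd p n J)) 0 (fun E => RN p n (y E)) hyH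
        (fun E => Ip_of_nonpos p le_rfl _)
      have hγyF : γy ∈ S.F (L - 1) _ := mem_F_of_coord X fun E => by rw [hγy]; exact hyF E
      have hhA : f ∘ₗ O.T _ γy ∈ Z.A t := Z.act (by omega) h3.1 γy
      have hker : ∀ i < J, ∀ z, f (O.η i * z) = 0 := fun i hi z =>
        LinearMap.congr_fun (h3.2 i hi) z
      refine ⟨f ∘ₗ O.T _ γy, ⟨hhA, fun l hl => ?_⟩, ?_, ?_, ?_⟩
      · refine LinearMap.ext fun z => ?_
        have h8 := key X ρ hρ hρx f l (fun i hi => hker i (by omega)) rfl hyH (γ := γy) hγy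
          (δ := (0 : S.E (T - (s + dd p n J) + dd p n l))) (fun E => by
            rw [map_zero, LinearMap.zero_apply, coeff_zero]
            change 0 = RN p n (DB O ρ l y E)
            rw [hy0 l hl, map_zero]) z
        rw [map_zero, LinearMap.zero_apply, map_zero, zero_add, hker l hl] at h8
        exact h8
      · have h8 := (X.low _ 1 γy (fun E hE => by
          have h9 : E = 0 := by
            by_contra hne
            have := dT_pos (p := p) hne
            omega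
          rw [hγy, h9, hyz, map_zero])).1 0 (by rw [H746.dT_zero]; norm_num)
        have h9 : (1 : GG p) = monomial 0 1 := rfl
        rw [LinearMap.comp_apply, h9, h8, map_zero]
      · have h8 := G.act (show s + (T - (s + dd p n J)) = t by omega) (G.zero h1 h3.1) hγyF
        rw [zero_add] at h8
        refine G.mono ?_ h8
        by_contra hcon
        push Not at hcon
        have h9 : κ * L ≤ κ * (t' + 1) := by nlinarith
        omega
      · have h8 : f ∘ₗ O.T _ γ - (f ∘ₗ O.T _ γy) ∘ₗ mL (O.η J) =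
            -((f ∘ₗ mL (O.η J)) ∘ₗ O.T _ γy) := by
          refine LinearMap.ext fun z => ?_
          have h9 := key X ρ hρ hρx f J hker (show T - (s + dd p n J) + dd p n J = T - s by omega)
            hyH (γ := γy) hγy (δ := γ) (fun E => (h4 E).trans (congrArg (RN p n) (hyJ E).symm)) z
          change f (O.T _ γ z) - f (O.T _ γy (O.η J * z)) = -f (O.η J * O.T _ γy z)
          rw [h9]
          abel
        rw [h8]
        refine AddSubgroup.neg_mem _ (AddSubgroup.subset_closure ?_)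
        refine ⟨s + dd p n J, L - 1, f ∘ₗ mL (O.η J), γy, y, by omega, by omega,
          ⟨?_, fun l hl => ?_⟩, hγy, hyF, hy0, ?_, rfl⟩
        · have h9 := Z.act (show s + dd p n J = s + dd p n J from rfl) h3.1 (S.x J)
          rwa [T_x'] at h9
        · rw [LinearMap.comp_assoc, mL_comm, ← LinearMap.comp_assoc, h3.2 l hl,
            LinearMap.zero_comp]
        · have : κ * (L - 1) = κ * L - κ := by ring
          omega
    · -- expand
      obtain ⟨f', hf', hff⟩ := hgen s hs f h3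
      choose μ hμ using fun a : Fin (n + 1) => X.mult (sV p a) (vK p a) (vK_homog (a : ℕ))
      choose γ' hγ' using fun a : Fin (n + 1) =>
        X.comp (show sV p a + (T - s) = T - (s - sV p a) by omega) (μ a) γ
      have h8 : f ∘ₗ O.T _ γ = ∑ a : Fin (n + 1), f' a ∘ₗ O.T _ (γ' a) := by
        conv_lhs => rw [hff]
        rw [sum_comp']
        refine Finset.sum_congr rfl fun a _ => ?_
        rw [hγ', ← LinearMap.comp_assoc]
        congr 2
        exact LinearMap.ext fun z => (hμ a z).symm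
      rw [h8]
      refine Imp.sum _ fun a _ => ?_
      have ha : (a : ℕ) ≤ n := Nat.lt_succ_iff.1 a.2
      have h9 : HasC O (γ' a) fun E => RN p n (vF a * u E) := by
        intro E
        rw [hγ', LinearMap.comp_apply, hμ, coeff_zero_mul, X.eta_zero, h4 E]
        change vK p (a : ℕ) * RN p n (u E) = RN p n (vF a * u E)
        rw [map_mul, RN_vF]
      have h10 : ∀ E, RN p n (vF a * u E) ∈ Ip p (L + 1) := by
        intro E
        rw [map_mul, RN_vF, add_comm L 1]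
        exact Ip_mul p (vK_mem (a : ℕ)) (h5 E)
      have h11 : ∀ l < J, ∀ E, DB O ρ l (fun E => vF a * u E) E = 0 := by
        intro l hl E
        rw [DB_mul, h6 l hl, mul_zero]
      have h12 := hW a ha
      have h13 := sV_nonneg p (a : ℕ)
      have h14 : κ * (L + 1) = κ * L + κ := by ring
      have h15 := hκv a ha
      by_cases ha0 : (a : ℕ) = 0
      · have h16 : sV p (a : ℕ) = 0 := by rw [ha0]; simp [sV]
        refine Imp.of_mem (AddSubgroup.subset_closure ?_)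
        exact ⟨s - sV p a, L + 1, f' a, γ' a, _, by omega, by omega, hf' a, h9, h10, h11,
          by omega, rfl⟩
      · obtain ⟨b, hb⟩ : ∃ b, (a : ℕ) = b + 1 := ⟨a - 1, by omega⟩
        have h16 : 0 < sV p (a : ℕ) := by rw [hb]; exact sV_pos p b
        exact ih (s - sV p a) (L + 1) (f' a) (γ' a) _ (by omega) (by omega) (by omega) (hf' a) h9
          h10 h11 (by omega)

include G hρ hρx hS in
/-- one step, for all elements of the state group -/
theorem imp_GS {J : ℕ} {T κ W smax t φ t' : ℤ} (hκ : 1 ≤ κ) (hκv : ∀ a ≤ n, sV p a ≤ κ)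
    (hκJ : κ + 1 ≤ dd p n J) (hW : ∀ a ≤ n, sV p a ≤ W) (hW' : W ≤ 2 * (p : ℤ) ^ (n + 1) - 4)
    (hsm : c + W + dd p n J ≤ smax) (ht : c ≤ t) (hT : t + dd p n J = T)
    (hgen : GenJ Z X J (c + W)) (ht' : κ * (t' + 1) + (c + W) ≤ φ) {g : GG p →ₗ[KK p] M}
    (hg : g ∈ GS Z ρ J c T κ smax φ) :
    Imp (GS Z ρ J c T κ smax (φ + 1)) (G.U t' t) Z J t g := by
  refine AddSubgroup.closure_induction (p := fun g _ =>
    Imp (GS Z ρ J c T κ smax (φ + 1)) (G.U t' t) Z J t g) ?_ ?_ ?_ ?_ hg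
  · rintro g ⟨s, L, f, γ, u, h1, h2, h3, h4, h5, h6, h7, rfl⟩
    exact imp_state G hρ hρx hS hκ hκv hκJ hW hW' hsm ht hT hgen ht' ((s - c).toNat + 1) s L f γ u
      (by push_cast; omega) h1 h2 h3 h4 h5 h6 h7
  · exact Imp.of_mem (AddSubgroup.zero_mem _)
  · exact fun _ _ _ _ h h' => h.add h'
  · exact fun _ _ h => h.neg

include G hρ hρx hS in
/-- `m` steps -/
theorem imp_multi {J : ℕ} {T κ W smax t φ t' : ℤ} (hκ : 1 ≤ κ) (hκv : ∀ a ≤ n, sV p a ≤ κ)
    (hκJ : κ + 1 ≤ dd p n J) (hW : ∀ a ≤ n, sV p a ≤ W) (hW' : W ≤ 2 * (p : ℤ) ^ (n + 1) - 4)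
    (hsm : c + W + dd p n J ≤ smax) (ht : c ≤ t) (hT : t + dd p n J = T)
    (hgen : GenJ Z X J (c + W)) (ht' : κ * (t' + 1) + (c + W) ≤ φ) {g : GG p →ₗ[KK p] M}
    (hg : g ∈ GS Z ρ J c T κ smax φ) (m : ℕ) :
    Imp (GS Z ρ J c T κ smax (φ + m)) (G.U t' t) Z J t g := by
  induction m with
  | zero =>
    refine Imp.of_mem ?_
    rwa [Nat.cast_zero, add_zero]
  | succ m ih =>
    obtain ⟨h, h1, h2, h3, h4⟩ := ih
    obtain ⟨h', h1', h2', h3', h4'⟩ := imp_GS G hρ hρx hS hκ hκv hκJ hW hW' hsm ht hT hgen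
      (show κ * (t' + 1) + (c + W) ≤ φ + m by omega) h4
    refine ⟨h + h', AddSubgroup.add_mem _ h1 h1', ?_, AddSubgroup.add_mem _ h3 h3', ?_⟩
    · rw [LinearMap.add_apply, h2, h2', add_zero]
    · have h5 : g - (h + h') ∘ₗ mL (O.η J) = g - h ∘ₗ mL (O.η J) - h' ∘ₗ mL (O.η J) := by
        rw [LinearMap.add_comp]
        abel
      have h6 : φ + ((m + 1 : ℕ) : ℤ) = φ + m + 1 := by push_cast; ring
      rw [h5, h6]
      exact h4'

include G hρ hρx hS in
/-- **the operator `x_J` is surjective on `N_J`** -/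
theorem surj_x {J : ℕ} {W : ℤ} (hW : ∀ a ≤ n, sV p a ≤ W)
    (hW' : W ≤ 2 * (p : ℤ) ^ (n + 1) - 4) {t T : ℤ} (ht : c ≤ t) (hT : t + dd p n J = T)
    (hgen : GenJ Z X J (c + W)) {g : GG p →ₗ[KK p] M} (hg : g ∈ NJ Z J T) :
    ∃ b ∈ NJ Z J t, b 1 = 0 ∧ b ∈ G.U (Lh p n c W T) t ∧ b ∘ₗ mL (O.η J) = g := by
  classical
  set κ := kap p n with hκ
  have hκ1 : 1 ≤ κ := kap_pos
  set smax := max T (c + W + dd p n J) with hsmax
  -- the start
  have hstart : g ∈ GS Z ρ J c T κ smax T := by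
    refine AddSubgroup.subset_closure ?_
    obtain ⟨γ, hγ⟩ := X.mult (T - T) 1 (by rw [sub_self]; exact isWeightedHomogeneous_one _ _)
    have hγ1 : O.T _ γ = LinearMap.id := LinearMap.ext fun z => by
      rw [hγ, map_one, _root_.one_mul]
      rfl
    have hdJ : 0 ≤ dd p n J := sV_nonneg p _
    refine ⟨T, 0, g, γ, fun E => if E = 0 then 1 else 0, by omega, le_max_left _ _, hg,
      fun E => ?_, fun E => Ip_of_nonpos p le_rfl _, fun l _ E => DB_unit ρ hρx l 1 E, by omega, ?_⟩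
    · rw [hγ1, LinearMap.id_apply, coeff_monomial]
      change _ = RN p n (if E = 0 then 1 else 0)
      split_ifs with h
      · rw [map_one]
      · rw [map_zero]
    · rw [hγ1, LinearMap.comp_id]
  -- the sequence
  have hstep : ∀ (i : ℕ) (g' : {g' // g' ∈ GS Z ρ J c T κ smax (T + κ * i)}),
      ∃ (h : GG p →ₗ[KK p] M) (g'' : {g'' // g'' ∈ GS Z ρ J c T κ smax (T + κ * (i + 1 : ℕ))}),
        h ∈ NJ Z J t ∧ h 1 = 0 ∧ h ∈ G.U (Lh p n c W T + i) t ∧
          g''.1 = g'.1 - h ∘ₗ mL (O.η J) := by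
    rintro i ⟨g', hg'⟩
    have h1 := Lh_spec (p := p) (n := n) c W (T + kap p n * i)
    rw [Lh_add] at h1
    obtain ⟨h, h2, h3, h4, h5⟩ := imp_multi G hρ hρx hS hκ1 (fun a ha => sV_le_kap ha) (kap_lt J)
      hW hW' (le_max_right _ _) ht hT hgen h1 hg' κ.toNat
    refine ⟨h, ⟨_, ?_⟩, h2, h3, h4, rfl⟩
    have h6 : T + κ * ((i + 1 : ℕ) : ℤ) = T + κ * i + (κ.toNat : ℤ) := by
      rw [Int.toNat_of_nonneg (by omega)]
      push_cast
      ring
    rw [h6]
    exact h5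
  choose h nx h1 h2 h3 h4 using hstep
  let sq : ∀ i : ℕ, {g' // g' ∈ GS Z ρ J c T κ smax (T + κ * i)} := fun i =>
    Nat.rec (motive := fun i : ℕ => {g' // g' ∈ GS Z ρ J c T κ smax (T + κ * i)})
      ⟨g, by rw [Nat.cast_zero, mul_zero, add_zero]; exact hstart⟩ (fun i g' => nx i g') i
  have hsq0 : (sq 0).1 = g := rfl
  have hsq : ∀ i, (sq (i + 1)).1 = (sq i).1 - h i (sq i) ∘ₗ mL (O.η J) := fun i => h4 i (sq i)
  let a : ℕ → (GG p →ₗ[KK p] M) := fun i => h i (sq i)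
  have hsum : ∀ m, (sq m).1 = g - (∑ i ∈ Finset.range m, a i) ∘ₗ mL (O.η J) := by
    intro m
    induction m with
    | zero => rw [Finset.sum_range_zero, LinearMap.zero_comp, sub_zero, hsq0]
    | succ m ih => rw [hsq, ih, Finset.sum_range_succ, LinearMap.add_comp, sub_sub]
  obtain ⟨b, hb, hb'⟩ := G.cpl (Lh p n c W T) a fun i => h3 i (sq i)
  have hbNJ : b ∈ NJ Z J t := by
    refine ⟨G.le _ _ hb, fun l hl => G.sep_nat (k := t + dd p n l) (Lh p n c W T) fun m => ?_⟩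
    have h5 : b ∘ₗ mL (O.η l) = (b - ∑ i ∈ Finset.range m, a i) ∘ₗ mL (O.η l) := by
      rw [LinearMap.sub_comp, sum_comp', Finset.sum_eq_zero fun i _ => (h1 i (sq i)).2 l hl,
        sub_zero]
    have h6 := G.act (rfl : t + dd p n l = t + dd p n l) (hb' m) (mem_F_nonpos O le_rfl (S.x l))
    rw [T_x', add_zero, ← h5] at h6
    exact h6
  refine ⟨b, hbNJ, ?_, hb, ?_⟩
  · have h9 : (1 : GG p) = monomial 0 1 := rfl
    rw [h9]
    refine G.sep' (k := t) 0 fun t' => ?_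
    refine ⟨b - ∑ i ∈ Finset.range (t' - Lh p n c W T).toNat, a i, G.mono ?_ (hb' _), ?_⟩
    · omega
    · rw [LinearMap.sub_apply, LinearMap.sum_apply, ← h9,
        Finset.sum_eq_zero fun i _ => h2 i (sq i), sub_zero]
  · rw [← sub_eq_zero, ← neg_eq_zero, neg_sub]
    refine G.sep_nat (k := T) (min ((T - smax) / κ) (Lh p n c W T)) fun m => ?_
    have h5 : g - b ∘ₗ mL (O.η J) =
        (sq m).1 - (b - ∑ i ∈ Finset.range m, a i) ∘ₗ mL (O.η J) := by
      rw [hsum, LinearMap.sub_comp]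
      abel
    rw [h5]
    refine AddSubgroup.sub_mem _ ?_ ?_
    · refine G.mono (t := (T - smax) / κ + m) (by omega) (GS_le (X := X) G (by omega) ?_ (sq m).2)
      have h6 := Int.mul_ediv_self_le (x := T - smax) (k := κ) (by omega)
      have h7 : κ * ((T - smax) / κ + m) = κ * ((T - smax) / κ) + κ * m := by ring
      omega
    · have h6 := G.act hT (hb' m) (mem_F_nonpos O le_rfl (S.x J))
      rw [T_x', add_zero] at h6
      exact G.mono (by omega) h6

attribute [local instance] modX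

include G hρ hρx hS in
/-- the Koszul complexes of all `N_J` -/
theorem ex_NJ (hK : KX Z X (c + WW p n)) (J : ℕ) :
    ∀ t, c + WW p n ≤ t → ∀ i, Ex (R := GG p) (H := GG p →ₗ[KK p] M) (NJ Z J) (LL X (n + 1)) t i := by
  induction J with
  | zero =>
    intro t ht i
    have h1 : NJ Z 0 = Z.A := funext NJ_zero
    rw [h1]
    exact hK t ht i
  | succ J ih =>
    intro t ht i
    rw [← NJ_succ]
    have hgen : GenJ Z X J (c + WW p n) := genJ_of_ex fun t ht => ih t ht 0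
    have hd : 0 ≤ dd p n J := sV_nonneg p _
    refine Ex.ker (c := c) (stab_NJx J J) (fun k hk g hg => ?_) (fun a ha => ?_) (fun a ha => ?_) ?_
      (ih t ht i) (ih _ (by omega) _)
    · obtain ⟨b, hb, -, -, h⟩ := surj_x G hρ hρx hS (fun a ha => sV_le_WW ha)
        (WW_le hp.out.two_le n) hk rfl hgen hg
      exact ⟨b, hb, h⟩
    · obtain ⟨b, -, rfl⟩ := mem_LL ha
      exact stab_NJ J b
    · obtain ⟨b, -, rfl⟩ := mem_LL ha
      exact sV_nonneg p b
    · rw [Wl_LL]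
      exact ht

include G hρ hρx hS in
/-- **the lifting theorem** -/
theorem lift_all (hK : KX Z X (c + WW p n)) {t : ℤ} (ht : c ≤ t) {f₀ : GG p →ₗ[KK p] M}
    (hf₀ : f₀ ∈ Z.A t) : ∃ f ∈ Z.A t, f 1 = f₀ 1 ∧ ∀ l, f ∘ₗ mL (O.η l) = 0 := by
  classical
  set s := Lh p n c (WW p n) (t + dd p n 0) with hs
  have hLh : ∀ J : ℕ, s + J ≤ Lh p n c (WW p n) (t + dd p n J) := by
    intro J
    have h1 : t + dd p n 0 + kap p n * J ≤ t + dd p n J := by
      induction J with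
      | zero => simp
      | succ J ih =>
        have h2 := dd_step (p := p) (n := n) J
        push_cast
        have h3 : kap p n * ((J : ℤ) + 1) = kap p n * J + kap p n := by ring
        omega
    have h2 := Lh_mono (p := p) (n := n) (c := c) (W := WW p n) h1
    rw [Lh_add] at h2
    exact h2
  have hstep : ∀ (J : ℕ) (g : {g // g ∈ NJ Z J t}), ∃ (h : GG p →ₗ[KK p] M)
      (g' : {g // g ∈ NJ Z (J + 1) t}), h 1 = 0 ∧ h ∈ G.U (s + J) t ∧ g'.1 = g.1 - h := by
    rintro J ⟨g, hg⟩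
    obtain ⟨b, hb, hb1, hbU, hbx⟩ := surj_x G hρ hρx hS (fun a ha => sV_le_WW ha)
      (WW_le hp.out.two_le n) ht rfl (genJ_of_ex fun t ht => ex_NJ G hρ hρx hS hK J t ht 0)
      (stab_NJx J J t g hg)
    refine ⟨b, ⟨g - b, ⟨(Z.A t).sub_mem hg.1 hb.1, fun l hl => ?_⟩⟩, hb1, G.mono (hLh J) hbU, rfl⟩
    rcases (Nat.lt_succ_iff.1 hl).lt_or_eq with h | rfl
    · rw [LinearMap.sub_comp, hg.2 l h, hb.2 l h, sub_zero]
    · rw [LinearMap.sub_comp, hbx]
      exact sub_self _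
  choose h nx h1 h2 h3 using hstep
  let sq : ∀ J : ℕ, {g // g ∈ NJ Z J t} := fun J =>
    Nat.rec (motive := fun J : ℕ => {g // g ∈ NJ Z J t})
      ⟨f₀, by rw [NJ_zero]; exact hf₀⟩ (fun J g => nx J g) J
  have hsq0 : (sq 0).1 = f₀ := rfl
  have hsq : ∀ J, (sq (J + 1)).1 = (sq J).1 - h J (sq J) := fun J => h3 J (sq J)
  let a : ℕ → (GG p →ₗ[KK p] M) := fun J => h J (sq J)
  have hsum : ∀ m, (sq m).1 = f₀ - ∑ i ∈ Finset.range m, a i := by
    intro m
    induction m with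
    | zero => rw [Finset.sum_range_zero, sub_zero, hsq0]
    | succ m ih => rw [hsq, ih, Finset.sum_range_succ, sub_sub]
  obtain ⟨b, hb, hb'⟩ := G.cpl s a fun i => h2 i (sq i)
  refine ⟨f₀ - b, (Z.A t).sub_mem hf₀ (G.le _ _ hb), ?_, fun l => ?_⟩
  · have h9 : (1 : GG p) = monomial 0 1 := rfl
    have h10 : b 1 = 0 := by
      rw [h9]
      refine G.sep' (k := t) 0 fun t' => ?_
      refine ⟨b - ∑ i ∈ Finset.range (t' - s).toNat, a i, G.mono ?_ (hb' _), ?_⟩
      · omega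
      · rw [LinearMap.sub_apply, LinearMap.sum_apply, ← h9,
          Finset.sum_eq_zero fun i _ => h1 i (sq i), sub_zero]
    rw [LinearMap.sub_apply, h10, sub_zero]
  · refine G.sep (k := t + dd p n l) fun t' => ?_
    set m := max (l + 1) (t' - s).toNat with hm
    have h4 : (f₀ - b) ∘ₗ mL (O.η l) = -((b - ∑ i ∈ Finset.range m, a i) ∘ₗ mL (O.η l)) := by
      have h5 : f₀ - b = (sq m).1 - (b - ∑ i ∈ Finset.range m, a i) := by
        rw [hsum]
        abel
      rw [h5, LinearMap.sub_comp, (sq m).2.2 l (by omega), zero_sub]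
    rw [h4]
    refine AddSubgroup.neg_mem _ ?_
    have h6 := G.act (rfl : t + dd p n l = t + dd p n l) (hb' m) (mem_F_nonpos O le_rfl (S.x l))
    rw [T_x', add_zero] at h6
    exact G.mono (by omega) h6

end

end Vale.Agent.P221.H128.CL
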