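import Vale.Agent.P221.H128.E1
import Vale.Agent.P221.H128.A7

/-!
# P221 (helper128): the covering theorem for complete systems

`exists_lift_x`, `surj_x_sys`, `h1V_sys` : the statements of `A6`, `A7` for systems which are complete
for the `p`-adic topology of the coordinates, instead of finite generation.
-/

open MvPolynomial

set_option linter.unusedSectionVars false

namespace Vale.Agent.P221.H128.CL

open Vale.Agent.P221.T Vale.Agent.P221.T.H746 Vale.Agent.P221.H460 Vale.Agent.P221.H377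

variable {p : ℕ} [hp : Fact p.Prime] {n : ℕ} {ld : Lead p n} {S : Src p n} {O : OpAlg ld S}
  {Y : Sys S} {M : Type} [AddCommGroup M] [Module (KK p) M]

attribute [local instance] modX

variable (Z : Ev O Y M) (X : OpX O) (hsurj : ∀ k, Function.Surjective (Y.ev k))
  (hsep : ∀ z : M, (∀ N : ℕ, ∃ z', z = (p : KK p) ^ N • z') → z = 0)
  {c : ℤ} (hC : Cpl (xsOfEv Z hsurj hsep) c)
  (hK : ∀ t, c + WW p n ≤ t → ∀ s, H626.Ex (fun a => (H377.xx X Y a : AA Y →+ AA Y))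
    (fun k => (ofA Y k).range) (sV p) (n + 1) s t)
  {YB : Sys S} {MB : Type} [AddCommGroup MB] [Module (KK p) MB] {Mg : ℤ → AddSubgroup MB}
  (co : Coor O YB MB Mg) {y : MB} (hy : y ∈ Mg 0)
  (hf : ∀ k, ∀ z ∈ Mg k, ∃! f : MvPolynomial (Fin n) ℤ_[p],
      HK p k (RN p n f) ∧ z = RN p n f • y)
  (hx : ∀ l, xx O l • y = 0)

include Z X hC hK co hy hf hx

/-- **(I.1)** every element of `π_k X`, `k ≥ c`, is the value of an element killed by all `x_l` -/
theorem exists_lift_x (k : ℤ) (hk : c ≤ k) (x : Y.Pi k) :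
    ∃ a : Y.A k, Y.ev k a = x ∧ ∀ l k' (h : k + dd p n l = k'), Y.act h a (S.x l) = 0 := by
  obtain ⟨b, rfl⟩ := hsurj k x
  obtain ⟨_, ⟨f, rfl⟩, hf1, hf2⟩ := lift_all (Fil.ofCpl hC)
    (rho_RN co hy hf) (fun l => rho_eq_zero co hy hf (xx_homog l) (hx l)) (solveB co hy hf hx)
    (kx_of_ex Z X hsurj hsep hK) hk (f₀ := Z.c k b) ⟨b, rfl⟩
  refine ⟨f, Z.e_inj k (by rw [Z.ev, Z.ev, hf1]), fun l k' h => ?_⟩
  rw [act_x_eq_zero_iff Z]
  exact hf2 l

/-- **(I.3)** `x_J` is onto on the elements killed by `x_0, …, x_{J-1}` -/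
theorem surj_x_sys (J : ℕ) (k : ℤ) (hk : c ≤ k)
    (b : Y.A (k + dd p n J))
    (hb : ∀ l < J, ∀ k' (h : k + dd p n J + dd p n l = k'), Y.act h b (S.x l) = 0) :
    ∃ a : Y.A k, (∀ l < J, ∀ k' (h : k + dd p n l = k'), Y.act h a (S.x l) = 0) ∧
      Y.act rfl a (S.x J) = b := by
  have h1 := rho_RN co hy hf
  have h2 : ∀ l, rho hf (xx O l) = 0 := fun l => rho_eq_zero co hy hf (xx_homog l) (hx l)
  have h3 := solveB co hy hf hx
  have hKX := kx_of_ex Z X hsurj hsep hK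
  let G := Fil.ofCpl hC
  obtain ⟨_, ⟨⟨f, rfl⟩, hf1⟩, -, -, hf2⟩ := surj_x (Z := xsOfEv Z hsurj hsep) (X := X) G h1 h2 h3
    (fun a ha => sV_le_WW ha) (WW_le hp.out.two_le n) hk rfl
    (genJ_of_ex fun t ht => ex_NJ G h1 h2 h3 hKX J t ht 0) (g := Z.c _ b)
    ⟨⟨b, rfl⟩, fun l hl => by
      rw [← act_x_eq_zero_iff Z l rfl]
      exact hb l hl _ rfl⟩
  refine ⟨f, fun l hl k' h => ?_, Z.inj _ ?_⟩
  · rw [act_x_eq_zero_iff Z]
    exact hf1 l hl
  · rw [← comp_mL_eta Z J rfl]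
    exact hf2

/-- **(I.3)** compatible families in degrees `≥ c` are coboundaries -/
theorem h1V_sys (m : ℕ) : V.H1V Y {l | l < m} c :=
  h1V_of_surj (surj_x_sys Z X hsurj hsep hC hK co hy hf hx) m

end Vale.Agent.P221.H128.CL
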