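import Vale.Agent.P221.H626.Ev3
import Vale.Agent.P221.T.H817.Lin
import Vale.Agent.P221.T.H817.A2

/-!
# P221 (helper128): the image of `[P⟦k⟧, X]` in `[P⟦k⟧, B ⊗ X]` is closed

* `cd M a E` : the coordinates of `a : P⟦k⟧ ⟶ Y`;
* `cd_comp_zero` : if the coordinates of `h` in degrees `< c` vanish, so do those of `h ≫ ψ`;
* `closed` : a map which is arbitrarily close to the image of `[P⟦k⟧, X]` lies in it.
-/

open CategoryTheory MonoidalCategory MonObj Limits Pretriangulated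

set_option linter.unusedSectionVars false

universe u

noncomputable section

namespace Vale.Agent.P221.H128

open Vale.Agent.P251 Vale.Agent.P251.S Vale.Agent.P251.T Vale.Agent.P251.M Vale.Agent.P251.F
  Vale.Agent.P251.I EvenSpheres Vale.Agent.P257.H80 Vale.Agent.P257.H762 Vale.Agent.P221.H246
  Vale.Agent.P221.Loc Vale.Agent.P221.E Vale.Agent.P221.E.H817 Vale.Agent.P221.H626
open Vale.Agent.P221.H395 (PComplete)
open Vale.Agent.P221.T (fm fm_comp shift_fm gc comp_gc gc_map gc_comp ext_isLin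
  IsLin BPS PiM zr KK GG HK dT)

variable {𝒯 : Type u} [Category.{0} 𝒯] [Preadditive 𝒯] [HasZeroObject 𝒯]
    [HasShift 𝒯 ℤ] [∀ n : ℤ, (shiftFunctor 𝒯 n).Additive] [Pretriangulated 𝒯] [IsTriangulated 𝒯]
    [MonoidalCategory 𝒯] [SymmetricCategory 𝒯] [TensorTriangulated 𝒯] [MonoidalClosed 𝒯]
    [HasCoproducts.{0} 𝒯] [HasProducts.{0} 𝒯] [StableCat 𝒯]

variable {D : MUData 𝒯} {F : SpaceFunctor 𝒯} {e : F.S.obj CCF ≅ (stdEven 𝒯).L}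
  {p : ℕ} [hp : Fact p.Prime] {B : 𝒯} [MonObj B] [IsCommMonObj B] {b : D.R ⟶ B} [IsMonHom b]
  {P W : 𝒯} (β : BPS p B P W)

/-- the coordinates of `a : P⟦k⟧ ⟶ Y` -/
def cd {Y : 𝒯} (M : ModStr B Y) {k : ℤ} (a : P⟦k⟧ ⟶ Y) (E : ℕ →₀ ℕ) :
    (𝟙_ 𝒯)⟦k + dT p E⟧ ⟶ Y :=
  gc rfl (β.τ E) (Vale.Agent.P221.T.ext M (β.c⟦k⟧' ≫ a))

variable {Y : 𝒯} (M : ModStr B Y) {k : ℤ}

theorem cd_add (a a' : P⟦k⟧ ⟶ Y) (E : ℕ →₀ ℕ) : cd β M (a + a') E = cd β M a E + cd β M a' E := by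
  unfold cd
  rw [Preadditive.comp_add, Vale.Agent.P221.T.ext_add, Vale.Agent.P221.T.gc_add_right]

/-- the coordinates, as homomorphisms -/
def cdH (k : ℤ) (E : ℕ →₀ ℕ) : (P⟦k⟧ ⟶ Y) →+ ((𝟙_ 𝒯)⟦k + dT p E⟧ ⟶ Y) :=
  AddMonoidHom.mk' (fun a => cd β M a E) fun a a' => cd_add β M a a' E

theorem cd_sub (a a' : P⟦k⟧ ⟶ Y) (E : ℕ →₀ ℕ) : cd β M (a - a') E = cd β M a E - cd β M a' E :=
  map_sub (cdH β M k E) a a'

theorem cd_zero (E : ℕ →₀ ℕ) : cd β M (0 : P⟦k⟧ ⟶ Y) E = 0 := map_zero (cdH β M k E)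

theorem cd_zsmul (m : ℤ) (a : P⟦k⟧ ⟶ Y) (E : ℕ →₀ ℕ) : cd β M (m • a) E = m • cd β M a E :=
  map_zsmul (cdH β M k E) m a

theorem cd_sum {J : Type*} (A : Finset J) (a : J → (P⟦k⟧ ⟶ Y)) (E : ℕ →₀ ℕ) :
    cd β M (∑ i ∈ A, a i) E = ∑ i ∈ A, cd β M (a i) E := map_sum (cdH β M k E) a A

/-- maps are determined by their coordinates -/
theorem cd_inj (hY : PComplete p Y) {a a' : P⟦k⟧ ⟶ Y} (h : ∀ E, cd β M a E = cd β M a' E) :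
    a = a' := by
  obtain ⟨a₀, -, h2⟩ := β.basis M hY k (fun E => cd β M a' E)
  exact β.ext_c hY ((h2 _ h).trans (h2 _ fun _ => rfl).symm)

/-- there are maps with given coordinates -/
theorem exists_cd (hY : PComplete p Y) (y : ∀ E : ℕ →₀ ℕ, (𝟙_ 𝒯)⟦k + dT p E⟧ ⟶ Y) :
    ∃ a : P⟦k⟧ ⟶ Y, ∀ E, cd β M a E = y E := by
  obtain ⟨a₀, h1, -⟩ := β.basis M hY k y
  obtain ⟨a, ha⟩ := β.exists_ext_c hY a₀
  exact ⟨a, fun E => by rw [cd, ha]; exact h1 E⟩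

include β in
/-- in low degrees `B ⊗ φ` is zero -/
theorem low_zero (hD : MUUniv e D) (hb : IsBPMon p b) (hY : PComplete p Y)
    {φ : (B ⊗ B)⟦k⟧ ⟶ Y} (hφ : IsLin (ModStr.free B B) M φ) {c : ℤ}
    (h : ∀ E, dT p E < c → gc rfl (β.τ E) φ = 0) {j : ℤ} (hj : j < c)
    (x : (𝟙_ 𝒯)⟦j⟧ ⟶ B ⊗ (B ⊗ B)) : x⟦k⟧' ≫ fm (tensorLeft B) φ = 0 := by
  have h1 := fun (j' : ℤ) (hj' : j' < c) (z : (𝟙_ 𝒯)⟦j'⟧ ⟶ B ⊗ B) => low1 β hY M hφ h hj' z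
  obtain ⟨y, hy⟩ := low2 hD hb M hφ (fun j' hj' z => h1 j' (hj'.trans hj) z) x
  have h2 : unitMap B Y ≫ M.act = 𝟙 Y := by
    have h3 := M.one_act
    unfold unitMap
    rw [Category.assoc, h3, Iso.inv_hom_id]
  have h4 : y = 0 := by
    have h5 : x⟦k⟧' ≫ fm (tensorLeft B) φ ≫ M.act = y := by
      rw [← Category.assoc, hy, Category.assoc, h2, Category.comp_id]
    have h6 : fm (tensorLeft B) φ ≫ M.act = ((ModStr.free B B).act)⟦k⟧' ≫ φ := hφ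
    rw [← h5, h6, ← Functor.map_comp_assoc]
    exact h1 j hj _
  rw [hy, h4, zero_comp]

include hp in
/-- **coordinates in low degrees and composition** -/
theorem cd_comp_zero (hD : MUUniv e D) (hb : IsBPMon p b) (hY : PComplete p Y) {Y' : 𝒯}
    (M' : ModStr B Y') {a : P⟦k⟧ ⟶ Y} (ψ : Y ⟶ Y') {c : ℤ}
    (h : ∀ E, dT p E < c → cd β M a E = 0) (E : ℕ →₀ ℕ) (hE : dT p E < c) :
    cd β M' (a ≫ ψ) E = 0 := by
  set φ := Vale.Agent.P221.T.ext M (β.c⟦k⟧' ≫ a) with hφ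
  have h1 : β.c⟦k⟧' ≫ a = (unitMap B B)⟦k⟧' ≫ φ :=
    (Vale.Agent.P221.T.unit_ext M (β.c⟦k⟧' ≫ a)).symm
  have h2 : (β.τ E)⟦k⟧' ≫ fm (tensorLeft B) (β.c⟦k⟧' ≫ a) = 0 := by
    rw [h1]
    have h3 : fm (tensorLeft B) ((unitMap B B)⟦k⟧' ≫ φ) =
        (B ◁ unitMap B B)⟦k⟧' ≫ fm (tensorLeft B) φ := shift_fm _ _ _
    rw [h3, ← Functor.map_comp_assoc]
    exact low_zero β M hD hb hY (ext_isLin _ _) h hE _
  unfold cd
  rw [gc_eq_zero_iff, ← Category.assoc, Vale.Agent.P221.T.ext, fm_comp, Category.assoc,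
    ← Category.assoc, h2, zero_comp]

/-- **the image of `[P⟦k⟧, X]` is closed** -/
theorem closed (hD : MUUniv e D) (hb : IsBPMon p b) {X : 𝒯} (hX : EE p X) (U : UnitCof B)
    (hs : ∀ (j : ℤ) (y : (𝟙_ 𝒯)⟦j⟧ ⟶ B ⊗ (U.J ⊗ X)), (∀ N : ℕ, ∃ z, y = ((p : ℤ) ^ N) • z) → y = 0)
    (g : P⟦k⟧ ⟶ B ⊗ X) (h : ∀ (N : ℕ) (c : ℤ), ∃ (α : P⟦k⟧ ⟶ X) (g' h' : P⟦k⟧ ⟶ B ⊗ X),
      g = α ≫ unitMap B X + ((p : ℤ) ^ N) • g' + h' ∧
        ∀ E, dT p E < c → cd β (ModStr.free B X) h' E = 0) :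
    ∃ α : P⟦k⟧ ⟶ X, α ≫ unitMap B X = g := by
  have hJ := hX.tensJ hD hb U
  set ψ := (U.ρ ▷ X) ≫ unitMap B (U.J ⊗ X) with hψ
  have h0 : unitMap B X ≫ ψ = 0 := by
    rw [hψ, ← Category.assoc]
    have h1 : unitMap B X ≫ U.ρ ▷ X = 0 := U.unitMap_ρ X
    rw [h1, zero_comp]
  have h1 : g ≫ ψ = 0 := by
    refine cd_inj β (ModStr.free B (U.J ⊗ X)) (hJ.tensB hD hb).pc fun E => ?_
    rw [cd_zero]
    refine hs _ _ fun N => ?_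
    obtain ⟨α, g', h', hg, hh⟩ := h N (dT p E + 1)
    refine ⟨cd β (ModStr.free B (U.J ⊗ X)) (g' ≫ ψ) E, ?_⟩
    rw [hg, Preadditive.add_comp, Preadditive.add_comp, Category.assoc, h0, comp_zero, zero_add,
      Preadditive.zsmul_comp, cd_add, cd_zsmul,
      cd_comp_zero β (ModStr.free B X) hD hb (hX.tensB hD hb).pc _ ψ hh E (by omega), add_zero]
  have h2 : g ≫ (U.ρ ▷ X) = 0 := EE.unit_inj_P β hD hb hJ _ (by rw [Category.assoc]; exact h1)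
  obtain ⟨α, hα⟩ : ∃ α : P⟦k⟧ ⟶ X, g = α ≫ unitMap B X :=
    Triangle.coyoneda_exact₂ _ (U.triangle_distinguished X) g h2
  exact ⟨α, hα.symm⟩

end Vale.Agent.P221.H128
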