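import Vale.Agent.P221.H128.E2
import Vale.Agent.P221.H128.E3
import Vale.Agent.P221.H626.PcV

/-!
# P221 (helper128): the system of an even object without torsion is complete

`cpl_of_sep` : `Cpl`, if the homotopy of `B ⊗ (J ⊗ X)` is separated.
-/

open CategoryTheory MonoidalCategory MonObj Limits Pretriangulated

set_option linter.unusedSectionVars false

universe u

noncomputable section

namespace Vale.Agent.P221.H128

open Vale.Agent.P251 Vale.Agent.P251.S Vale.Agent.P251.T Vale.Agent.P251.M Vale.Agent.P251.F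
  Vale.Agent.P251.I EvenSpheres Vale.Agent.P257.H80 Vale.Agent.P257.H762 Vale.Agent.P221.H246
  Vale.Agent.P221.Loc Vale.Agent.P221.E Vale.Agent.P221.E.H817 Vale.Agent.P221.H626
open Vale.Agent.P221.H395 (PComplete)
open Vale.Agent.P221.T.H769 (Uniq uniq_of_dc)
open Vale.Agent.P221.H509 (DC dc_hom)
open Vale.Agent.P221.T (fm fm_comp shift_fm gc comp_gc gc_map gc_comp ext_isLin
  IsLin BPS PiM zr KK GG HK dT SrcT Lead OpAlg)
open Vale.Agent.P221.H460 (Ev)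
open MvPolynomial (monomial)

/-- tails of series which converge `p`-adically -/
theorem exists_tail {p : ℕ} {G : Type*} [AddCommGroup G] (hG : Uniq p G) (κ : ℤ) (m : ℕ → G)
    (h : ∀ i N : ℕ, N + κ ≤ i → ∃ z, m i = p ^ N • z) :
    ∃ T : ℕ → G, (∀ i, T i = m i + T (i + 1)) ∧ ∀ i N : ℕ, N + κ ≤ i → ∃ z, T i = p ^ N • z := by
  obtain ⟨K, d, hK, hK'⟩ : ∃ K d : ℕ, (K : ℤ) - κ = d ∧ (0 < K → (K : ℤ) = κ) := by
    refine ⟨κ.toNat, (κ.toNat - κ).toNat, by omega, by omega⟩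
  choose z hz using fun j : ℕ => h (K + j) (j + d) (by push_cast; omega)
  obtain ⟨t, ht⟩ := hG.exists z
  have h1 : ∀ j, p ^ (j + d) • t j = m (K + j) + p ^ (j + 1 + d) • t (j + 1) := by
    intro j
    rw [hz, ← ht, smul_sub, smul_smul, ← pow_succ]
    have h2 : j + d + 1 = j + 1 + d := by omega
    rw [h2, sub_add_cancel]
  refine ⟨fun i => ∑ l ∈ Finset.Ico i K, m l + p ^ (i - K + d) • t (i - K), fun i => ?_,
    fun i N hN => ?_⟩
  · dsimp only
    rcases lt_or_ge i K with hi | hi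
    · have h3 : i - K = 0 := by omega
      have h4 : i + 1 - K = 0 := by omega
      rw [h3, h4, Finset.sum_eq_sum_Ico_succ_bot hi, add_assoc]
    · obtain ⟨j, rfl⟩ : ∃ j, i = K + j := ⟨i - K, by omega⟩
      have h3 : K + j - K = j := by omega
      have h4 : K + j + 1 - K = j + 1 := by omega
      rw [h3, h4, Finset.Ico_eq_empty (by omega), Finset.Ico_eq_empty (by omega),
        Finset.sum_empty, zero_add, zero_add]
      exact h1 j
  · have hi : K ≤ i := by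
      by_contra hcon
      have := hK' (by omega)
      omega
    dsimp only
    rw [Finset.Ico_eq_empty (by omega), Finset.sum_empty, zero_add]
    refine ⟨p ^ (i - K + d - N) • t (i - K), ?_⟩
    rw [smul_smul, ← pow_add]
    congr 2
    omega

variable {𝒯 : Type u} [Category.{0} 𝒯] [Preadditive 𝒯] [HasZeroObject 𝒯]
    [HasShift 𝒯 ℤ] [∀ n : ℤ, (shiftFunctor 𝒯 n).Additive] [Pretriangulated 𝒯] [IsTriangulated 𝒯]
    [MonoidalCategory 𝒯] [SymmetricCategory 𝒯] [TensorTriangulated 𝒯] [MonoidalClosed 𝒯]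
    [HasCoproducts.{0} 𝒯] [HasProducts.{0} 𝒯] [StableCat 𝒯]

/-- `p`-complete objects -/
theorem uniq_pc {p : ℕ} {Y : 𝒯} (hY : PComplete p Y) (A : 𝒯) : Uniq p (A ⟶ Y) := by
  obtain ⟨C, i, δ, hC⟩ := H746.exists_moore (𝒯 := 𝒯) (p : ℤ)
  exact uniq_of_dc (dc_hom hC hY A)

variable {D : MUData 𝒯} {F : SpaceFunctor 𝒯} {e : F.S.obj CCF ≅ (stdEven 𝒯).L}
  {p : ℕ} [hp : Fact p.Prime] {B : 𝒯} [MonObj B] [IsCommMonObj B] {b : D.R ⟶ B} [IsMonHom b]
  {P W : 𝒯} (β : BPS p B P W)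

/-- the component of a multiple -/
theorem of_eq_pow_smul {Y : 𝒯} (M : ModStr B Y) (hY : PComplete p Y) {k : ℤ}
    (y : (𝟙_ 𝒯)⟦k⟧ ⟶ Y) (N : ℕ) :
    letI := β.mdl M hY
    (∃ z, PiM.of Y k y = (p : KK p) ^ N • z) ↔ ∃ z, y = p ^ N • z := by
  let := β.mdl M hY
  have h0 : ∀ z : PiM Y, (p : KK p) ^ N • z = (p ^ N) • z := by
    intro z
    rw [← Nat.cast_pow, Nat.cast_smul_eq_nsmul]
  constructor
  · rintro ⟨z, hz⟩
    refine ⟨z k, ?_⟩
    rw [h0] at hz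
    have h1 := congrArg (fun w : PiM Y => w k) hz
    dsimp only at h1
    have h2 : (PiM.of Y k y) k = y :=
      DirectSum.of_eq_same (β := fun k => ((𝟙_ 𝒯)⟦k⟧ ⟶ Y)) k y
    rw [h2] at h1
    rw [h1]
    rfl
  · rintro ⟨z, rfl⟩
    exact ⟨PiM.of Y k z, by rw [h0, map_nsmul]⟩

/-- **completeness** -/
theorem cpl_of_sep (hD : MUUniv e D) (hb : IsBPMon p b) {n : ℕ} {ld : Lead p n} {S : SrcT p n P}
    (O : OpAlg ld S.src) {X : 𝒯} (hX : EE p X) (U : UnitCof B)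
    (hs : ∀ (j : ℤ) (y : (𝟙_ 𝒯)⟦j⟧ ⟶ B ⊗ (U.J ⊗ X)),
      (∀ N : ℕ, ∃ z, y = ((p : ℤ) ^ N) • z) → y = 0) :
    letI := β.mdl (ModStr.free B X) (hX.tensB hD hb).pc
    ∀ (Z : Ev O (S.sys X) (PiM (B ⊗ X))),
      (∀ (k : ℤ) (a : P⟦k⟧ ⟶ X) (E : ℕ →₀ ℕ), Z.c k a (monomial E 1) =
        PiM.of (B ⊗ X) (k + dT p E) (gc rfl (β.τ E)
          (Vale.Agent.P221.T.ext (ModStr.free B X) (β.c⟦k⟧' ≫ a ≫ unitMap B X)))) →
      ∀ (hsurj : ∀ k, Function.Surjective ((S.sys X).ev k))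
        (hsep : ∀ z : PiM (B ⊗ X), (∀ N : ℕ, ∃ z', z = (p : KK p) ^ N • z') → z = 0) (c : ℤ),
        CL.Cpl (xsOfEv Z hsurj hsep) c := by
  let := β.mdl (ModStr.free B X) (hX.tensB hD hb).pc
  intro Z hZ hsurj hsep c k s a ha hd
  have hBX := hX.tensB hD hb
  choose α hα using ha
  change ∀ i, P⟦k⟧ ⟶ X at α
  have hm : ∀ i E, a i (monomial E 1) = PiM.of (B ⊗ X) (k + dT p E)
      (cd β (ModStr.free B X) (α i ≫ unitMap B X) E) := by
    intro i E
    rw [← hα]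
    exact hZ k (α i) E
  have h1 : ∀ (E : ℕ →₀ ℕ) (i N : ℕ), N + (k + dT p E - c - s) ≤ i →
      ∃ z, cd β (ModStr.free B X) (α i ≫ unitMap B X) E = p ^ N • z := by
    intro E i N hN
    obtain ⟨z, hz⟩ := hd i E N (by omega)
    rw [hm] at hz
    exact (of_eq_pow_smul β (ModStr.free B X) hBX.pc _ N).1 ⟨z, hz⟩
  choose T hT1 hT2 using fun E : ℕ →₀ ℕ => exists_tail (uniq_pc hBX.pc ((𝟙_ 𝒯)⟦k + dT p E⟧))
    (k + dT p E - c - s) (fun i => cd β (ModStr.free B X) (α i ≫ unitMap B X) E) (h1 E)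
  choose G hG using fun i : ℕ => exists_cd β (ModStr.free B X) (k := k) hBX.pc fun E => T E i
  have hsum : ∀ m : ℕ, G 0 = (∑ i ∈ Finset.range m, α i) ≫ unitMap B X + G m := by
    intro m
    refine cd_inj β (ModStr.free B X) hBX.pc fun E => ?_
    rw [cd_add, hG, hG, Preadditive.sum_comp, cd_sum]
    induction m with
    | zero => rw [Finset.sum_range_zero, zero_add]
    | succ m ih => rw [ih, Finset.sum_range_succ, add_assoc, ← hT1]
  obtain ⟨α₀, hα₀⟩ := closed β hD hb hX U hs (G 0) (by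
    intro N C
    let i : ℕ := (N + k + C - c - s).toNat
    have h2 : ∀ E : ℕ →₀ ℕ, ∃ z : (𝟙_ 𝒯)⟦k + dT p E⟧ ⟶ B ⊗ X, dT p E < C →
        T E i = p ^ N • z := by
      intro E
      by_cases hE : dT p E < C
      · obtain ⟨z, hz⟩ := hT2 E i N (by omega)
        exact ⟨z, fun _ => hz⟩
      · exact ⟨0, fun h => absurd h hE⟩
    choose z hz using h2
    obtain ⟨g', hg'⟩ := exists_cd β (ModStr.free B X) (k := k) hBX.pc z
    refine ⟨∑ j ∈ Finset.range i, α j, g', G i - ((p : ℤ) ^ N) • g', ?_, fun E hE => ?_⟩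
    · rw [add_assoc, add_sub_cancel]
      exact hsum i
    · rw [cd_sub, cd_zsmul, hG, hg', hz E hE, ← natCast_zsmul, Nat.cast_pow, sub_self])
  refine ⟨Z.c k α₀, ⟨α₀, rfl⟩, fun m E N hN => ?_⟩
  have h3 : (Z.c k α₀ - ∑ i ∈ Finset.range m, a i) (monomial E 1) =
      PiM.of (B ⊗ X) (k + dT p E) (T E m) := by
    have h4 : Z.c k α₀ (monomial E 1) = PiM.of (B ⊗ X) (k + dT p E)
        (cd β (ModStr.free B X) (α₀ ≫ unitMap B X) E) := hZ k α₀ E
    rw [LinearMap.sub_apply, LinearMap.sum_apply, h4, hα₀, hsum m, cd_add, map_add,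
      Preadditive.sum_comp, cd_sum, map_sum, Finset.sum_congr rfl fun i _ => hm i E,
      add_sub_cancel_left, hG]
  rw [h3]
  obtain ⟨z, hz⟩ := hT2 E m N (by omega)
  exact (of_eq_pow_smul β (ModStr.free B X) hBX.pc _ N).2 ⟨z, hz⟩

end Vale.Agent.P221.H128
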