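import Vale.Agent.P221.H377.ExHT

/-!
# P221 (helper128): Koszul exactness in high degrees, without finiteness

`exHigh_inf` : the statement of `exHigh_of_tower` for `n ≤ m + g`, without finiteness of the
homotopy groups.
-/

open CategoryTheory MonoidalCategory OnePoint Limits Pretriangulated MonObj Filter

set_option linter.unusedSectionVars false

noncomputable section

namespace Vale.Agent.P221.H128

open Vale.Agent.P251 Vale.Agent.P251.S Vale.Agent.P251.T Vale.Agent.P251.M Vale.Agent.P251.F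
  Vale.Agent.P251.I EvenSpheres Vale.Agent.P257.H702 Vale.Agent.P257.H80 Vale.Agent.P251.Q
  Vale.Agent.P251.St Vale.Agent.P251.St.SHCat Vale.Agent.P257.St Vale.Agent.P221.H746
  Vale.Agent.P093.N0 Vale.Agent.P221.H377
open Vale.Agent.P221.St
open Vale.Agent.P221.T (BPS sV KK GG HK SrcT Src Sys OpAlg Lead FinZp)
open Vale.Agent.P221.H460 (OpX Ev Reg Nm)
open Vale.Agent.P221.H543 (Reg0 finite_quot p_mem_Nm grA xo cpl_of_pc)
open Vale.Agent.P221.H626 (ExHigh EnvX CS QSt SpPi ev_surj exists_Ev van_high inB_of_reg0 covCl InB)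

section gen

universe u

variable {𝒯 : Type u} [Category.{0} 𝒯] [Preadditive 𝒯] [HasZeroObject 𝒯]
    [HasShift 𝒯 ℤ] [∀ n : ℤ, (shiftFunctor 𝒯 n).Additive] [Pretriangulated 𝒯] [IsTriangulated 𝒯]
    [MonoidalCategory 𝒯] [SymmetricCategory 𝒯] [TensorTriangulated 𝒯] [MonoidalClosed 𝒯]
    [HasCoproducts.{0} 𝒯] [HasProducts.{0} 𝒯] [StableCat 𝒯] {p n : ℕ} [hp : Fact p.Prime]
    {P : 𝒯} {Sc : SrcT p n P} {ld : Lead p n} {O : OpAlg ld Sc.src} {OX : OpX O}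

/-- sums of multiples of powers -/
theorem inB_of_xe {X : 𝒯} {e : ℕ → ℕ} {r : ℕ} {t : ℤ} {z : AA (Sc.sys X)}
    (h : InB (xe OX X e) (grA (Sc.sys X)) (de p e) r t z) :
    InB (xo OX (Sc.sys X)) (grA (Sc.sys X)) (sV p) r t z := by
  obtain ⟨y, hy, hz⟩ := h
  refine ⟨fun a => H626.pw (xo OX (Sc.sys X) a) (e a) (y a), fun a ha => ?_, hz⟩
  have h1 := H626.pw_mem (gr := grA (Sc.sys X)) (y := xo OX (Sc.sys X) a)
    (fun k z hz => H543.xo_mem a k z hz) (e a) (t - de p e a) (hy a ha)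
  have h2 : t - de p e a + (e a : ℤ) * sV p a = t - sV p a := by
    unfold de
    push_cast
    ring
  rwa [h2] at h1

end gen

variable {T : SHCat} {S : Susp T} {p n : ℕ} [hp : Fact p.Prime] {R : RingSp T} {φ : GHom S p R}
  {B : T.C}

/-- **Koszul exactness in high degrees**, for a tower -/
theorem exHigh_twr (E : EnvX S p n φ B) {D : ℤ → Prop} {g m : ℕ} (hD : Deg p g D)
    (hg : 1 ≤ g) (hev : ∀ k, D k → (2 : ℤ) ∣ k) (hn : n ≤ m + g) {X : T.C}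
    (hX : CS p D X) {e : ℕ → ℕ} {L : ℕ → Lv T.C} (hT : Twr E.OX e L (n + 1))
    (hL : ∀ j ≤ m, j ≤ n + 1 → ∀ᶠ t : ℤ in atTop, ¬ D t →
      ∀ z : (𝟙_ T.C)⟦t⟧ ⟶ X ⊗ (L j).V, z = 0)
    (hb : ∀ᶠ t : ℤ in atTop, ∀ z : (𝟙_ T.C)⟦t⟧ ⟶ X ⊗ (L (n + 1)).V, z = 0) :
    ExHigh (xo E.OX (E.Sc.sys X)) (grA (E.Sc.sys X)) (Vale.Agent.P221.T.sV p) (n + 1) := by
  have := E.mon
  have hQ : QSt p D := fun k j => by
    rw [mul_comm]
    exact hD.per k j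
  have hC := covCl E.β E.β.specA2 E.O E.hu E.hT E.OX E.hD E.hA E.hb hQ hev (𝒯 := T.C)
  have hE := hC.ev hX
  have hpi : ∀ j ≤ m, j ≤ n + 1 → Van (𝟙_ T.C) D 0 (L j) X := fun j hj hj' =>
    Van.of_con (hL j hj hj')
  have hP : ∀ (A : ℤ → Prop), QSt p A → ∀ j ≤ n + 1, (∀ᶠ t : ℤ in atTop, ¬ A t →
      ∀ z : (𝟙_ T.C)⟦t⟧ ⟶ X ⊗ (L j).V, z = 0) → ∀ᶠ t : ℤ in atTop, ¬ A t →
      ∀ z : E.Pc⟦t⟧ ⟶ X ⊗ (L j).V, z = 0 := by
    intro A hA j hj h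
    obtain ⟨c, hc⟩ := eventually_atTop.1 h
    filter_upwards [eventually_ge_atTop c] with t ht hAt z
    exact van_high E.β E.hD E.hb hA (hT.pc hX.pc j hj) (fun k hk hAk y => hc k hk hAk y) ht hAt z
  have hcl : Cl n E.Pc D L (CS p D) m X := ⟨hX, fun j hj hj' =>
    Van.of_con (hP D hQ j hj' (hpi j hj hj').con)⟩
  have hz : ∀ᶠ t : ℤ in atTop, ∀ z : E.Pc⟦t⟧ ⟶ X ⊗ (L (n + 1)).V, z = 0 :=
    (hP (fun _ => False) (fun _ _ => Iff.rfl) (n + 1) le_rfl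
      (hb.mono fun t ht _ => ht)).mono fun t ht => ht id
  refine exHigh_weak hT hD hg hC (by omega) hcl hz ?_
  have h1 := ((x_data hT hD hg hE (hC.van hX) hcl.con) (n + 1) le_rfl).2.1 (by omega)
  filter_upwards [h1, hz] with t h2 h3 z hz
  obtain ⟨a, rfl⟩ := H543.exists_of_mem_grA hz
  exact inB_of_xe ((h2 a).1 (h3 _))

/-- **Koszul exactness in high degrees** -/
theorem exHigh_inf (E : EnvX S p n φ B) {D : ℤ → Prop} {g m : ℕ} (hD : Deg p g D)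
    (hg : 1 ≤ g) (hev : ∀ k, D k → (2 : ℤ) ∣ k) (hn : n ≤ m + g) {X : T.C}
    (hX : CS p D X) {V : T.C}
    (hV : STw φ (fun j W => j ≤ m → ∀ᶠ t : ℤ in atTop, ¬ D t →
      ∀ z : (𝟙_ T.C)⟦t⟧ ⟶ X ⊗ W, z = 0) (n + 1) V)
    (hb : ∀ᶠ t : ℤ in atTop, ∀ z : (𝟙_ T.C)⟦t⟧ ⟶ X ⊗ V, z = 0) :
    ExHigh (xo E.OX (E.Sc.sys X)) (grA (E.Sc.sys X)) (Vale.Agent.P221.T.sV p) (n + 1) := by
  obtain ⟨-, L, e, hT, rfl, hL, -⟩ := twr_of_stw E.hu E.hmul hV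
  refine exHigh_twr E hD hg hev hn hX hT (fun j hj hj' => ?_) hb
  rcases Nat.lt_or_ge j (n + 1) with h | h
  · exact hL j h hj
  · obtain rfl : j = n + 1 := by omega
    exact hb.mono fun t ht _ => ht

end Vale.Agent.P221.H128
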