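import Vale.Agent.P221.H128.E4
import Vale.Agent.P221.H128.A8
import Vale.Agent.P221.H626.Sep

/-!
# P221 (helper128): every homotopy class extends over a form `B`, without finite generation

`X` is even, `p`-complete, bounded below and `X ⊗ C` is even, `C = S / p`.

* `sep_of_ev` : the homotopy groups of `B ⊗ X`, `B ⊗ (J ⊗ X)` are separated;
* `cvr_inf` : if the Koszul complexes are exact in degrees `≥ c + W`, every homotopy class in degrees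
  `≥ c` extends over `B`.
-/

open CategoryTheory MonoidalCategory MonObj Limits Pretriangulated

set_option linter.unusedSectionVars false

universe u

noncomputable section

namespace Vale.Agent.P221.H128

open Vale.Agent.P251 Vale.Agent.P251.S Vale.Agent.P251.T Vale.Agent.P251.M Vale.Agent.P251.F
  Vale.Agent.P251.I EvenSpheres Vale.Agent.P257.H80 Vale.Agent.P257.H762 Vale.Agent.P221.H246
  Vale.Agent.P221.Loc Vale.Agent.P221.E Vale.Agent.P221.E.H817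
open Vale.Agent.P221.H395 (PComplete)
open Vale.Agent.P221.T (fm fm_comp shift_fm fm_assoc gc comp_gc gc_map gc_comp gc_surj
  gc_zero_left BPS PiM zr KK GG HK dT SrcT Lead OpAlg SysMap Sys tri_exact
  tri_inj FormD decomp pComplete_coprod pi_shift_zero hat FinZp Env sV FS grR WW dd)
open Vale.Agent.P221.H460 (Ev OpX)
open Vale.Agent.P221.T.H746 (RN)
open Vale.Agent.P221.H626
open Vale.Agent.P221.H543 (Cvr freeOne_B)
open Vale.Agent.P221.V (LiftsV)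
open MvPolynomial (monomial coeff)

variable {𝒯 : Type u} [Category.{0} 𝒯] [Preadditive 𝒯] [HasZeroObject 𝒯]
    [HasShift 𝒯 ℤ] [∀ n : ℤ, (shiftFunctor 𝒯 n).Additive] [Pretriangulated 𝒯] [IsTriangulated 𝒯]
    [MonoidalCategory 𝒯] [SymmetricCategory 𝒯] [TensorTriangulated 𝒯] [MonoidalClosed 𝒯]
    [HasCoproducts.{0} 𝒯] [HasProducts.{0} 𝒯] [StableCat 𝒯]

section sep

variable {p : ℕ} {C : 𝒯} {i : 𝟙_ 𝒯 ⟶ C} {δ : C ⟶ (𝟙_ 𝒯)⟦(1 : ℤ)⟧}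
  (hC : Triangle.mk ((p : ℤ) • 𝟙 (𝟙_ 𝒯)) i δ ∈ distTriang 𝒯)

include hC in
/-- even objects with even reduction modulo `p` have separated homotopy -/
theorem sep_of_ev {Y : 𝒯} (hY : PComplete p Y) (h1 : EvPi Y) (h2 : EvPi (Y ⊗ C)) (j : ℤ)
    (y : (𝟙_ 𝒯)⟦j⟧ ⟶ Y) (h : ∀ N : ℕ, ∃ z, y = ((p : ℤ) ^ N) • z) : y = 0 := by
  by_cases hj : (2 : ℤ) ∣ j
  · have hV : Triangle.mk (((p : ℤ) ^ 1) • 𝟙 (𝟙_ 𝒯)) i δ ∈ distTriang 𝒯 := by
      rw [pow_one]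
      exact hC
    exact PC.sep_of_tf hC hY (fun g hg => tf_of_mod hV Nat.one_pos
      (fun y => h2.zero (by omega) y) g hg) y h
  · exact h1.zero hj y

include hC in
/-- reductions modulo `p` -/
theorem ee_mod {X : 𝒯} (hX : EE p X) (h : EvPi (X ⊗ C)) : EE p (X ⊗ C) := by
  refine ⟨h, H395.pComplete_tensor hC X, ?_⟩
  obtain ⟨m, hm⟩ := hX.bb
  obtain ⟨u, w, hT, -⟩ := tri_pow hC X
  have hT' := rot_of_distTriang _ hT
  exact ⟨m, Conn.ext _ hT' hm ((hm.shift 1 _ rfl).mono (by omega))⟩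

theorem evPi_iso {X Y : 𝒯} (h : EvPi X) (e : X ≅ Y) : EvPi Y :=
  h.of_retract e.inv e.hom e.inv_hom_id

end sep

variable {D : MUData 𝒯} {F : SpaceFunctor 𝒯} {eF : F.S.obj CCF ≅ (stdEven 𝒯).L}
  {p : ℕ} [hp : Fact p.Prime] {R : 𝒯} [MonObj R] [IsCommMonObj R] {b₀ : D.R ⟶ R} [IsMonHom b₀]
  {P W₀ : 𝒯} (β : BPS p R P W₀)
  {C : 𝒯} {i : 𝟙_ 𝒯 ⟶ C} {δ : C ⟶ (𝟙_ 𝒯)⟦(1 : ℤ)⟧}
  (hC : Triangle.mk ((p : ℤ) • 𝟙 (𝟙_ 𝒯)) i δ ∈ distTriang 𝒯)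

include hC in
theorem sep_tensR (hD : MUUniv eF D) (hb : IsBPMon p b₀) {X : 𝒯} (hX : EE p X)
    (h : EvPi (X ⊗ C)) (j : ℤ) (y : (𝟙_ 𝒯)⟦j⟧ ⟶ R ⊗ X)
    (hy : ∀ N : ℕ, ∃ z, y = ((p : ℤ) ^ N) • z) : y = 0 :=
  sep_of_ev hC (hX.tensB hD hb).pc (hX.tensB hD hb).ev
    (evPi_iso ((ee_mod hC hX h).tensB hD hb).ev (α_ R X C).symm) j y hy

include hC in
theorem sep_tensRJ (hD : MUUniv eF D) (hb : IsBPMon p b₀) (U : UnitCof R) {X : 𝒯} (hX : EE p X)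
    (h : EvPi (X ⊗ C)) (j : ℤ) (y : (𝟙_ 𝒯)⟦j⟧ ⟶ R ⊗ (U.J ⊗ X))
    (hy : ∀ N : ℕ, ∃ z, y = ((p : ℤ) ^ N) • z) : y = 0 :=
  sep_tensR hC hD hb (hX.tensJ hD hb U)
    (evPi_iso ((ee_mod hC hX h).tensJ hD hb U).ev (α_ U.J X C).symm) j y hy

/-- separated modules -/
theorem sep_piM {Y : 𝒯} (M : ModStr R Y) (hY : PComplete p Y)
    (h : ∀ (j : ℤ) (y : (𝟙_ 𝒯)⟦j⟧ ⟶ Y), (∀ N : ℕ, ∃ z, y = ((p : ℤ) ^ N) • z) → y = 0) :
    letI := β.mdl M hY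
    ∀ z : PiM Y, (∀ N : ℕ, ∃ z' : PiM Y, z = (p : KK p) ^ N • z') → z = 0 := by
  let := β.mdl M hY
  intro z hz
  refine DFinsupp.ext fun k => ?_
  refine h k (z k) fun N => ?_
  obtain ⟨z', hz'⟩ := hz N
  refine ⟨z' k, ?_⟩
  have h1 : (p : KK p) ^ N • z' = p ^ N • z' := by
    rw [← Nat.cast_pow, Nat.cast_smul_eq_nsmul]
  rw [hz', h1, ← Nat.cast_pow, natCast_zsmul]
  exact DFinsupp.nsmul_apply _ _ _

variable {n : ℕ} {β} {ld : Lead p n} {Sc : SrcT p n P} {O : OpAlg ld Sc.src}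
  {OX : OpX O} {B : 𝒯}

include hC in
/-- **every homotopy class in degrees `≥ c` extends over `B`** -/
theorem cvr_inf (hu : Sc.u = η[R] ≫ β.c) (hD : MUUniv eF D) (hb : IsBPMon p b₀)
    (hT : ∀ (m : ℤ) (g : P⟦m⟧ ⟶ P), O.T m g = β.T g) (φ : FormD β n B)
    (hS : ∀ l, β.c⟦dd p n l⟧' ≫ Sc.x l = hat β.MP (β.cls (dd p n l) (φ.x l)))
    (hL : LiftsV Sc φ.Q) {X : 𝒯} (hX : EE p X) (hXC : EvPi (X ⊗ C)) {c : ℤ}
    (hK : ∀ t, c + WW p n ≤ t → ∀ s, H626.Ex (fun a => (H377.xx OX (Sc.sys X) a :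
      H377.AA (Sc.sys X) →+ H377.AA (Sc.sys X))) (fun k => (H377.ofA (Sc.sys X) k).range) (sV p)
        (n + 1) s t) : Cvr Sc φ.Q c X := by
  let mB := β.mdl φ.MB φ.hB
  obtain ⟨co, -⟩ := β.specA2 ld Sc O hu hT B φ.MB φ.hB
  have hF := freeOne_B φ
  have hfB : ∀ k, ∀ z ∈ PiM.gr B k, ∃! f : MvPolynomial (Fin n) ℤ_[p],
      HK p k (RN p n f) ∧ z = RN p n f • H903.q1 φ := by
    intro k z hz
    obtain ⟨f, hf, h⟩ := hF.ex k z hz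
    refine ⟨f, ⟨hf, h⟩, fun g hg => hF.inj k g f hg.1 hf ?_⟩
    rw [← hg.2, ← h]
  have hx : ∀ l, xx O l • H903.q1 φ = 0 := by
    intro l
    rw [xx_eq hT OX φ hS l]
    exact φ.x_zero l
  let mX := β.mdl (ModStr.free R X) (hX.tensB hD hb).pc
  obtain ⟨Z, -, -, hZ⟩ := exists_Ev β β.specA2 O hu hT hD hb hX
  have hsurj := ev_surj β hu hD hb hX
  have hsep := sep_piM β (ModStr.free R X) (hX.tensB hD hb).pc (sep_tensR hC hD hb hX hXC)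
  obtain ⟨U⟩ := exists_unitCof R
  have hcpl := cpl_of_sep β hD hb O hX U (sep_tensRJ hC hD hb U hX hXC) Z hZ hsurj hsep c
  intro k hk x
  obtain ⟨a, ha, hax⟩ := CL.exists_lift_x Z OX hsurj hsep hcpl hK co hF.mem hfB hx k hk x
  obtain ⟨b, hb⟩ := hL X hX.pc c (CL.h1V_sys Z OX hsurj hsep hcpl hK co hF.mem hfB hx) k a hk
    fun l => hax l _ rfl
  refine ⟨b, ?_⟩
  rw [hb]
  exact ha

end Vale.Agent.P221.H128
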