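import Vale.Agent.P221.H84.Dec
import Vale.Agent.P221.H128.E5
import Vale.Agent.P221.H128.E6

/-!
# P221 (helper128): objects in one class: homotopy classes extend over `B` in high degrees

* `cvr_of_one` : `X` `p`-complete, `π_* X` and `π_* (X ⊗ V_1)` in the class of `i₀` in high degrees,
  `X ⊗ V_{n+1}` bounded above, `n ≤ 2 p - 2`: every homotopy class of `X` in high degrees extends
  over the form `B`.
-/

open CategoryTheory MonoidalCategory OnePoint Limits Pretriangulated MonObj Filter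

set_option linter.unusedSectionVars false

noncomputable section

namespace Vale.Agent.P221.H128

open Vale.Agent.P251 Vale.Agent.P251.S Vale.Agent.P251.T Vale.Agent.P251.M Vale.Agent.P251.F
  Vale.Agent.P251.I EvenSpheres Vale.Agent.P257.H702 Vale.Agent.P257.H80 Vale.Agent.P251.Q
  Vale.Agent.P251.St Vale.Agent.P251.St.SHCat Vale.Agent.P257.St Vale.Agent.P221.H746
  Vale.Agent.P093.N0 Vale.Agent.P221.H377 Vale.Agent.P257.H762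
open Vale.Agent.P221.St
open Vale.Agent.P221.Loc (IsCov exists_cov)
open Vale.Agent.P221.T (BPS sV KK GG HK SrcT Src Sys OpAlg Lead FinZp WW)
open Vale.Agent.P221.H460 (OpX Ev Reg Nm)
open Vale.Agent.P221.H543 (Reg0 finite_quot p_mem_Nm grA xo cpl_of_pc Cvr)
open Vale.Agent.P221.H626 (ExHigh EnvX CS QSt SpPi ev_surj exists_Ev van_high inB_of_reg0 covCl InB
  EvPi tri_pow sp_cov)

section gen

universe u

variable {𝒯 : Type u} [Category.{0} 𝒯] [Preadditive 𝒯] [HasZeroObject 𝒯]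
    [HasShift 𝒯 ℤ] [∀ n : ℤ, (shiftFunctor 𝒯 n).Additive] [Pretriangulated 𝒯] [IsTriangulated 𝒯]
    [MonoidalCategory 𝒯] [SymmetricCategory 𝒯] [TensorTriangulated 𝒯] [MonoidalClosed 𝒯]
    [HasCoproducts.{0} 𝒯] [HasProducts.{0} 𝒯] [StableCat 𝒯] {p : ℕ}

/-- torsion -/
theorem tf_of_tri {a : ℕ} (ha : 0 < a) {Z Q : 𝒯} {g : Z ⟶ Q} {δ : Q ⟶ Z⟦(1 : ℤ)⟧}
    (H : Triangle.mk (((p : ℤ) ^ a) • 𝟙 Z) g δ ∈ distTriang 𝒯) {k : ℤ}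
    (h0 : ∀ y : (𝟙_ 𝒯)⟦k + 1⟧ ⟶ Q, y = 0) (x : (𝟙_ 𝒯)⟦k⟧ ⟶ Z) (hx : (p : ℤ) • x = 0) : x = 0 := by
  have h1 : x ≫ (((p : ℤ) ^ a) • 𝟙 Z) = 0 := by
    obtain ⟨e', rfl⟩ : ∃ e', a = e' + 1 := ⟨a - 1, by omega⟩
    rw [Preadditive.comp_zsmul, Category.comp_id, pow_succ, mul_smul, hx, smul_zero]
  obtain ⟨v, hv⟩ : ∃ v : Q⟦(-1 : ℤ)⟧ ⟶ Z,
      ∀ x : (𝟙_ 𝒯)⟦k⟧ ⟶ Z, x ≫ (((p : ℤ) ^ a) • 𝟙 Z) = 0 →
        ∃ y : (𝟙_ 𝒯)⟦k⟧ ⟶ Q⟦(-1 : ℤ)⟧, x = y ≫ v :=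
    ⟨_, fun x hx => Triangle.coyoneda_exact₂ _ (inv_rot_of_distTriang _ H) x hx⟩
  obtain ⟨y, hy⟩ := hv x h1
  have h2 : y = 0 := by
    obtain ⟨E⟩ := Vale.Agent.P221.Loc.nonempty_homShift Q k (-1)
    apply E.injective
    rw [map_zero]
    have h3 : ∀ (m : ℤ), m = k + 1 → ∀ y : (𝟙_ 𝒯)⟦m⟧ ⟶ Q, y = 0 := by
      rintro m rfl
      exact h0
    exact h3 _ (by ring) _
  rw [hy, h2, zero_comp]

/-- the reduction of an even object without torsion is even -/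
theorem evPi_ten {C : 𝒯} {i : 𝟙_ 𝒯 ⟶ C} {δ : C ⟶ (𝟙_ 𝒯)⟦(1 : ℤ)⟧}
    (hC : Triangle.mk ((p : ℤ) • 𝟙 (𝟙_ 𝒯)) i δ ∈ distTriang 𝒯) {Z : 𝒯} (hZ : EvPi Z)
    (ht : ∀ (k : ℤ) (x : (𝟙_ 𝒯)⟦k⟧ ⟶ Z), (p : ℤ) • x = 0 → x = 0) : EvPi (Z ⊗ C) := by
  intro k y
  obtain ⟨u, w, hT, -⟩ := tri_pow hC Z
  have h1 : w ≫ ((p : ℤ) • 𝟙 Z)⟦(1 : ℤ)⟧' = 0 := comp_distTriang_mor_zero₃₁ _ hT
  have h2 : ((p : ℤ) • 𝟙 Z)⟦(1 : ℤ)⟧' = (p : ℤ) • 𝟙 (Z⟦(1 : ℤ)⟧) := by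
    rw [Functor.map_zsmul, CategoryTheory.Functor.map_id]
  rw [h2, Preadditive.comp_zsmul, Category.comp_id] at h1
  have h3 : (p : ℤ) • (y ≫ w) = 0 := by
    rw [← Preadditive.comp_zsmul, h1, comp_zero]
  have h4 : y ≫ w = 0 := by
    obtain ⟨E⟩ := Vale.Agent.P221.Loc.nonempty_homShift Z (2 * k + 1) 1
    apply E.injective
    rw [map_zero]
    refine ht _ _ ?_
    rw [← map_zsmul, h3, map_zero]
  obtain ⟨z, hz⟩ := Triangle.coyoneda_exact₃ _ hT y h4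
  have h5 : z = 0 := hZ k z
  rw [hz, h5]
  exact zero_comp

end gen

variable {T : SHCat} {S : Susp T} {p n : ℕ} [hp : Fact p.Prime] {R : RingSp T} {φ : GHom S p R}
  {B : T.C}

/-- **extension over `B` in high degrees**, for objects in one class -/
theorem cvr_of_one (E : EnvX S p n φ B) {i₀ : ℤ} (hi₀ : (2 : ℤ) ∣ i₀)
    (hn : (n : ℤ) ≤ 2 * p - 2) {X : T.C} (hX : H395.PComplete p X)
    {e : ℕ → ℕ} {L : ℕ → Lv T.C} (hT : Twr E.OX e L (n + 1))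
    {a : ℕ} (ha : 0 < a) {g : X ⟶ X ⊗ (L 1).V} {δ : X ⊗ (L 1).V ⟶ X⟦(1 : ℤ)⟧}
    (H : Triangle.mk (((p : ℤ) ^ a) • 𝟙 X) g δ ∈ distTriang T.C)
    (h0 : ∀ᶠ t : ℤ in atTop, ¬ (2 * (p : ℤ) - 2) ∣ t - i₀ → ∀ y : (𝟙_ T.C)⟦t⟧ ⟶ X, y = 0)
    (h1 : ∀ᶠ t : ℤ in atTop, ¬ (2 * (p : ℤ) - 2) ∣ t - i₀ →
      ∀ y : (𝟙_ T.C)⟦t⟧ ⟶ X ⊗ (L 1).V, y = 0)
    (hz : ∀ᶠ t : ℤ in atTop, ∀ y : (𝟙_ T.C)⟦t⟧ ⟶ X ⊗ (L (n + 1)).V, y = 0) :
    ∃ c, Cvr E.Sc E.F.Q c X := by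
  have hp2 := hp.out.two_le
  have hc0 : Conn (0 : ℤ) (𝟙_ T.C) := E.conn_unit
  have := E.mon
  obtain ⟨C, i, δ', hC⟩ := H746.exists_moore (𝒯 := T.C) (p : ℤ)
  obtain ⟨c, hc⟩ := eventually_atTop.1 (h0.and h1)
  obtain ⟨Y, f, hf⟩ := exists_cov c X
  have hev : ∀ k, (2 * (p : ℤ) - 2) ∣ k - i₀ → (2 : ℤ) ∣ k := by
    intro k hk
    have h2 : (2 : ℤ) ∣ 2 * (p : ℤ) - 2 := ⟨(p : ℤ) - 1, by ring⟩
    have h3 := dvd_add (h2.trans hk) hi₀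
    rwa [sub_add_cancel] at h3
  have hY : CS p (fun k => (2 * (p : ℤ) - 2) ∣ k - i₀) Y :=
    ⟨sp_cov hc0 hf fun k hk => (hc k hk).1, hf.pComplete hC hc0 hX,
      ⟨c, BigCell.conn' hc0 hf.cell⟩⟩
  obtain ⟨Q, g', w, hTr⟩ := distinguished_cocone_triangle f
  have hQ : ∀ᶠ t : ℤ in atTop, ∀ y : (𝟙_ T.C)⟦t⟧ ⟶ Q, y = 0 :=
    eventually_atTop.2 ⟨c, fun t ht => hf.cof_zero hc0 hTr t ht⟩
  have hst := fun j (hj : j ≤ n + 1) => H84.inj_stage hT hTr hQ hj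
  obtain ⟨T₀, hT₀⟩ := exHigh_twr E (H84.deg_one hp2 i₀) (m := 1) (by omega) hev (by omega) hY hT
    (fun j hj hj' => by
      rcases Nat.eq_zero_or_pos j with rfl | hj0
      · exact (H377.Twr.vanA_zero (D := fun k => (2 * (p : ℤ) - 2) ∣ k - i₀) hT
          (Eventually.of_forall hY.sp)).con
      · obtain rfl : j = 1 := by omega
        filter_upwards [h1, hst 1 hj'] with t h2 h3 ht
        exact h3 (h2 ht)) (by
      filter_upwards [hz, hst (n + 1) le_rfl] with t h2 h3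
      exact h3 h2)
  -- no torsion
  have htf : ∀ (k : ℤ) (x : (𝟙_ T.C)⟦k⟧ ⟶ Y), (p : ℤ) • x = 0 → x = 0 := by
    intro k x hx
    by_cases hk : (2 * (p : ℤ) - 2) ∣ k - i₀
    · rcases lt_or_ge k c with h | h
      · exact BigCell.conn' hc0 hf.cell k h x
      · refine (hf.bij k h).1 ?_
        change x ≫ f = 0 ≫ f
        rw [zero_comp]
        refine tf_of_tri ha H (fun y => (hc (k + 1) (by omega)).2 (fun h2 => ?_) y) _ ?_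
        · have h3 := dvd_sub h2 hk
          have h4 : k + 1 - i₀ - (k - i₀) = 1 := by ring
          rw [h4] at h3
          have h5 := Int.le_of_dvd (by omega) h3
          omega
        · rw [← Preadditive.zsmul_comp, hx, zero_comp]
    · exact hY.sp k hk x
  have hW : 0 ≤ WW p n := by
    unfold WW
    exact Finset.sum_nonneg fun a _ => Vale.Agent.P221.T.sV_nonneg (by omega) _
  have hcv : Cvr E.Sc E.F.Q T₀ Y := cvr_inf hC E.hu E.hD E.hb E.hT E.F E.hS E.lifts (hY.ee hev)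
    (evPi_ten hC (hY.ee hev).ev htf) (fun t ht s => hT₀ t (by omega) s)
  refine ⟨max T₀ c, fun k hk x => ?_⟩
  obtain ⟨z, hz⟩ := (hf.bij k ((le_max_right _ _).trans hk)).2 x
  change z ≫ f = x at hz
  obtain ⟨b, hb⟩ := hcv k ((le_max_left _ _).trans hk) z
  refine ⟨b ≫ f, ?_⟩
  rw [reassoc_of% hb, hz]

end Vale.Agent.P221.H128
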