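import Vale.Agent.P221.H128.A5

/-!
# P221 (helper128): generators of `π_* X` from generators in a window
-/

open MvPolynomial

set_option linter.unusedSectionVars false

namespace Vale.Agent.P221.H128

open Vale.Agent.P221.T Vale.Agent.P221.T.H746 Vale.Agent.P221.H460

variable {p : ℕ} [hp : Fact p.Prime] {n : ℕ} {ld : Lead p n} {S : Src p n} {O : OpAlg ld S}
  {M : Type} [AddCommGroup M] [Module (KK p) M]

theorem finite_dT (N : ℤ) : {E : ℕ →₀ ℕ | dT p E = N}.Finite := by
  classical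
  refine (Set.finite_Icc (0 : ℕ →₀ ℕ)
    (∑ i ∈ Finset.range N.toNat, Finsupp.single i N.toNat)).subset ?_
  intro E hE
  have hE' : dT p E = N := hE
  refine ⟨fun i => Nat.zero_le _, fun i => ?_⟩
  rw [Finsupp.finsetSum_apply]
  by_cases h0 : E i = 0
  · rw [h0]
    exact Nat.zero_le _
  have h2 : E = Finsupp.single i (E i) + (E - Finsupp.single i (E i)) := by
    rw [add_tsub_cancel_of_le]
    rw [Finsupp.single_le_iff]
  have h3 : dT p E = E i * sV p (i + 1) + dT p (E - Finsupp.single i (E i)) := by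
    conv_lhs => rw [h2]
    rw [H746.dT_add, dT_single]
  have h4 := dT_nonneg (p := p) (E - Finsupp.single i (E i))
  have h5 : (i : ℤ) + 1 ≤ sV p (i + 1) := by
    unfold sV
    have h6 : i + 1 < p ^ (i + 1) := Nat.lt_pow_self hp.out.one_lt
    have h7 : ((i : ℤ) + 1) < (p : ℤ) ^ (i + 1) := by exact_mod_cast h6
    omega
  have h6 : (1 : ℤ) ≤ E i := by
    have : 0 < E i := Nat.pos_of_ne_zero h0
    exact_mod_cast this
  have h7 : (E i : ℤ) ≤ E i * sV p (i + 1) := by nlinarith
  have h8 : sV p (i + 1) ≤ E i * sV p (i + 1) := by nlinarith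
  have h9 : i ∈ Finset.range N.toNat := by
    rw [Finset.mem_range]
    omega
  rw [Finset.sum_eq_single_of_mem i h9 (fun j _ hj => Finsupp.single_eq_of_ne (Ne.symm hj)),
    Finsupp.single_eq_same]
  omega

section

variable {Z : XS O M} {X : OpX O}

/-- expansion of an element with value `0` at `1` -/
theorem expand_aux {k s L : ℤ} {z : KK p} (hz : HK p (k - s) z) (hzL : z ∈ Ip p L) (m : ℕ) :
    ∀ (N : ℕ), 1 ≤ N → k - s < N + m → ∀ f ∈ Z.A s, (∀ E, dT p E < N → f (monomial E 1) = 0) →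
    f (X.eta z) ∈ AddSubgroup.closure {y | ∃ s', s < s' ∧ ∃ f' ∈ Z.A s', ∃ z' ∈ Ip p L,
      HK p (k - s') z' ∧ y = f' (X.eta z')} := by
  classical
  obtain ⟨μ, hμ⟩ := X.mult (k - s) z hz
  have hμ1 : O.T _ μ 1 = X.eta z := by rw [hμ, _root_.mul_one]
  have hμF : μ ∈ S.F L _ := mem_F_of_coord X fun E => by
    rw [hμ, coeff_zero_mul, X.eta_zero]
    exact Ideal.mul_mem_right _ _ hzL
  induction m with
  | zero =>
    intro N hN hks f _ hf0
    have h1 : f (X.eta z) = 0 := by
      rw [(X.eta z).as_sum, map_sum]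
      refine Finset.sum_eq_zero fun E hE => ?_
      have h2 : (monomial E (coeff E (X.eta z)) : GG p) = coeff E (X.eta z) • monomial E 1 := by
        rw [smul_monomial, smul_eq_mul, _root_.mul_one]
      rw [h2, map_smul]
      have h3 : HK p (k - s - dT p E) (coeff E (X.eta z)) := by
        have h4 := O.homog _ μ 0 E
        have h5 : (monomial 0 1 : GG p) = 1 := rfl
        rwa [h5, hμ1, H746.dT_zero, add_zero] at h4
      by_cases h6 : dT p E < N
      · rw [hf0 E h6, smul_zero]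
      · rw [HK_neg_eq_zero (by push_cast at hks; omega) h3, zero_smul]
    rw [h1]
    exact AddSubgroup.zero_mem _
  | succ m ih =>
    intro N hN hks f hf hf0
    choose f' hf' hf'1 using fun E : {E // dT p E = (N : ℤ)} => Z.low hf hf0 E.1 E.2
    have hfin := finite_dT (p := p) (N : ℤ)
    have : Fintype {E // dT p E = (N : ℤ)} := hfin.fintype
    -- the operations `r_E`
    have hr : ∀ E : {E // dT p E = (N : ℤ)}, ∃ γ : S.E (-(N : ℤ)), γ ∈ S.F 0 _ ∧
        ∀ E', coeff 0 (O.T _ γ (monomial E' 1)) = if E' = E.1 then 1 else 0 := by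
      intro E
      refine X.ex _ 0 _ (fun E' => ?_) (fun E' => Ip_of_nonpos p le_rfl _)
      split_ifs with h
      · rw [h, E.2, neg_add_cancel]
        exact isWeightedHomogeneous_one _ _
      · exact HK_zero _
    choose γ _ hγ using hr
    have hlow : ∀ E : {E // dT p E = (N : ℤ)},
        (∀ E', dT p E' < N → O.T _ (γ E) (monomial E' 1) = 0) ∧
        ∀ E', dT p E' = N → O.T _ (γ E) (monomial E' 1) = if E' = E.1 then 1 else 0 := by
      intro E
      have h1 := X.low _ N (γ E) (fun E' hE' => by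
        rw [hγ, if_neg]
        rintro rfl
        have := E.2
        omega)
      refine ⟨h1.1, fun E' hE' => ?_⟩
      rw [h1.2 E' hE', hγ]
      split_ifs with h
      · exact map_one _
      · exact map_zero _
    set f₁ : GG p →ₗ[KK p] M := f - ∑ E, f' E ∘ₗ O.T _ (γ E) with hf₁
    have hf₁A : f₁ ∈ Z.A s := (Z.A s).sub_mem hf
      (AddSubgroup.sum_mem _ fun E _ => Z.act (by omega) (hf' E) (γ E))
    have hf₁0 : ∀ E, dT p E < (N + 1 : ℕ) → f₁ (monomial E 1) = 0 := by
      intro E hE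
      rw [hf₁, LinearMap.sub_apply, LinearMap.sum_apply]
      by_cases hEN : dT p E = N
      · rw [Finset.sum_eq_single (⟨E, hEN⟩ : {E // dT p E = (N : ℤ)}), LinearMap.comp_apply,
          (hlow ⟨E, hEN⟩).2 E hEN, if_pos rfl, hf'1, sub_self]
        · intro E' _ hne
          rw [LinearMap.comp_apply, (hlow E').2 E hEN, if_neg, map_zero]
          rintro rfl
          exact hne rfl
        · intro h
          exact absurd (Finset.mem_univ _) h
      · have h2 : dT p E < N := by push_cast at hE; omega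
        rw [hf0 E h2, Finset.sum_eq_zero, sub_zero]
        intro E' _
        rw [LinearMap.comp_apply, (hlow E').1 E h2, map_zero]
    have h3 : f (X.eta z) = f₁ (X.eta z) + ∑ E, f' E (O.T _ (γ E) (X.eta z)) := by
      rw [hf₁, LinearMap.sub_apply, LinearMap.sum_apply]
      simp only [LinearMap.comp_apply]
      rw [sub_add_cancel]
    rw [h3]
    refine AddSubgroup.add_mem _ (ih (N + 1) (by omega) (by push_cast at hks ⊢; omega) f₁ hf₁A hf₁0)
      (AddSubgroup.sum_mem _ fun E _ => AddSubgroup.subset_closure ?_)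
    obtain ⟨ε, hε⟩ := X.comp (show -(N : ℤ) + (k - s) = k - (s + N) by omega) (γ E) μ
    have hεF : ε ∈ S.F (0 + L) _ := comp_F (mem_F_nonpos O le_rfl (γ E)) hμF hε
    have hε1 : O.T _ ε 1 = O.T _ (γ E) (X.eta z) := by rw [hε, LinearMap.comp_apply, hμ1]
    have h4 := (X.low _ 0 ε (fun E' hE' => by
      have := dT_nonneg (p := p) E'
      omega)).2 0 H746.dT_zero
    have h5 : (monomial 0 1 : GG p) = 1 := rfl
    rw [h5, hε1] at h4
    refine ⟨s + N, by omega, f' E, hf' E, _, ?_, ?_, congrArg (f' E) h4⟩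
    · have h6 := O.T_mem _ _ ε hεF 0 0
      rwa [h5, hε1, zero_add] at h6
    · have h6 := HK_coord (O := O) ε 0
      rwa [h5, hε1, H746.dT_zero, add_zero] at h6

theorem expand_zero {k s L : ℤ} {z : KK p} (hz : HK p (k - s) z) (hzL : z ∈ Ip p L)
    {f : GG p →ₗ[KK p] M} (hf : f ∈ Z.A s) (hf1 : f 1 = 0) :
    f (X.eta z) ∈ AddSubgroup.closure {y | ∃ s', s < s' ∧ ∃ f' ∈ Z.A s', ∃ z' ∈ Ip p L,
      HK p (k - s') z' ∧ y = f' (X.eta z')} := by
  refine expand_aux hz hzL (k - s).toNat 1 le_rfl (by push_cast; omega) f hf fun E hE => ?_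
  have h9 : E = 0 := by
    by_contra hne
    have := dT_pos (p := p) hne
    push_cast at hE
    omega
  rw [h9]
  exact hf1

variable {c : ℤ} {r : ℕ} {e : Fin r → ℤ} {g : Fin r → (GG p →ₗ[KK p] M)}

variable (X e g) in
/-- the group generated by the `g_j` -/
def Im (k : ℤ) : AddSubgroup M where
  carrier := {y | ∃ v : Fin r → KK p, (∀ j, HK p (k - e j) (v j)) ∧ y = ∑ j, g j (X.eta (v j))}
  add_mem' := by
    rintro a b ⟨v, hv, rfl⟩ ⟨v', hv', rfl⟩
    refine ⟨fun j => v j + v' j, fun j => HK_add (hv j) (hv' j), ?_⟩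
    rw [← Finset.sum_add_distrib]
    exact Finset.sum_congr rfl fun j _ => by rw [map_add, map_add]
  zero_mem' := ⟨fun _ => 0, fun j => HK_zero _, by simp⟩
  neg_mem' := by
    rintro a ⟨v, hv, rfl⟩
    refine ⟨fun j => -v j, fun j => ?_, ?_⟩
    · have h1 := HK_sub (HK_zero (p := p) (k - e j)) (hv j)
      rwa [zero_sub] at h1
    · rw [← Finset.sum_neg_distrib]
      exact Finset.sum_congr rfl fun j _ => by rw [map_neg, map_neg]

variable (Z X) in
/-- the elements `f (η z)`, `z ∈ Ip L` -/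
def DL (c L k : ℤ) : AddSubgroup M := AddSubgroup.closure {y | ∃ s, c ≤ s ∧ ∃ f ∈ Z.A s,
  ∃ z ∈ Ip p L, HK p (k - s) z ∧ y = f (X.eta z)}

variable (hK : KX Z X (c + WW p n)) (hg : ∀ j, g j ∈ Z.A (e j))
  (hwin : ∀ k, c ≤ k → k < c + WW p n → ∀ f ∈ Z.A k, ∃ v : Fin r → KK p,
    (∀ j, HK p (k - e j) (v j)) ∧ ∃ f' ∈ Z.A k, f 1 = ∑ j, g j (X.eta (v j)) + (p : KK p) • f' 1)

include hK hg hwin in
theorem DL_step {L k : ℤ} (N : ℕ) : ∀ s, c ≤ s → k - s < N → ∀ f ∈ Z.A s,
    ∀ z ∈ Ip p L, HK p (k - s) z → f (X.eta z) ∈ Im X e g k ⊔ DL Z X c (L + 1) k := by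
  induction N with
  | zero =>
    intro s _ hs f _ z _ hz
    rw [HK_neg_eq_zero (by push_cast at hs; omega) hz, map_zero, map_zero]
    exact AddSubgroup.zero_mem _
  | succ N ih =>
    intro s hcs hs f hf z hzL hz
    rcases lt_or_ge s (c + WW p n) with hsW | hsW
    · obtain ⟨v, hv, f'', hf'', h1⟩ := hwin s hcs hsW f hf
      choose μ hμ using fun j => X.mult (s - e j) (v j) (hv j)
      set f₁ : GG p →ₗ[KK p] M := f - ∑ j, g j ∘ₗ O.T _ (μ j) - (p : KK p) • f'' with hf₁
      have hf₁A : f₁ ∈ Z.A s := by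
        refine (Z.A s).sub_mem ((Z.A s).sub_mem hf
          (AddSubgroup.sum_mem _ fun j _ => Z.act (by omega) (hg j) (μ j))) ?_
        have h2 : (p : KK p) • f'' = p • f'' := by
          refine LinearMap.ext fun w => ?_
          rw [LinearMap.smul_apply, LinearMap.smul_apply, Nat.cast_smul_eq_nsmul]
        rw [h2]
        exact (Z.A s).nsmul_mem hf'' p
      have hf₁1 : f₁ 1 = 0 := by
        rw [hf₁, LinearMap.sub_apply, LinearMap.sub_apply, LinearMap.sum_apply,
          LinearMap.smul_apply, h1]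
        have h2 : ∀ j, (g j ∘ₗ O.T _ (μ j)) 1 = g j (X.eta (v j)) := by
          intro j
          rw [LinearMap.comp_apply, hμ, _root_.mul_one]
        rw [Finset.sum_congr rfl fun j _ => h2 j]
        abel
      have h2 : f (X.eta z) = ∑ j, g j (X.eta (v j * z)) + f'' (X.eta ((p : KK p) * z)) +
          f₁ (X.eta z) := by
        rw [hf₁, LinearMap.sub_apply, LinearMap.sub_apply, LinearMap.sum_apply,
          LinearMap.smul_apply]
        have h3 : ∀ j, (g j ∘ₗ O.T _ (μ j)) (X.eta z) = g j (X.eta (v j * z)) := by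
          intro j
          rw [LinearMap.comp_apply, hμ, map_mul X.eta]
        rw [Finset.sum_congr rfl fun j _ => h3 j]
        have h4 : f'' (X.eta ((p : KK p) * z)) = (p : KK p) • f'' (X.eta z) := by
          rw [map_mul X.eta, map_natCast X.eta, ← map_smul]
          congr 1
          rw [smul_eq_C_mul, map_natCast]
        rw [h4]
        abel
      rw [h2]
      refine AddSubgroup.add_mem _ (AddSubgroup.add_mem _ ?_ ?_) ?_
      · refine AddSubgroup.mem_sup_left ⟨fun j => v j * z, fun j => ?_, rfl⟩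
        exact HK_mul (hv j) hz (by omega)
      · refine AddSubgroup.mem_sup_right (AddSubgroup.subset_closure ?_)
        refine ⟨s, hcs, f'', hf'', _, ?_, ?_, rfl⟩
        · have h3 : (p : KK p) ∈ Ip p 1 := by
            rw [H746.Ip_one]
            exact p_mem_II p
          rw [add_comm]
          exact Ip_mul p h3 hzL
        · have h3 : (p : KK p) = C (p : ℤ_[p]) := (map_natCast _ _).symm
          rw [h3]
          exact HK_mul (HK_C _) hz (by omega)
      · have h3 := expand_zero (X := X) hz hzL hf₁A hf₁1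
        refine (AddSubgroup.closure_le _).2 ?_ h3
        rintro y ⟨s', hs', f', hf', z', hz', hz'', rfl⟩
        exact ih s' (by omega) (by push_cast at hs; omega) f' hf' z' hz' hz''
    · obtain ⟨f', hf', hff⟩ := genJ_of_ex (J := 0) (fun t ht => by
        have h1 : NJ Z 0 = Z.A := funext NJ_zero
        rw [h1]
        exact hK t ht 0) s hsW f (by rw [NJ_zero]; exact hf)
      have h1 : f (X.eta z) = ∑ a : Fin (n + 1), f' a (X.eta (vK p a * z)) := by
        conv_lhs => rw [hff]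
        rw [LinearMap.sum_apply]
        refine Finset.sum_congr rfl fun a _ => ?_
        rw [map_mul X.eta]
        rfl
      rw [h1]
      refine AddSubgroup.mem_sup_right (AddSubgroup.sum_mem _ fun a _ =>
        AddSubgroup.subset_closure ?_)
      have ha := hf' a
      rw [NJ_zero] at ha
      have h2 := sV_le_WW (p := p) (n := n) (Nat.lt_succ_iff.1 a.2)
      refine ⟨s - sV p a, by omega, f' a, ha, _, ?_, HK_mul (vK_homog _) hz (by omega), rfl⟩
      rw [add_comm]
      exact Ip_mul p (vK_mem (a : ℕ)) hzL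

include hK hg hwin in
theorem mem_DL (k : ℤ) {f : GG p →ₗ[KK p] M} (hk : c ≤ k) (hf : f ∈ Z.A k) (L : ℕ) :
    f 1 ∈ Im X e g k ⊔ DL Z X c L k := by
  induction L with
  | zero =>
    refine AddSubgroup.mem_sup_right (AddSubgroup.subset_closure ?_)
    refine ⟨k, hk, f, hf, 1, Ip_of_nonpos p (by simp) _, ?_, by rw [map_one X.eta]⟩
    rw [sub_self]
    exact isWeightedHomogeneous_one _ _
  | succ L ih =>
    have h1 : DL Z X c L k ≤ Im X e g k ⊔ DL Z X c (L + 1 : ℕ) k := by
      refine (AddSubgroup.closure_le _).2 ?_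
      rintro y ⟨s, hs, f, hf, z, hz, hz', rfl⟩
      have h2 := DL_step (L := (L : ℤ)) hK hg hwin ((k - s).toNat + 1) s hs
        (by push_cast; omega) f hf z hz hz'
      push_cast
      exact h2
    exact (sup_le le_sup_left h1) ih

theorem HK_of_p_mul {k : ℤ} {N : ℕ} {f : KK p} (h : HK p k ((p : KK p) ^ N * f)) : HK p k f := by
  intro E hE
  refine h ?_
  have h4 : (p : KK p) ^ N = C ((p : ℤ_[p]) ^ N) := by
    rw [map_pow, map_natCast]
  rw [h4, coeff_C_mul]
  exact mul_ne_zero (pow_ne_zero _ (by exact_mod_cast hp.out.ne_zero)) hE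

include hK hg hwin in
/-- generation modulo `p` -/
theorem gen_mod_p (k : ℤ) {f : GG p →ₗ[KK p] M} (hk : c ≤ k) (hf : f ∈ Z.A k) :
    ∃ v : Fin r → KK p, (∀ j, HK p (k - e j) (v j)) ∧ ∃ f' ∈ Z.A k,
      f 1 = ∑ j, g j (X.eta (v j)) + (p : KK p) • f' 1 := by
  have h1 := mem_DL hK hg hwin k hk hf ((k - c).toNat + 1)
  obtain ⟨a, ⟨v, hv, rfl⟩, b, hb, hab⟩ := AddSubgroup.mem_sup.1 h1
  suffices h : ∃ f' ∈ Z.A k, b = (p : KK p) • f' 1 by
    obtain ⟨f', hf', rfl⟩ := h
    exact ⟨v, hv, f', hf', hab.symm⟩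
  clear hab h1
  unfold DL at hb
  refine AddSubgroup.closure_induction (p := fun b _ => ∃ f' ∈ Z.A k, b = (p : KK p) • f' 1)
    ?_ ?_ ?_ ?_ hb
  · rintro y ⟨s, hs, f, hf, z, hz, hz', rfl⟩
    obtain ⟨z', hz1⟩ := exists_pow_smul hz' hz 1 (by push_cast; omega)
    have hz2 : HK p (k - s) z' := HK_of_p_mul (N := 1) (by rwa [← hz1])
    obtain ⟨μ, hμ⟩ := X.mult (k - s) z' hz2
    refine ⟨f ∘ₗ O.T _ μ, Z.act (by omega) hf μ, ?_⟩
    rw [LinearMap.comp_apply, hμ, _root_.mul_one, hz1, pow_one, map_mul X.eta, map_natCast X.eta, ← map_smul]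
    congr 1
    rw [smul_eq_C_mul, map_natCast]
  · exact ⟨0, AddSubgroup.zero_mem _, by rw [LinearMap.zero_apply, smul_zero]⟩
  · rintro _ _ _ _ ⟨f₁, h1, rfl⟩ ⟨f₂, h2, rfl⟩
    exact ⟨f₁ + f₂, AddSubgroup.add_mem _ h1 h2, by rw [LinearMap.add_apply, smul_add]⟩
  · rintro _ _ ⟨f₁, h1, rfl⟩
    exact ⟨-f₁, AddSubgroup.neg_mem _ h1, by rw [LinearMap.neg_apply, smul_neg]⟩

include hK hg hwin in
/-- **generators** -/
theorem gen_of_window (k : ℤ) (hk : c ≤ k) (f : GG p →ₗ[KK p] M) (hf : f ∈ Z.A k) :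
    ∃ v : Fin r → KK p, (∀ j, HK p (k - e j) (v j)) ∧ f 1 = ∑ j, g j (X.eta (v j)) := by
  classical
  -- the sequence
  have hs : ∀ f : {f // f ∈ Z.A k}, ∃ (f' : {f // f ∈ Z.A k}) (v : Fin r → KK p),
      (∀ j, HK p (k - e j) (v j)) ∧ f.1 1 = ∑ j, g j (X.eta (v j)) + (p : KK p) • f'.1 1 := by
    rintro ⟨f, hf⟩
    obtain ⟨v, hv, f', hf', h⟩ := gen_mod_p hK hg hwin k hk hf
    exact ⟨⟨f', hf'⟩, v, hv, h⟩
  choose nx v hv hv' using hs
  let sq : ℕ → {f // f ∈ Z.A k} := fun i => Nat.rec ⟨f, hf⟩ (fun _ f => nx f) i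
  have hsq0 : (sq 0).1 = f := rfl
  have hsq : ∀ i, sq (i + 1) = nx (sq i) := fun i => rfl
  have hp1 : (p : KK p) ∈ Ip p 1 := by
    rw [H746.Ip_one]
    exact p_mem_II p
  have hpi : ∀ i : ℕ, (p : KK p) ^ i ∈ Ip p i := by
    intro i
    induction i with
    | zero => exact Ip_of_nonpos p (by simp) _
    | succ i ih =>
      rw [pow_succ, Nat.cast_succ]
      exact Ip_mul p ih hp1
  have hpH : ∀ i : ℕ, HK p 0 ((p : KK p) ^ i) := by
    intro i
    have h3 : (p : KK p) ^ i = C ((p : ℤ_[p]) ^ i) := by rw [map_pow, map_natCast]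
    rw [h3]
    exact HK_C _
  have h1 : ∀ j, ∃ w : KK p, HK p (k - e j) w ∧ ∀ m : ℕ,
      w - ∑ i ∈ Finset.range m, (p : KK p) ^ i * v (sq i) j ∈ Ip p (0 + m) := by
    intro j
    refine exists_KK_sum _ 0 _ (fun i => HK_mul (hpH i) (hv _ j) (by omega)) fun i => ?_
    rw [zero_add]
    exact Ideal.mul_mem_right _ _ (hpi i)
  choose w hw hw' using h1
  refine ⟨w, hw, ?_⟩
  have h2 : ∀ m : ℕ, f 1 = ∑ j, g j (X.eta (∑ i ∈ Finset.range m, (p : KK p) ^ i * v (sq i) j)) +
      (p : KK p) ^ m • (sq m).1 1 := by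
    intro m
    induction m with
    | zero => simp [hsq0]
    | succ m ih =>
      rw [ih, hv' (sq m), ← hsq]
      simp only [Finset.sum_range_succ, map_add, Finset.sum_add_distrib, smul_add, smul_smul,
        ← pow_succ, Finset.smul_sum]
      rw [add_assoc]
      congr 2
      refine Finset.sum_congr rfl fun j _ => ?_
      rw [map_mul X.eta, map_pow X.eta, map_natCast X.eta, ← map_smul]
      congr 1
      rw [smul_eq_C_mul, map_pow, map_natCast]
  rw [← sub_eq_zero]
  refine Z.sep _ fun N => ?_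
  set m : ℕ := N + ∑ j, (k - e j).toNat with hm
  have h3 : ∀ j, ∃ u : KK p,
      w j - ∑ i ∈ Finset.range m, (p : KK p) ^ i * v (sq i) j = (p : KK p) ^ N * u := by
    intro j
    have h4 := hw' j m
    rw [zero_add] at h4
    refine exists_pow_smul (HK_sub (hw j) (HK_sum _ fun i _ => HK_mul (hpH i) (hv _ j)
      (zero_add _))) h4 N ?_
    have h5 : (k - e j).toNat ≤ ∑ j, (k - e j).toNat :=
      Finset.single_le_sum (f := fun j => (k - e j).toNat) (fun j _ => Nat.zero_le _)
        (Finset.mem_univ j)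
    omega
  choose u hu using h3
  refine ⟨(p : KK p) ^ (m - N) • (sq m).1 1 - ∑ j, g j (X.eta (u j)), ?_⟩
  have h5 : (p : KK p) ^ m = (p : KK p) ^ N * (p : KK p) ^ (m - N) := by
    rw [← pow_add]
    congr 1
    omega
  rw [h2 m, smul_sub, smul_smul, ← h5]
  have h6 : ∀ j, g j (X.eta (w j)) =
      g j (X.eta (∑ i ∈ Finset.range m, (p : KK p) ^ i * v (sq i) j)) +
        (p : KK p) ^ N • g j (X.eta (u j)) := by
    intro j
    have h7 : w j = ∑ i ∈ Finset.range m, (p : KK p) ^ i * v (sq i) j + (p : KK p) ^ N * u j := by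
      rw [← hu j]
      ring
    rw [h7, map_add, map_add]
    congr 1
    rw [map_mul X.eta, map_pow X.eta, map_natCast X.eta, ← map_smul]
    congr 1
    rw [smul_eq_C_mul, map_pow, map_natCast]
  rw [Finset.sum_congr rfl fun j _ => h6 j, Finset.sum_add_distrib, Finset.smul_sum]
  abel

end

end Vale.Agent.P221.H128
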